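import Mathlib

/-!
P159 / S (helper446): the probability of the exceptional set of CUT, numbers: in terms of
`Z = y ^ (-c3)` everything is `≤ exp (-4 Z)`.
-/

open Filter Topology

namespace Vale.Agent.P159.H446.Nc

lemma pow_le_exp {Z D : ℝ} (hZ : 1 ≤ Z) (hD : 0 ≤ D) : Z ^ D ≤ Real.exp (D * Z) := by
  have h0 : 0 < Z := by linarith
  rw [Real.rpow_def_of_pos h0]
  refine Real.exp_le_exp.2 ?_
  have h1 := Real.log_le_sub_one_of_pos h0
  nlinarith

/-- the large oscillation against the probability of a typical location -/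
lemma num_a {C D : ℝ} (hC : 0 ≤ C) (hD : 0 ≤ D) : ∀ᶠ Z : ℝ in atTop,
    Z ^ D * (48 * Z ^ D * (1 + Real.exp (C * Z ^ 2)) * Real.exp (-Z ^ 3)) ≤
      Real.exp (-(5 * Z)) := by
  filter_upwards [eventually_ge_atTop (101 + 2 * D + C)] with Z hZ
  have hZ1 : 1 ≤ Z := by linarith
  have h1 := pow_le_exp hZ1 hD
  have h2 : 0 ≤ Z ^ D := Real.rpow_nonneg (by linarith) _
  have h3 : 1 + Real.exp (C * Z ^ 2) ≤ 2 * Real.exp (C * Z ^ 2) := by
    have := Real.one_le_exp (show 0 ≤ C * Z ^ 2 by positivity)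
    linarith
  have h4 : (96 : ℝ) ≤ Real.exp 95 := by
    have := Real.add_one_le_exp (95 : ℝ)
    linarith
  calc Z ^ D * (48 * Z ^ D * (1 + Real.exp (C * Z ^ 2)) * Real.exp (-Z ^ 3))
      ≤ Real.exp (D * Z) * (48 * Real.exp (D * Z) * (2 * Real.exp (C * Z ^ 2)) *
          Real.exp (-Z ^ 3)) := by gcongr
    _ = 96 * Real.exp (D * Z + D * Z + C * Z ^ 2 + -Z ^ 3) := by
        rw [Real.exp_add, Real.exp_add, Real.exp_add]
        ring
    _ ≤ Real.exp 95 * Real.exp (D * Z + D * Z + C * Z ^ 2 + -Z ^ 3) :=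
        mul_le_mul_of_nonneg_right h4 (Real.exp_pos _).le
    _ = Real.exp (95 + (D * Z + D * Z + C * Z ^ 2 + -Z ^ 3)) := by rw [← Real.exp_add]
    _ ≤ Real.exp (-(5 * Z)) := by
        refine Real.exp_le_exp.2 ?_
        have e1 : (101 + 2 * D + C) * Z ^ 2 ≤ Z ^ 3 := by
          have := mul_le_mul_of_nonneg_right hZ (sq_nonneg Z)
          calc _ ≤ Z * Z ^ 2 := this
            _ = Z ^ 3 := by ring
        have e2 : Z ≤ Z ^ 2 := by nlinarith
        nlinarith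

/-- the price of the even part -/
lemma num_b {C D : ℝ} : ∀ᶠ Z : ℝ in atTop,
    Z ^ D * (2 * Real.exp (C * (Real.log Z + 1) + 3 / 2 + 2 * Z - 8 * Z)) ≤
      Real.exp (-(5 * Z)) := by
  have hl := Real.isLittleO_log_id_atTop.bound (c := 1 / (2 * (|C| + |D| + 1))) (by positivity)
  filter_upwards [hl, eventually_ge_atTop (2 * |C| + 20), eventually_gt_atTop 1] with Z h1 h2 h3
  have h0 : 0 < Z := by linarith
  have hlog : 0 ≤ Real.log Z := Real.log_nonneg h3.le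
  have h4 : Real.log Z * (|C| + |D| + 1) ≤ Z / 2 := by
    have e : ‖Real.log Z‖ = Real.log Z := by rw [Real.norm_eq_abs, abs_of_nonneg hlog]
    have e' : ‖id Z‖ = Z := by
      rw [id, Real.norm_eq_abs, abs_of_pos h0]
    rw [e, e'] at h1
    have hp : 0 < |C| + |D| + 1 := by positivity
    calc Real.log Z * (|C| + |D| + 1) ≤ 1 / (2 * (|C| + |D| + 1)) * Z * (|C| + |D| + 1) :=
          mul_le_mul_of_nonneg_right h1 hp.le
      _ = Z / 2 := by field_simp
  have h5 : (2 : ℝ) ≤ Real.exp 1 := by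
    have := Real.add_one_le_exp (1 : ℝ)
    linarith
  rw [Real.rpow_def_of_pos h0]
  calc Real.exp (Real.log Z * D) *
        (2 * Real.exp (C * (Real.log Z + 1) + 3 / 2 + 2 * Z - 8 * Z))
      ≤ Real.exp (Real.log Z * D) * (Real.exp 1 *
          Real.exp (C * (Real.log Z + 1) + 3 / 2 + 2 * Z - 8 * Z)) := by gcongr
    _ = Real.exp (Real.log Z * D + (1 + (C * (Real.log Z + 1) + 3 / 2 + 2 * Z - 8 * Z))) := by
        rw [← Real.exp_add, ← Real.exp_add]
    _ ≤ Real.exp (-(5 * Z)) := by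
        refine Real.exp_le_exp.2 ?_
        have e1 : Real.log Z * D ≤ Real.log Z * |D| :=
          mul_le_mul_of_nonneg_left (le_abs_self D) hlog
        have e2 : C * (Real.log Z + 1) ≤ |C| * (Real.log Z + 1) :=
          mul_le_mul_of_nonneg_right (le_abs_self C) (by linarith)
        have e3 := abs_nonneg C
        nlinarith

/-- **the exceptional set of CUT** -/
theorem num_cut {C D : ℝ} (hC : 0 ≤ C) (hD : 0 ≤ D) : ∀ᶠ Z : ℝ in atTop,
    ∀ (m : ℕ) (T Ω ε K0 aa r p0 : ℝ), (m : ℝ) ≤ Z ^ D → 0 ≤ T → T ≤ Z ^ D → 0 ≤ Ω →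
      Ω ≤ Real.exp (C * Z ^ 2) → 0 ≤ ε → ε ≤ Real.exp (-Z ^ 3) → K0 ≤ C * (Real.log Z + 1) →
      aa ≤ Z / 64 → r ≤ 1 → p0 ≤ Real.exp (-(5 * Z)) →
      p0 + 2 * Real.exp (-(6 * Z)) + m * (48 * T * (1 + Ω) * ε +
        2 * Real.exp (K0 + r / 2 + 1 + 128 * aa - 8 * Z)) ≤ Real.exp (-(4 * Z)) := by
  filter_upwards [num_a hC hD, num_b (C := C) (D := D), eventually_ge_atTop 4] with Z h1 h2 h3
  intro m T Ω ε K0 aa r p0 hm hT0 hT hΩ0 hΩ hε0 hε hK haa hr hp0
  have hZD : 0 ≤ Z ^ D := Real.rpow_nonneg (by linarith) _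
  have hm0 : (0 : ℝ) ≤ m := Nat.cast_nonneg m
  have a1 : m * (48 * T * (1 + Ω) * ε) ≤ Real.exp (-(5 * Z)) := by
    refine le_trans ?_ h1
    gcongr
  have a2 : m * (2 * Real.exp (K0 + r / 2 + 1 + 128 * aa - 8 * Z)) ≤ Real.exp (-(5 * Z)) := by
    refine le_trans ?_ h2
    refine mul_le_mul hm ?_ (by positivity) hZD
    have : Real.exp (K0 + r / 2 + 1 + 128 * aa - 8 * Z) ≤
        Real.exp (C * (Real.log Z + 1) + 3 / 2 + 2 * Z - 8 * Z) :=
      Real.exp_le_exp.2 (by linarith)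
    linarith
  have a3 : Real.exp (-(6 * Z)) ≤ Real.exp (-(5 * Z)) := Real.exp_le_exp.2 (by linarith)
  have a4 : 5 * Real.exp (-(5 * Z)) ≤ Real.exp (-(4 * Z)) := by
    have e1 : Real.exp (-(5 * Z)) = Real.exp (-(4 * Z)) * Real.exp (-Z) := by
      rw [← Real.exp_add]
      congr 1
      ring
    have e2 : Real.exp (-Z) ≤ 1 / 5 := by
      have h6 : (5 : ℝ) ≤ Real.exp Z := by
        have := Real.add_one_le_exp Z
        linarith
      rw [Real.exp_neg, one_div]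
      exact inv_anti₀ (by norm_num) h6
    rw [e1]
    have := Real.exp_pos (-(4 * Z))
    nlinarith
  rw [mul_add]
  linarith

end Vale.Agent.P159.H446.Nc
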