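import Vale.Agent.P159.H446.Rs1
import Vale.Agent.P159.H446.Nc1
import Vale.Agent.P159.H145.Spc1
import Vale.Agent.P159.H663.Drl4
import Vale.Agent.P159.H663.Drl5
import Vale.Agent.P159.H856.Dl3

/-!
P159 / S (helper446): CUT at a pair in the letters of `Spc0` / `Spc1` (helper145).

* `Om`, `osc_Om` : the oscillation of the tent average off an event of probability `exp (-Z)`;
* `del_LT` : `Del ≤ Δ` in the letters of helper191;
* `nC` : the number of cells of side `lC` of the torus;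
* **`cutP_of`** : `CutP` at the pair `R`.
-/

open scoped Matrix ENNReal
open Finset MeasureTheory

set_option linter.unusedSectionVars false

namespace Vale.Agent.P159.H446.Pr

open Vale.Agent.P159.H37
open Vale.Agent.P159.H770 (Ed wTD wTD_zero gwf_wTD)
open Vale.Agent.P159.H963 (Anm)
open Vale.Agent.P159.H883 (nuM prob_nuM bw_wT mf_scalar trS Psi)
open Vale.Agent.P159.H552.Sm
open Vale.Agent.P159.H764.Evq
open Vale.Agent.P159.H191 (TP YP th nd Nod Plt Wts GT RT LT lcT dcs plp)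
open Vale.Agent.P159.H817 (sz gr bD U e1 eF)
open Vale.Agent.P159.TM.SpecC (wT)
open Vale.Agent.P159.TM.Spec (V)
open Vale.Agent.P159.H253.Sm (wU dU cz)
open Vale.Agent.P159.H663.Dr (tT)
open Vale.Agent.P159.H773 (sd sd_ge nuF PsF cMn Pth)
open Vale.Agent.P159.H145.Sp (AxP CutP HF dcR plR lC lR wB Ps cM gC)
open Vale.Agent.P159.H856.Dl (Del)

noncomputable section

/-! ### the oscillation -/

section osc

variable {N : ℕ} [NeZero N] {b t : ℝ}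

/-- bound of the oscillation of the tent average -/
def Om (b : ℝ) (N s : ℕ) (Z : ℝ) : ℝ :=
  4 * (√(65 + 64 * b) * ((N : ℝ) / s) ^ 2) * (Z + Real.log (2 * (N : ℝ) ^ 2))

lemma Om_nonneg (hb : 0 < b) {s : ℕ} {Z : ℝ} (hZ : 0 ≤ Z) : 0 ≤ Om b N s Z := by
  unfold Om
  have hN : (1 : ℝ) ≤ N := by exact_mod_cast NeZero.pos N
  have h1 : 0 ≤ Real.log (2 * (N : ℝ) ^ 2) := Real.log_nonneg (by nlinarith)
  positivity

/-- the oscillation event -/
theorem osc_Om (hb : 0 < b) (ht : 0 < t) (htN : 1 ≤ t * (N : ℝ) ^ 2) {s : ℕ} (hs : 0 < s)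
    (hsN : s ≤ N) {Z : ℝ} :
    (nuM (wT b N) (t • (1 : Matrix (V N) (V N) ℝ)) 0).real
      {F | ∃ x y, Om b N s Z < |tT N s F x - tT N s F y|} ≤ Real.exp (-Z) := by
  have hN1 : (1 : ℝ) ≤ N := by exact_mod_cast NeZero.pos N
  have hN : (0 : ℝ) < N := by linarith
  have hs0 : (0 : ℝ) < s := by exact_mod_cast hs
  have hr : 1 ≤ (N : ℝ) / s := (one_le_div hs0).2 (by exact_mod_cast hsN)
  set u : ℝ := (N : ℝ) / s with hu
  have hc : (0 : ℝ) < 65 + 64 * b := by positivity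
  set σ : ℝ := √(65 + 64 * b) * u ^ 2 with hσ
  have hσ0 : 0 < σ := by positivity
  have hσ2 : σ ^ 2 = (65 + 64 * b) * u ^ 4 := by
    rw [hσ, mul_pow, Real.sq_sqrt hc.le]
    ring
  have hu2 : 1 ≤ u ^ 2 := one_le_pow₀ hr
  have h1 : (t * (s : ℝ) ^ 2)⁻¹ + 64 * b * u ^ 4 ≤ σ ^ 2 := by
    have h2 : (t * (s : ℝ) ^ 2)⁻¹ ≤ u ^ 2 := by
      rw [inv_le_iff_one_le_mul₀ (by positivity)]
      have : u ^ 2 * (t * (s : ℝ) ^ 2) = t * (N : ℝ) ^ 2 := by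
        rw [hu]
        field_simp
      linarith
    rw [hσ2]
    nlinarith
  have h2 : 32 * u ^ 4 ≤ σ ^ 2 := by
    rw [hσ2]
    nlinarith [mul_nonneg hb.le (by positivity : (0 : ℝ) ≤ u ^ 4), pow_pos (by linarith : 0 < u) 4]
  have key := H663.Dr.osc_tT (N := N) hb ht 0 hs hsN hσ0 h1 h2
    (2 * σ * (Z + Real.log (2 * (N : ℝ) ^ 2)))
  have e1 : 2 * (2 * σ * (Z + Real.log (2 * (N : ℝ) ^ 2))) = Om b N s Z := by
    rw [Om, hσ, hu]
    ring
  rw [e1] at key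
  refine key.trans (le_of_eq ?_)
  have e2 : 2 * σ * (Z + Real.log (2 * (N : ℝ) ^ 2)) / (2 * σ) = Z + Real.log (2 * (N : ℝ) ^ 2) := by
    field_simp
  rw [e2, neg_add, Real.exp_add, Real.exp_neg (Real.log _), Real.exp_log (by positivity)]
  field_simp

/-- the number `Δ` -/
lemma del_LT (η : Ed N → ℤ) (φ : V N → ℝ) {Δ : ℝ}
    (h : Del (wTD N b) (t • (1 : Matrix (V N) (V N) ℝ)) t 0 η φ ≤ Δ) :
    lcT N b η - Δ ≤ LT N b t (η, φ) - LT N b t 0 := by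
  unfold Del H856.Dl.CW H883.gP at h
  simp only at h
  rw [add_zero] at h
  have q0 : qf (H963.An (wTD N b 0) (t • (1 : Matrix (V N) (V N) ℝ)) t 0) (0 : V N → ℝ) = 0 :=
    H37.qf_zero_vec _
  rw [q0] at h
  have e1 : LT N b t (η, φ) =
      Real.log (Zn (wTD N b η) (t • (1 : Matrix (V N) (V N) ℝ)) φ) := rfl
  have e2 : LT N b t 0 = Real.log (Zn (wTD N b 0) (t • (1 : Matrix (V N) (V N) ℝ)) 0) := rfl
  unfold lcT
  rw [e1, e2]
  rw [wTD_zero] at h ⊢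
  linarith

/-- the smeared family in the letters of helper253 -/
lemma trX_dU (η : Ed N → ℤ) (φ : V N → ℝ) (ρ : ℕ) :
    (fun v => H764.Evq.trX (aU N ρ v) (η, φ)) = dU N η ρ fun u => trS (-cz N u) φ := by
  funext v
  rfl

end osc

/-! ### the torus of the pair -/

/-- the number of cells of side `lC` -/
def nC (i n k R : ℕ) : ℕ := 2 ^ (i + Nat.clog 2 R - (n + k / 16))

instance (i n k R : ℕ) : NeZero (nC i n k R) := ⟨by unfold nC; positivity⟩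

lemma sd_eq (i R : ℕ) : sd i R = 2 ^ (i + Nat.clog 2 R) := by
  unfold H773.sd
  rw [pow_add]

lemma clog_ge {n k R : ℕ} (hR : 2 ^ (n + k) ≤ R) : n + k ≤ Nat.clog 2 R := by
  have h1 := Nat.le_pow_clog (b := 2) (by norm_num) R
  exact (Nat.pow_le_pow_iff_right (by norm_num)).1 (hR.trans h1)

lemma sd_nC {i n k R : ℕ} (hR : 2 ^ (n + k) ≤ R) : sd i R = nC i n k R * lC n k := by
  have h1 := clog_ge hR
  unfold nC H145.Sp.lC
  rw [sd_eq, ← pow_add]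
  congr 1
  have : k / 16 ≤ k := Nat.div_le_self _ _
  omega

lemma log_ge {n k R : ℕ} (hR : 2 ^ (n + k) ≤ R) : n + k ≤ Nat.log 2 R :=
  Nat.le_log_of_pow_le (by norm_num) hR

lemma lR_le {n k R : ℕ} (hk : 24 ≤ k) (hR : 2 ^ (n + k) ≤ R) : 64 * lR n R ≤ R := by
  have h1 := log_ge hR
  have h2 : 2 ^ Nat.log 2 R ≤ R := Nat.pow_log_le_self 2 (by
    have := Nat.one_le_two_pow (n := n + k)
    omega)
  unfold H145.Sp.lR H145.Sp.lK H145.Sp.lE
  calc 64 * 2 ^ (n + 3 * (Nat.log 2 R - n) / 4) =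
        2 ^ (6 + (n + 3 * (Nat.log 2 R - n) / 4)) := by
        rw [pow_add 2 6]
        norm_num
    _ ≤ 2 ^ Nat.log 2 R := Nat.pow_le_pow_right (by norm_num) (by omega)
    _ ≤ R := h2

lemma lC_le {n k R : ℕ} (hR : 2 ^ (n + k) ≤ R) : lC n k ≤ lR n R := by
  have h1 := log_ge hR
  unfold H145.Sp.lC H145.Sp.lR H145.Sp.lK H145.Sp.lE
  exact Nat.pow_le_pow_right (by norm_num) (by omega)

lemma pow_le_lC (n k : ℕ) : 2 ^ n ≤ lC n k := by
  unfold H145.Sp.lC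
  exact Nat.pow_le_pow_right (by norm_num) (Nat.le_add_right _ _)

/-! ### `CutP` -/

/-- **CUT at the pair `R`** -/
theorem cutP_of {b t : ℝ} (hb : 0 < b) (ht : 0 < t) {i n k q R : ℕ}
    (htN : 1 ≤ t * (sd i R : ℝ) ^ 2) (hi : 2 ≤ i) (hk : 24 ≤ k) (hR : 2 ^ (n + k) ≤ R)
    (hq : 0 < q) (hqN : q ≤ sd i R) {η : ∀ R, Ed (sd i R) → ℤ} {φ : ∀ R, V (sd i R) → ℝ}
    (A : AxP i η φ) {μ : V (sd i R) → ℝ} (hμ0 : ∀ z, 0 ≤ μ z) (hμ : ∑ z, μ z = 1)
    (g : V (sd i R) → ℝ) {e e4 δ δ' δ'' κ Δ Ev K0 r aa ε ε' Z p0 p s : ℝ} (he : 0 ≤ e)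
    (he4 : 0 ≤ e4) (hδ' : 0 < δ') (hδ : δ' + δ'' / 2 ≤ δ) (hε0 : 0 ≤ ε) (hε0' : 0 ≤ ε')
    (hZ : 0 ≤ Z) (hK0 : 0 ≤ K0 + r / 2)
    (hΔ : Del (wTD (sd i R) b) (t • (1 : Matrix (V (sd i R)) (V (sd i R)) ℝ)) t 0 (η R) (φ R) ≤ Δ)
    (hS : ∀ ψ : ℤ × ℤ → V (sd i R) → ℝ,
      √(SS (wTD (sd i R) b) 0 (wU (2 ^ n)) (dU (sd i R) (η R) (2 ^ n) ψ)) ≤
        Real.exp K0 * cM b i η R ^ 2)
    (ha : ∀ j < nC i n k R, ∀ i' ≤ nC i n k R * nC i n k R,
      qf (Anm (sd i R) b t) (H1 (sd i R) (nC i n k R) (lC n k) (tT (sd i R) q)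
        (U (30 * lR n R) (lR n R)) μ (wB (sd i R) (2 ^ n)) 0 (R • e1) g j i') ≤ aa)
    (hH : ∀ j < nC i n k R, ∀ i' ≤ nC i n k R * nC i n k R,
      RT (sd i R) b t ((4 : ℝ) • H1 (sd i R) (nC i n k R) (lC n k) (tT (sd i R) q)
        (U (30 * lR n R) (lR n R)) μ (wB (sd i R) (2 ^ n)) 0 (R • e1) g j i') ≤ δ'')
    (hε : ∀ j < nC i n k R, ∀ i' ≤ nC i n k R * nC i n k R, (nuF b (sd i) t R).real
      {F | r < RT (sd i R) b t ((32 : ℝ) • TP (lC n k) (U (30 * lR n R) (lR n R)) μ 0 (R • e1)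
        (sj (sd i R) (nC i n k R) (lC n k) j i') (tT (sd i R) q F))} ≤ ε)
    (hε' : ∀ j < nC i n k R, ∀ i' ≤ nC i n k R * nC i n k R, (nuF b (sd i) t R).real
      {F | δ' < RT (sd i R) b t ((4 : ℝ) • TP (lC n k) (U (30 * lR n R) (lR n R)) μ 0 (R • e1)
        (sj (sd i R) (nC i n k R) (lC n k) j i') (tT (sd i R) q F))} ≤ ε')
    {G0 : Set (V (sd i R) → ℝ)} (hG0 : (nuF b (sd i) t R).real G0ᶜ ≤ p0)
    (hnd : ∀ F ∈ G0, (∀ x y, |tT (sd i R) q F x - tT (sd i R) q F y| ≤ Om b (sd i R) q Z) →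
      ∀ j < nC i n k R, ∀ i' < nC i n k R * nC i n k R,
      17 * lC n k < sz (nd (sd i R) (nC i n k R) (lC n k) i' - 0) →
      17 * lC n k < sz (nd (sd i R) (nC i n k R) (lC n k) i' - R • e1) →
      Nod (sd i R) b t (η R) (φ R) (lC n k) (nd (sd i R) (nC i n k R) (lC n k) i')
        (Y1 (sd i R) (nC i n k R) (lC n k) (U (30 * lR n R) (lR n R)) μ (wB (sd i R) (2 ^ n))
          0 (R • e1) (tT (sd i R) q (F + g)) g j i' -
        Y1 (sd i R) (nC i n k R) (lC n k) (U (30 * lR n R) (lR n R)) μ (wB (sd i R) (2 ^ n))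
          0 (R • e1) (tT (sd i R) q (F + g)) g j (i' + 1)) (κ + 4 * Δ + 3 * Ev) e e4 δ Ev)
    (hp : p0 + 3 * Real.exp (-Z) + (nC i n k R * (nC i n k R * nC i n k R + 1) : ℕ) *
      (48 * √(t * (sd i R : ℝ) ^ 2) * (1 + Om b (sd i R) q Z) * ε +
        2 * Real.exp (K0 + r / 2 + 1 + 128 * aa - 8 * κ)) +
      (nC i n k R * (nC i n k R * nC i n k R + 1) : ℕ) *
        (72 * (t * (sd i R : ℝ) ^ 2) * (1 + Om b (sd i R) q Z ^ 2) / δ' * ε') ≤ p)
    (hs : (nC i n k R : ℝ) * ((nC i n k R * nC i n k R : ℕ) * (e + e4 + 2 * δ)) ≤ s) :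
    CutP b i η φ t n k q R μ g p s := by
  have hl : 0 < lC n k := by unfold H145.Sp.lC; positivity
  have hR1 : 1 ≤ R := (Nat.one_le_two_pow (n := n + k)).trans hR
  have hsd : 2 ^ i * R ≤ sd i R := sd_ge i R
  have h4 : 4 * R ≤ sd i R := by
    have h2 : 2 ^ 2 ≤ 2 ^ i := Nat.pow_le_pow_right (by norm_num) hi
    exact (Nat.mul_le_mul_right R h2).trans hsd
  have hlR := lR_le hk hR
  have hlC := lC_le hR
  have h2n := pow_le_lC n k
  have hn1 : 1 ≤ 2 ^ n := Nat.one_le_two_pow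
  have hw : wB (sd i R) (2 ^ n) = wV (sd i R) (2 ^ n) := (wV_eq (by omega)).symm
  have hsz : sz ((R • e1 : V (sd i R)) - 0) = R := by
    rw [sub_zero]
    exact H817.sz_ne1 (by omega)
  have hη : ∀ e, ((η R e : ℤ) : ℝ) + gr (φ R) e = bD (0 : V (sd i R)) (R • e1) e := by
    intro e
    have := congrFun (A.bd R hR1) e
    rw [this]
    rfl
  have hP : Plt (lC n k) (U (30 * lR n R) (lR n R)) (0 : V (sd i R)) (R • e1) :=
    plt_pla hl hlC (by rw [hsz]; omega)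
  rw [hw] at ha hH hnd
  have hCT : Real.exp (lcT (sd i R) b (η R)) = cM b i η R := by
    unfold lcT
    rw [Real.exp_log]
    · rfl
    · exact H773.cMn_pos (b := b) (Nf := sd i) (wD := fun R => wTD (sd i R) b (η R)) hb
        (fun R => H883.bw_wTD hb (η R)) R
  have hS' : √(SS (wTD (sd i R) b) 0 (wU (2 ^ n))
      (fun v => H764.Evq.trX (aU (sd i R) (2 ^ n) v) (η R, φ R))) ≤
      Real.exp K0 * Real.exp (lcT (sd i R) b (η R)) ^ 2 := by
    rw [hCT, trX_dU]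
    exact hS fun u => trS (-cz (sd i R) u) (φ R)
  have hSt : ∀ a F, tT (sd i R) q (trS a F) = trS a (tT (sd i R) q F) :=
    fun a F => H663.Dr.tT_tr F a
  have hSc : ∀ (F : V (sd i R) → ℝ) (c : ℝ), tT (sd i R) q (fun x => F x + c) =
      fun x => tT (sd i R) q F x + c := fun F c => H663.Dr.tT_addc hq F c
  have hosc := osc_Om (N := sd i R) (Z := Z) hb ht htN hq hqN
  have hpr : IsProbabilityMeasure (nuF b (sd i) t R) :=
    prob_nuM (H963.gw_wT hb.le) (bw_wT hb) (mf_scalar ht) 0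
  have hrt := rt_all (ρ := 2 ^ n) (l := lC n k) (n := nC i n k R) hb ht hμ0 hμ 0 (R • e1)
    (pla_nonneg (lR n R)) (pla_le_one (lR n R)) (H447.cont_tT q) hSt hSc
    (Ω := Om b (sd i R) q Z) hδ' hε0' hε'
  set B2 : Set (V (sd i R) → ℝ) :=
    {F | ∃ x y, Om b (sd i R) q Z < |tT (sd i R) q F x - tT (sd i R) q F y|} with hB2
  set B3 : Set (V (sd i R) → ℝ) := {F | (∀ x y, |tT (sd i R) q F x - tT (sd i R) q F y| ≤
    Om b (sd i R) q Z) ∧ ∃ j < nC i n k R, ∃ i' ≤ nC i n k R * nC i n k R, 2 * δ' <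
      RT (sd i R) b t ((4 : ℝ) • YP (lC n k) (U (30 * lR n R) (lR n R)) μ
        (wV (sd i R) (2 ^ n)) 0 (R • e1) (sj (sd i R) (nC i n k R) (lC n k) j i')
          (tT (sd i R) q F))} with hB3
  have hG1 : (nuF b (sd i) t R).real (G0 ∩ B2ᶜ ∩ B3ᶜ)ᶜ ≤ p0 + Real.exp (-Z) +
      (nC i n k R * (nC i n k R * nC i n k R + 1) : ℕ) *
        (72 * (t * (sd i R : ℝ) ^ 2) * (1 + Om b (sd i R) q Z ^ 2) / δ' * ε') := by
    have e1 : (G0 ∩ B2ᶜ ∩ B3ᶜ)ᶜ = G0ᶜ ∪ B2 ∪ B3 := by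
      rw [Set.compl_inter, Set.compl_inter, compl_compl, compl_compl]
    rw [e1]
    have h1 := measureReal_union_le (μ := nuF b (sd i) t R) (G0ᶜ ∪ B2) B3
    have h2 := measureReal_union_le (μ := nuF b (sd i) t R) G0ᶜ B2
    have h3 : (nuF b (sd i) t R).real B2 ≤ Real.exp (-Z) := hosc
    have h4 : (nuF b (sd i) t R).real B3 ≤
      (nC i n k R * (nC i n k R * nC i n k R + 1) : ℕ) *
        (72 * (t * (sd i R : ℝ) ^ 2) * (1 + Om b (sd i R) q Z ^ 2) / δ' * ε') := hrt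
    linarith
  obtain ⟨G, g1, g2, g3⟩ := cut_pair1 (N := sd i R) (n := nC i n k R) (l := lC n k) (b := b)
    (t := t) (δ := δ) hb ht htN (sd_nC hR) hl (by omega) hη (ρ := 2 ^ n) hP
    (pla_nonneg (lR n R))
    (pla_le_one (lR n R)) (by rw [hsz]; omega) hμ0 hμ (S0 := tT (sd i R) q)
    (H447.cont_tT q) H663.Dr.tT_add hSt hSc g
    (Ω := Om b (sd i R) q Z) (pΩ := Real.exp (-Z)) he he4
    (by
      have h1 : 0 < nC i n k R := NeZero.pos _
      have h2 := (H191.RT_nonneg (N := sd i R) hb ht _).trans (hH 0 h1 0 (Nat.zero_le _))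
      linarith) hε0 (Om_nonneg hb hZ) hK0
    (del_LT (η R) (φ R) hΔ) hS' ha hε hosc (G0 := G0 ∩ B2ᶜ ∩ B3ᶜ) hG1
    (fun F hF => hnd F hF.1.1)
    (fun F hF j hj i' hi' => by
      refine (hR_of hb ht H663.Dr.tT_add ?_ (hH j hj i' hi')).trans hδ
      by_contra hc
      refine hF.2 ⟨fun x y => ?_, j, hj, i', hi', not_le.1 hc⟩
      by_contra hc'
      exact hF.1.2 ⟨x, y, not_le.1 hc'⟩)
  refine ⟨G, g1, le_trans g2 (le_trans (le_of_eq ?_) hp), fun F hF => ?_⟩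
  · ring
  · have h := (g3 F hF).trans hs
    rw [← hw] at h
    exact h

end

end Vale.Agent.P159.H446.Pr
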