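import Vale.Agent.P159.H446.Cut7
import Vale.Agent.P159.H270.Ce4
import Vale.Agent.P159.H883.E4s
import Vale.Agent.P159.H816.Sm3
import Vale.Agent.P159.H37.Lq6

/-!
P159 / S (helper446): the field `cut`, last part: typical locations from helper270's `cut_flow`,
smooth real fields from helper816's `smK_flow`; what is left is the statement `NdW` on the nodes
(helper191).
-/

open scoped Matrix ENNReal
open Finset MeasureTheory Filter Topology

set_option linter.unusedSectionVars false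

namespace Vale.Agent.P159.H446.Pr

open Vale.Agent.P159.H770 (Ed wTD)
open Vale.Agent.P159.H817 (sz U e1)
open Vale.Agent.P159.TM.Spec (V)
open Vale.Agent.P159.H773 (sd nuF)
open Vale.Agent.P159.H145.Sp (AxP CutP lR lC wB gC muK kapF qF sF scF scF_le)
open Vale.Agent.P159.H856.Dl (Del)
open Vale.Agent.P159.H972 (Par Good tn lg)
open Vale.Agent.P159.H801 (SFlow itw)
open Vale.Agent.P159.H37.Sf (kf kE1 Win)

noncomputable section

/-- typical locations from helper270's events -/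
lemma teP_of {b t L p Zm : ℝ} (hb : 0 < b) (ht : 0 < t) {i n k q R : ℕ} {μ : V (sd i R) → ℝ}
    (h : H270.Ce.CutE b t L p Zm i n k q R μ) {z r : ℝ} (hz : |z| ≤ Zm) (hr : L ≤ r) :
    TeP b t i n k q R μ z r p := by
  have hpr : IsProbabilityMeasure (nuF b (sd i) t R) :=
    H883.prob_nuM (H963.gw_wT hb.le) (H883.bw_wT hb) (H883.mf_scalar ht) 0
  intro j hj i' _
  refine le_trans (measureReal_mono fun F hF => ?_) (h z hz j hj i' 0 (R • e1))
  exact lt_of_le_of_lt hr hF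

/-- the profile of the mean, helper846's letters -/
lemma pf_kapF (ck : ℝ) (y : ℕ → ℝ) {n : ℕ} (hn : 2 ≤ n) {i R : ℕ}
    (hR : lC n (kf ck y n) ≤ sd i R) :
    H846.Tp.Pf (lC n (kf ck y n)) (muK (sd i R) (lC n (kf ck y n)) (kapF ck y n)) 16 := by
  obtain ⟨m, hm⟩ : ∃ m, lC n (kf ck y n) = 4 * m ∧ 0 < m := by
    refine ⟨2 ^ (n + kf ck y n / 16 - 2), ?_, by positivity⟩
    unfold H145.Sp.lC
    rw [show (4 : ℕ) = 2 ^ 2 by norm_num, ← pow_add]
    congr 1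
    omega
  obtain ⟨hm, hm0⟩ := hm
  have e : lC n (kf ck y n) / 4 = m := by omega
  have h2 := H663.Dr.wts_kT (N := sd i R) (h := lC n (kf ck y n) / 4) (ρ := lC n (kf ck y n))
    (by omega) (by omega)
  refine ⟨h2.nn, h2.one, fun z hz => (h2.sup z hz).trans (by omega), fun z => ?_⟩
  refine (H883e.muK_le (by omega) (by omega) (by omega) z).trans (le_of_eq ?_)
  rw [e, hm]
  have : (0 : ℝ) < m := by exact_mod_cast hm0
  push_cast
  field_simp
  norm_num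

section flow

variable {P : Par} {b σ c c1 q2 qx : ℝ} {a y ε xs : ℕ → ℝ} {c' r' q' A : ℝ} {N0 : ℕ}

/-- **the statement on the nodes**, letters of the final instance -/
def NdW (P : Par) (b β C2 A0 : ℝ) (Am i : ℕ) (ck c1 : ℝ) (a y ε : ℕ → ℝ)
    (η : ∀ R, Ed (sd i R) → ℤ) (φ : ∀ R, V (sd i R) → ℝ) (Ev : ℝ) : Prop :=
  Win P b β C2 A0 Am i ck a y ε fun n R =>
    NdP b (tn n) i n (kf ck y n) (qF c1 y n) R η φ
      (muK (sd i R) (lC n (kf ck y n)) (kapF ck y n)) (gC i n (kE1 P ck y ε n) R)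
      (Om b (sd i R) (qF c1 y n) (6 * y n ^ (-(c1 / 2))))
      (y n ^ (-(c1 / 2)) + 4 * y n ^ (-(c1 / 2 / 2)) + 3 * Ev) (y n ^ (9 / 8 : ℝ))
      (y n ^ (9 / 8 : ℝ)) (y n ^ (9 / 8 : ℝ)) Ev (Real.exp (-(5 * y n ^ (-(c1 / 2)))))

end flow

/-- **CUT ALONG THE FLOW** from the energy number and the nodes -/
theorem cut_ev {b b1 b2 pf : ℝ} (hb1 : 0 < b1) (h1 : b1 ≤ b) (hpf : 0 < pf) (Q : ℕ) :
    Vale.Agent.P159.H801.Ev b1 b2 pf Q fun P c1 =>
      ∀ {σ c q2 qx : ℝ} {a y ε xs : ℕ → ℝ} {c' r q A : ℝ} {N : ℕ},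
      SFlow P b σ c c1 q2 qx a y ε xs c' r q A N → 0 ≤ σ → σ ≤ 1 / 6 →
      ∀ ck : ℝ, 0 < ck → 2 * P.th ≤ ck → ck ≤ P.thp → ∀ c4 : ℝ, c4 ≤ 1 / 16 →
      ∀ (β C2 A0 : ℝ) (Am : ℕ), 1 / 4 ≤ β → β < 1 / 2 → 1 ≤ C2 → 1 ≤ Am →
      ∃ i0 : ℕ, ∀ i, i0 ≤ i → ∀ (η : ∀ R, Ed (sd i R) → ℤ) (φ : ∀ R, V (sd i R) → ℝ),
        AxP i η φ → ∀ Ev : ℝ,
        Win P b β C2 A0 Am i ck a y ε (fun n R =>
          Del (wTD (sd i R) b) (tn n • (1 : Matrix (V (sd i R)) (V (sd i R)) ℝ)) (tn n) 0 (η R)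
            (φ R) ≤ y n ^ (-(c1 / 2 / 2))) →
        NdW P b β C2 A0 Am i ck c1 a y ε η φ Ev →
        Win P b β C2 A0 Am i ck a y ε fun n R =>
          CutP b i η φ (tn n) n (kf ck y n) (qF c1 y n) R
            (muK (sd i R) (lC n (kf ck y n)) (kapF ck y n)) (gC i n (kE1 P ck y ε n) R)
            (Real.exp (-(4 * y n ^ (-(c1 / 2))))) (y n ^ (1 + c4) / 16) := by
  refine ((H816.smK_flow (b2 := b2) hb1 h1 hpf Q).and ((H270.Ce.cut_flow (b2 := b2) hb1 h1 hpf Q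
    (δ := 1 / 16) (by norm_num) (by norm_num)).and (H37.Sf.ev_cS b1 b2 pf Q))).mono
    fun P c1 hA hT => ?_
  obtain ⟨⟨hc0, -, hSm⟩, ⟨-, -, hCu⟩, -, hcth, hthp0, hthpx, hth0, h4096, hx0⟩ := hT
  intro σ c q2 qx a y ε xs c' r q A N h hσ0 hσ6 ck hck hck2 hck1 c4 hc4 β C2 A0 Am hβ hβ2 hC2 hAm
  have hb : 0 < b := hb1.trans_le h1
  have hx1 := hA.x11
  have hσ : σ ≤ 1 / 4 := by linarith
  have hc18 : c1 ≤ 1 / 8 := by linarith
  obtain ⟨i0, H⟩ := cut_fin hb h hA hσ0 hσ hc0 hc18 hck hck1 hck2 (by linarith) hc4 hβ hβ2 hC2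
  refine ⟨max i0 6, fun i hi η φ hx Ev hDel hNd => ?_⟩
  have hi6 : 6 ≤ i := (le_max_right _ _).trans hi
  have hE : ∀ᶠ n in atTop, ∀ R, 2 ^ (n + kf ck y n) ≤ R → R ≤ 2 ^ kE1 P ck y ε n →
      H270.Ce.CutE b (tn n) (y n ^ (2 - 3 * σ - 1 / 16)) (Real.exp (-(y n ^ (-(3 * (c1 / 2))))))
        32 i n (kf ck y n) (qF c1 y n) R (muK (sd i R) (lC n (kf ck y n)) (kapF ck y n)) := by
    filter_upwards [hCu h hσ0 hσ ck hck hck2 hck1 i hi6 (3 * (c1 / 2)) (by linarith) 1 32 16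
      (by norm_num), scF_le h hσ0 hσ hc0 hc18, eventually_ge_atTop 2] with n g1 g2 g3 R hR1 hR2
    have hsc : n - sF c1 y n = scF c1 y n := by
      unfold H145.Sp.sF
      have := g2.1
      omega
    have h2 := g1 R hR1 hR2 (sF c1 y n) (Nat.sub_le _ _) (by rw [hsc]; exact g2.2.1)
      (muK (sd i R) (lC n (kf ck y n)) (kapF ck y n)) (pf_kapF ck y g3 (by
        rw [sd_nC hR1]
        exact Nat.le_mul_of_pos_left _ (Nat.pos_of_ne_zero (NeZero.ne _))))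
    rw [one_mul] at h2
    exact h2
  have hexp : ∀ n, y n ≤ 1 → y n ^ (2 - 3 * σ - 1 / 16) ≤ y n ^ (9 / 8 : ℝ) := fun n hy1 =>
    Real.rpow_le_rpow_of_exponent_ge (h.fl.y0 n) hy1 (by linarith)
  refine H i ((le_max_left _ _).trans hi) hAm hx Ev ?_ hDel ?_ ?_ hNd
  · filter_upwards [hSm h hσ0 hσ ck hck hck2 hck1 i (by omega)] with n g R hR1 hR2
    exact g.1 R hR1 hR2
  · refine Win.of ?_
    filter_upwards [hE, eventually_ge_atTop N] with n g1 hn R hR1 hR2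
    have hy := h.fl.y0 n
    have hy1 := h.y1 n hn
    exact teP_of hb (H37.Sf.tn_pos n) (g1 R hR1 hR2) (by norm_num)
      (Real.rpow_le_one hy.le hy1 (by linarith))
  · refine Win.of ?_
    filter_upwards [hE, eventually_ge_atTop N] with n g1 hn R hR1 hR2
    exact teP_of hb (H37.Sf.tn_pos n) (g1 R hR1 hR2) (by norm_num) (hexp n (h.y1 n hn))

end

end Vale.Agent.P159.H446.Pr
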