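import Vale.Agent.P159.H446.Nc1

/-!
P159 / S (helper446): numbers of CUT, part 2: the oscillation of the tent average is `≤ exp (2 Z²)`,
and the exceptional set of `cutP_of` is `≤ exp (-4 Z)`.
-/

open Filter Topology

namespace Vale.Agent.P159.H446.Nc

/-- the events of the non-quadratic part -/
lemma num_c {D : ℝ} (hD : 0 ≤ D) : ∀ᶠ Z : ℝ in atTop,
    Z ^ D * (72 * (Z ^ D) ^ 2 * (1 + Real.exp (4 * Z ^ 2)) * Z ^ D * Real.exp (-Z ^ 3)) ≤
      Real.exp (-(5 * Z)) := by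
  filter_upwards [eventually_ge_atTop (160 + 4 * D)] with Z hZ
  have hZ1 : 1 ≤ Z := by linarith
  have h1 := pow_le_exp hZ1 hD
  have h2 : 0 ≤ Z ^ D := Real.rpow_nonneg (by linarith) _
  have h3 : 1 + Real.exp (4 * Z ^ 2) ≤ 2 * Real.exp (4 * Z ^ 2) := by
    have := Real.one_le_exp (show 0 ≤ 4 * Z ^ 2 by positivity)
    linarith
  have h4 : (144 : ℝ) ≤ Real.exp 143 := by
    have := Real.add_one_le_exp (143 : ℝ)
    linarith
  calc Z ^ D * (72 * (Z ^ D) ^ 2 * (1 + Real.exp (4 * Z ^ 2)) * Z ^ D * Real.exp (-Z ^ 3))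
      ≤ Real.exp (D * Z) * (72 * (Real.exp (D * Z)) ^ 2 * (2 * Real.exp (4 * Z ^ 2)) *
          Real.exp (D * Z) * Real.exp (-Z ^ 3)) := by gcongr
    _ = 144 * Real.exp (D * Z + D * Z + D * Z + D * Z + 4 * Z ^ 2 + -Z ^ 3) := by
        rw [Real.exp_add, Real.exp_add, Real.exp_add, Real.exp_add, Real.exp_add]
        ring
    _ ≤ Real.exp 143 * Real.exp (D * Z + D * Z + D * Z + D * Z + 4 * Z ^ 2 + -Z ^ 3) :=
        mul_le_mul_of_nonneg_right h4 (Real.exp_pos _).le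
    _ = Real.exp (143 + (D * Z + D * Z + D * Z + D * Z + 4 * Z ^ 2 + -Z ^ 3)) := by
        rw [← Real.exp_add]
    _ ≤ Real.exp (-(5 * Z)) := by
        refine Real.exp_le_exp.2 ?_
        have e1 : (160 + 4 * D) * Z ^ 2 ≤ Z ^ 3 := by
          have := mul_le_mul_of_nonneg_right hZ (sq_nonneg Z)
          calc _ ≤ Z * Z ^ 2 := this
            _ = Z ^ 3 := by ring
        have e2 : Z ≤ Z ^ 2 := by nlinarith
        nlinarith

/-- **the exceptional set of CUT** -/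
theorem num_cut2 {C D : ℝ} (hC : 0 ≤ C) (hD : 0 ≤ D) : ∀ᶠ Z : ℝ in atTop,
    ∀ (m : ℕ) (T Ω ε ε' δ' K0 aa r p0 : ℝ), (m : ℝ) ≤ Z ^ D → 0 ≤ T → T ≤ Z ^ D → 0 ≤ Ω →
      Ω ≤ Real.exp (2 * Z ^ 2) → 0 ≤ ε → ε ≤ Real.exp (-Z ^ 3) → 0 ≤ ε' →
      ε' ≤ Real.exp (-Z ^ 3) → 0 < δ' → (Z ^ D)⁻¹ ≤ δ' → K0 ≤ C * (Real.log Z + 1) →
      aa ≤ Z / 64 → r ≤ 1 → p0 ≤ Real.exp (-(5 * Z)) →
      p0 + 3 * Real.exp (-(6 * Z)) + m * (48 * T * (1 + Ω) * ε +
        2 * Real.exp (K0 + r / 2 + 1 + 128 * aa - 8 * Z)) +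
        m * (72 * T ^ 2 * (1 + Ω ^ 2) / δ' * ε') ≤ Real.exp (-(4 * Z)) := by
  filter_upwards [num_a (C := 2) (by norm_num) hD, num_b (C := C) (D := D), num_c hD,
    eventually_ge_atTop 6] with Z h1 h2 h2' h3
  intro m T Ω ε ε' δ' K0 aa r p0 hm hT0 hT hΩ0 hΩ hε0 hε hε0' hε' hδ0 hδ hK haa hr hp0
  have hZD : 0 ≤ Z ^ D := Real.rpow_nonneg (by linarith) _
  have hZD' : 0 < Z ^ D := Real.rpow_pos_of_pos (by linarith) _
  have hm0 : (0 : ℝ) ≤ m := Nat.cast_nonneg m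
  have a1 : m * (48 * T * (1 + Ω) * ε) ≤ Real.exp (-(5 * Z)) := by
    refine le_trans ?_ h1
    gcongr
  have a2 : m * (2 * Real.exp (K0 + r / 2 + 1 + 128 * aa - 8 * Z)) ≤ Real.exp (-(5 * Z)) := by
    refine le_trans ?_ h2
    refine mul_le_mul hm ?_ (by positivity) hZD
    have : Real.exp (K0 + r / 2 + 1 + 128 * aa - 8 * Z) ≤
        Real.exp (C * (Real.log Z + 1) + 3 / 2 + 2 * Z - 8 * Z) :=
      Real.exp_le_exp.2 (by linarith)
    linarith
  have a5 : m * (72 * T ^ 2 * (1 + Ω ^ 2) / δ' * ε') ≤ Real.exp (-(5 * Z)) := by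
    refine le_trans ?_ h2'
    have e1 : 1 / δ' ≤ Z ^ D := by
      rw [div_le_iff₀ hδ0]
      calc (1 : ℝ) = Z ^ D * (Z ^ D)⁻¹ := (mul_inv_cancel₀ hZD'.ne').symm
        _ ≤ Z ^ D * δ' := mul_le_mul_of_nonneg_left hδ hZD
    have e2 : Ω ^ 2 ≤ Real.exp (4 * Z ^ 2) := by
      calc Ω ^ 2 ≤ Real.exp (2 * Z ^ 2) ^ 2 := pow_le_pow_left₀ hΩ0 hΩ 2
        _ = Real.exp (4 * Z ^ 2) := by
          rw [← Real.exp_nat_mul]
          congr 1
          push_cast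
          ring
    have e3 : 72 * T ^ 2 * (1 + Ω ^ 2) / δ' * ε' = 72 * T ^ 2 * (1 + Ω ^ 2) * (1 / δ') * ε' := by
      ring
    rw [e3]
    gcongr
  have a3 : Real.exp (-(6 * Z)) ≤ Real.exp (-(5 * Z)) := Real.exp_le_exp.2 (by linarith)
  have a4 : 7 * Real.exp (-(5 * Z)) ≤ Real.exp (-(4 * Z)) := by
    have e1 : Real.exp (-(5 * Z)) = Real.exp (-(4 * Z)) * Real.exp (-Z) := by
      rw [← Real.exp_add]
      congr 1
      ring
    have e2 : Real.exp (-Z) ≤ 1 / 7 := by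
      have h6 : (7 : ℝ) ≤ Real.exp Z := by
        have := Real.add_one_le_exp Z
        linarith
      rw [Real.exp_neg, one_div]
      exact inv_anti₀ (by norm_num) h6
    rw [e1]
    have := Real.exp_pos (-(4 * Z))
    nlinarith
  rw [mul_add]
  linarith

/-- the oscillation of the tent average -/
theorem num_osc {b D : ℝ} (hb : 0 < b) (hD : 0 ≤ D) : ∀ᶠ Z : ℝ in atTop,
    ∀ (N n s : ℕ), 0 < N → (N : ℝ) ≤ Z ^ D * 2 ^ n → (n : ℝ) ≤ Z ^ D → s ≤ n →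
      (s : ℝ) ≤ Z ^ 2 + 1 →
      4 * (√(65 + 64 * b) * ((N : ℝ) / (2 ^ (n - s) : ℕ)) ^ 2) *
        (6 * Z + Real.log (2 * (N : ℝ) ^ 2)) ≤ Real.exp (2 * Z ^ 2) := by
  have h65 : 0 ≤ √(65 + 64 * b) := Real.sqrt_nonneg _
  filter_upwards [eventually_ge_atTop (100 + 10 * D + 10 * √(65 + 64 * b))] with Z hZ
  intro N n s hN0 hN hn hsn hs
  have hZ1 : 1 ≤ Z := by linarith
  have hZD : 0 ≤ Z ^ D := Real.rpow_nonneg (by linarith) _
  have hZD1 : 1 ≤ Z ^ D := Real.one_le_rpow hZ1 hD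
  have h1 := pow_le_exp hZ1 hD
  have hl2 := Real.log_two_lt_d9
  have hl2' : 0 < Real.log 2 := Real.log_pos one_lt_two
  have hNr : (0 : ℝ) < N := by exact_mod_cast hN0
  have hN1 : (1 : ℝ) ≤ N := by exact_mod_cast hN0
  -- the ratio
  have e1 : (N : ℝ) / (2 ^ (n - s) : ℕ) ≤ Z ^ D * 2 ^ s := by
    rw [div_le_iff₀ (by positivity)]
    refine hN.trans (le_of_eq ?_)
    push_cast
    rw [mul_assoc, ← pow_add, Nat.add_sub_cancel' hsn]
  have e2 : (2 : ℝ) ^ s ≤ Real.exp (7 / 10 * (Z ^ 2 + 1)) := by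
    have : (2 : ℝ) ^ s = Real.exp (Real.log 2 * s) := by
      rw [mul_comm, Real.exp_nat_mul, Real.exp_log (by norm_num)]
    rw [this]
    refine Real.exp_le_exp.2 ?_
    nlinarith [Nat.cast_nonneg (α := ℝ) s]
  have e3 : ((N : ℝ) / (2 ^ (n - s) : ℕ)) ^ 2 ≤
      Real.exp (2 * (D * Z) + 14 / 10 * (Z ^ 2 + 1)) := by
    have h2 : (N : ℝ) / (2 ^ (n - s) : ℕ) ≤ Real.exp (D * Z + 7 / 10 * (Z ^ 2 + 1)) := by
      rw [Real.exp_add]
      exact e1.trans (mul_le_mul h1 e2 (by positivity) (Real.exp_pos _).le)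
    calc _ ≤ Real.exp (D * Z + 7 / 10 * (Z ^ 2 + 1)) ^ 2 := pow_le_pow_left₀ (by positivity) h2 2
      _ = _ := by
        rw [← Real.exp_nat_mul]
        congr 1
        push_cast
        ring
  -- the logarithm
  have e4 : Real.log (2 * (N : ℝ) ^ 2) ≤ 1 + 2 * (D * Z + Z ^ D) := by
    rw [Real.log_mul (by norm_num) (by positivity), Real.log_pow]
    have h2 : Real.log N ≤ D * Z + Z ^ D := by
      have h3 := Real.log_le_log hNr hN
      rw [Real.log_mul (by positivity) (by positivity), Real.log_pow,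
        Real.log_rpow (by linarith)] at h3
      have h4 : Real.log Z ≤ Z := (Real.log_le_sub_one_of_pos (by linarith)).trans (by linarith)
      have h5 : D * Real.log Z ≤ D * Z := mul_le_mul_of_nonneg_left h4 hD
      have h6 : (n : ℝ) * Real.log 2 ≤ n := by
        nlinarith [Nat.cast_nonneg (α := ℝ) n]
      linarith
    push_cast
    linarith
  have e5 : 6 * Z + Real.log (2 * (N : ℝ) ^ 2) ≤ Real.exp (11 * Z + 3 * (D * Z)) := by
    have h2 : 6 * Z + Real.log (2 * (N : ℝ) ^ 2) ≤ 7 * Z + 2 * (D * Z) + 2 * Real.exp (D * Z) := by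
      linarith
    have h3 : 7 * Z + 2 * (D * Z) ≤ Real.exp (7 * Z + 2 * (D * Z)) := by
      have := Real.add_one_le_exp (7 * Z + 2 * (D * Z))
      linarith
    have hDZ : 0 ≤ D * Z := by positivity
    have h4 : Real.exp (7 * Z + 2 * (D * Z)) ≤ Real.exp (8 * Z + 3 * (D * Z)) :=
      Real.exp_le_exp.2 (by linarith)
    have h5 : Real.exp (D * Z) ≤ Real.exp (8 * Z + 3 * (D * Z)) :=
      Real.exp_le_exp.2 (by linarith)
    have h6 : 3 * Real.exp (8 * Z + 3 * (D * Z)) ≤ Real.exp (11 * Z + 3 * (D * Z)) := by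
      have h7 : (3 : ℝ) ≤ Real.exp (3 * Z) := by
        have := Real.add_one_le_exp (3 * Z)
        linarith
      calc 3 * Real.exp (8 * Z + 3 * (D * Z)) ≤
          Real.exp (3 * Z) * Real.exp (8 * Z + 3 * (D * Z)) :=
            mul_le_mul_of_nonneg_right h7 (Real.exp_pos _).le
        _ = _ := by
          rw [← Real.exp_add]
          congr 1
          ring
    linarith
  have e6 : 4 * √(65 + 64 * b) ≤ Real.exp (4 * √(65 + 64 * b)) := by
    have := Real.add_one_le_exp (4 * √(65 + 64 * b))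
    linarith
  have e7 : 0 ≤ 6 * Z + Real.log (2 * (N : ℝ) ^ 2) := by
    have := Real.log_nonneg (show (1 : ℝ) ≤ 2 * (N : ℝ) ^ 2 by nlinarith)
    linarith
  calc 4 * (√(65 + 64 * b) * ((N : ℝ) / (2 ^ (n - s) : ℕ)) ^ 2) *
        (6 * Z + Real.log (2 * (N : ℝ) ^ 2))
      = 4 * √(65 + 64 * b) * ((N : ℝ) / (2 ^ (n - s) : ℕ)) ^ 2 *
        (6 * Z + Real.log (2 * (N : ℝ) ^ 2)) := by ring
    _ ≤ Real.exp (4 * √(65 + 64 * b)) * Real.exp (2 * (D * Z) + 14 / 10 * (Z ^ 2 + 1)) *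
        Real.exp (11 * Z + 3 * (D * Z)) := by gcongr
    _ = Real.exp (4 * √(65 + 64 * b) + (2 * (D * Z) + 14 / 10 * (Z ^ 2 + 1)) +
        (11 * Z + 3 * (D * Z))) := by rw [← Real.exp_add, ← Real.exp_add]
    _ ≤ Real.exp (2 * Z ^ 2) := by
        refine Real.exp_le_exp.2 ?_
        have f1 : (100 + 10 * D + 10 * √(65 + 64 * b)) * Z ≤ Z ^ 2 := by nlinarith
        have f2 : √(65 + 64 * b) ≤ √(65 + 64 * b) * Z := le_mul_of_one_le_right h65 hZ1
        nlinarith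

end Vale.Agent.P159.H446.Nc
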