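import Vale.Agent.P159.H446.Nc1
import Vale.Agent.P159.H446.Nc2

/-!
P159 / S (helper446): numbers of CUT in terms of `y` (`Z = y ^ (-c3)`, side of the torus
`≤ y ^ (-κ) 2 ^ n`).
-/

open Filter Topology

namespace Vale.Agent.P159.H446.Nc

/-- `y ^ (-p) → ∞` -/
lemma tend_rpow {p : ℝ} (hp : 0 < p) : Tendsto (fun y : ℝ => y ^ (-p)) (𝓝[>] 0) atTop := by
  have h1 := (tendsto_rpow_atTop hp).comp (tendsto_inv_nhdsGT_zero (𝕜 := ℝ))
  refine h1.congr' ?_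
  filter_upwards [self_mem_nhdsWithin] with y hy
  have hy0 : (0 : ℝ) < y := hy
  simp only [Function.comp]
  rw [Real.rpow_neg hy0.le, Real.inv_rpow hy0.le]

lemma ev_big {p M : ℝ} (hp : 0 < p) : ∀ᶠ y : ℝ in 𝓝[>] 0, M ≤ y ^ (-p) :=
  (tend_rpow hp).eventually_ge_atTop M

lemma ev_small {p M : ℝ} (hp : 0 < p) (hM : 0 < M) : ∀ᶠ y : ℝ in 𝓝[>] 0, y ^ p ≤ M := by
  filter_upwards [ev_big (M := 1 / M) hp, self_mem_nhdsWithin] with y h hy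
  have hy0 : (0 : ℝ) < y := hy
  have h1 : 0 < y ^ p := Real.rpow_pos_of_pos hy0 _
  rw [Real.rpow_neg hy0.le, one_div, inv_le_inv₀ hM h1] at h
  exact h

/-- bound of the oscillation at `6 Z` -/
noncomputable def OmN (b : ℝ) (N s : ℕ) (Z : ℝ) : ℝ :=
  4 * (√(65 + 64 * b) * ((N : ℝ) / s) ^ 2) * (Z + Real.log (2 * (N : ℝ) ^ 2))

/-- **the numbers of CUT** -/
theorem num_y {b c3 c4 c5 κ K : ℝ} (hb : 0 < b) (h3 : 0 < c3) (h5 : c5 ≤ 1) (hκ0 : 0 ≤ κ)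
    (hκ1 : κ ≤ 1) (hK : 0 ≤ K) (h0 : c4 + 3 * κ < c5) : ∀ᶠ y : ℝ in 𝓝[>] 0,
    ∀ (N n s nc : ℕ) (T K0 aa ε ε' p0 : ℝ), 0 < N → (N : ℝ) = T * 2 ^ n → T ≤ y ^ (-κ) →
      1 ≤ nc → (nc : ℝ) ≤ T → (n : ℝ) ≤ y ^ (-(2 : ℝ)) → s ≤ n → (s : ℝ) ≤ y ^ (-(2 * c3)) + 1 →
      0 ≤ ε → ε ≤ Real.exp (-(y ^ (-(3 * c3)))) → 0 ≤ ε' → ε' ≤ Real.exp (-(y ^ (-(3 * c3)))) →
      K0 ≤ K * (Real.log (1 / y) + 1) → aa ≤ y ^ (-c3) / 64 →
      p0 ≤ Real.exp (-(5 * y ^ (-c3))) →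
      (p0 + 3 * Real.exp (-(6 * y ^ (-c3))) + (nc * (nc * nc + 1) : ℕ) *
        (48 * T * (1 + OmN b N (2 ^ (n - s)) (6 * y ^ (-c3))) * ε +
          2 * Real.exp (K0 + 1 / 2 + 1 + 128 * aa - 8 * y ^ (-c3))) +
        (nc * (nc * nc + 1) : ℕ) *
          (72 * T ^ 2 * (1 + OmN b N (2 ^ (n - s)) (6 * y ^ (-c3)) ^ 2) / y ^ (1 + c5) * ε') ≤
        Real.exp (-(4 * y ^ (-c3)))) ∧
      (nc : ℝ) * ((nc * nc : ℕ) * (y ^ (1 + c5) + y ^ (1 + c5) + 2 * (3 / 2 * y ^ (1 + c5)))) ≤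
        y ^ (1 + c4) / 16 := by
  have hD : 0 ≤ 4 / c3 := by positivity
  have hC : 0 ≤ K / c3 + K := by positivity
  have hZt := tend_rpow h3
  filter_upwards [hZt.eventually (num_cut2 hC hD), hZt.eventually (num_osc hb hD),
    ev_big (M := 2) one_pos, ev_small (p := c5 - c4 - 3 * κ) (M := 1 / 80) (by linarith)
      (by norm_num), ev_small (p := 1) (M := 1) one_pos one_pos, self_mem_nhdsWithin] with y g1 g2
    g3 g4 g5 hy
  have hy0 : (0 : ℝ) < y := hy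
  have hy1 : y ≤ 1 := by rwa [Real.rpow_one] at g5
  intro N n s nc T K0 aa ε ε' p0 hN hNT hT hnc hncT hn hsn hs hε0 hε hε0' hε' hK0 haa hp0
  set Z := y ^ (-c3) with hZ
  have hZ0 : 0 < Z := Real.rpow_pos_of_pos hy0 _
  have eD : Z ^ (4 / c3) = y ^ (-(4 : ℝ)) := by
    rw [hZ, ← Real.rpow_mul hy0.le]
    congr 1
    field_simp
  have e2 : y ^ (-(2 * c3)) = Z ^ 2 := by
    rw [hZ, ← Real.rpow_natCast, ← Real.rpow_mul hy0.le]
    congr 1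
    push_cast
    ring
  have e3 : y ^ (-(3 * c3)) = Z ^ 3 := by
    rw [hZ, ← Real.rpow_natCast, ← Real.rpow_mul hy0.le]
    congr 1
    push_cast
    ring
  have mono : ∀ {p q : ℝ}, p ≤ q → y ^ (-p) ≤ y ^ (-q) := fun h =>
    Real.rpow_le_rpow_of_exponent_ge hy0 hy1 (by linarith)
  have hT0 : 0 ≤ T := by
    have : (1 : ℝ) ≤ nc := by exact_mod_cast hnc
    linarith
  have hT1 : 1 ≤ T := by
    have : (1 : ℝ) ≤ nc := by exact_mod_cast hnc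
    linarith
  have hP4 : 0 < y ^ (-(4 : ℝ)) := Real.rpow_pos_of_pos hy0 _
  have hTD : T ≤ Z ^ (4 / c3) := by
    rw [eD]
    exact hT.trans (mono (by linarith))
  have hnc0 : (0 : ℝ) ≤ nc := Nat.cast_nonneg _
  have hT3 : T ^ 3 ≤ y ^ (-(3 * κ)) := by
    have h1 := pow_le_pow_left₀ hT0 hT 3
    rw [← Real.rpow_natCast (y ^ (-κ)), ← Real.rpow_mul hy0.le] at h1
    refine h1.trans (le_of_eq ?_)
    congr 1
    push_cast
    ring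
  have hnc3 : (nc : ℝ) * (nc * nc) ≤ T ^ 3 := by
    calc (nc : ℝ) * (nc * nc) = (nc : ℝ) ^ 3 := by ring
      _ ≤ T ^ 3 := pow_le_pow_left₀ hnc0 hncT 3
  have hm : ((nc * (nc * nc + 1) : ℕ) : ℝ) ≤ Z ^ (4 / c3) := by
    rw [eD]
    have h1 : ((nc * (nc * nc + 1) : ℕ) : ℝ) = nc * (nc * nc) + nc := by push_cast; ring
    have h2 : (nc : ℝ) ≤ nc * (nc * nc) := by
      have h3 : (1 : ℝ) ≤ nc := by exact_mod_cast hnc
      have h7 : (1 : ℝ) ≤ (nc : ℝ) * nc := one_le_mul_of_one_le_of_one_le h3 h3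
      have h8 := mul_le_mul_of_nonneg_left h7 hnc0
      linarith
    have h4 : y ^ (-(3 * κ)) ≤ y ^ (-(3 : ℝ)) := mono (by linarith)
    have h5 : y ^ (-(4 : ℝ)) = y ^ (-(1 : ℝ)) * y ^ (-(3 : ℝ)) := by
      rw [← Real.rpow_add hy0]
      norm_num
    have h6 : 0 < y ^ (-(3 : ℝ)) := Real.rpow_pos_of_pos hy0 _
    have h9 : 2 * y ^ (-(3 : ℝ)) ≤ y ^ (-(1 : ℝ)) * y ^ (-(3 : ℝ)) :=
      mul_le_mul_of_nonneg_right g3 h6.le
    rw [h1, h5]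
    linarith
  have hOm0 : 0 ≤ OmN b N (2 ^ (n - s)) (6 * Z) := by
    unfold OmN
    have hN1 : (1 : ℝ) ≤ N := by exact_mod_cast hN
    have h2 : (1 : ℝ) ≤ (N : ℝ) ^ 2 := one_le_pow₀ hN1
    have h1 : 0 ≤ Real.log (2 * (N : ℝ) ^ 2) := Real.log_nonneg (by linarith)
    positivity
  have hOm : OmN b N (2 ^ (n - s)) (6 * Z) ≤ Real.exp (2 * Z ^ 2) := by
    have k1 : (N : ℝ) ≤ Z ^ (4 / c3) * 2 ^ n := by
      rw [hNT]
      exact mul_le_mul_of_nonneg_right hTD (by positivity)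
    have k2 : (n : ℝ) ≤ Z ^ (4 / c3) := by
      rw [eD]
      exact hn.trans (mono (by norm_num))
    have k3 : (s : ℝ) ≤ Z ^ 2 + 1 := by
      rw [← e2]
      exact hs
    unfold OmN
    exact g2 N n s hN k1 k2 hsn k3
  have hlog : Real.log Z = c3 * Real.log (1 / y) := by
    rw [hZ, Real.log_rpow hy0, one_div, Real.log_inv]
    ring
  have hly : 0 ≤ Real.log (1 / y) := Real.log_nonneg (one_le_one_div hy0 hy1)
  have hK1 : K0 ≤ (K / c3 + K) * (Real.log Z + 1) := by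
    refine hK0.trans ?_
    rw [hlog]
    have h1 : (K / c3 + K) * (c3 * Real.log (1 / y) + 1) =
        K * (Real.log (1 / y) + 1) + K / c3 + K * c3 * Real.log (1 / y) := by
      field_simp
      ring
    rw [h1]
    have h2 : 0 ≤ K / c3 := by positivity
    have h3 : 0 ≤ K * c3 * Real.log (1 / y) := by positivity
    linarith
  have hδ0 : 0 < y ^ (1 + c5) := Real.rpow_pos_of_pos hy0 _
  have hδ : (Z ^ (4 / c3))⁻¹ ≤ y ^ (1 + c5) := by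
    rw [eD, ← Real.rpow_neg hy0.le, neg_neg]
    exact Real.rpow_le_rpow_of_exponent_ge hy0 hy1 (by linarith)
  rw [e3] at hε hε'
  have key := g1 (nc * (nc * nc + 1)) T (OmN b N (2 ^ (n - s)) (6 * Z)) ε ε' (y ^ (1 + c5)) K0 aa 1
    p0 hm hT0 hTD hOm0 hOm hε0 hε hε0' hε' hδ0 hδ hK1 haa le_rfl hp0
  refine ⟨key, ?_⟩
  have h6 : y ^ (-(3 * κ)) * y ^ (1 + c5) = y ^ (c5 - c4 - 3 * κ) * y ^ (1 + c4) := by
    rw [← Real.rpow_add hy0, ← Real.rpow_add hy0]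
    congr 1
    ring
  have h7 : 0 < y ^ (1 + c4) := Real.rpow_pos_of_pos hy0 _
  calc (nc : ℝ) * ((nc * nc : ℕ) * (y ^ (1 + c5) + y ^ (1 + c5) + 2 * (3 / 2 * y ^ (1 + c5))))
      = 5 * ((nc : ℝ) * (nc * nc) * y ^ (1 + c5)) := by push_cast; ring
    _ ≤ 5 * (y ^ (-(3 * κ)) * y ^ (1 + c5)) := by
        have := mul_le_mul_of_nonneg_right (hnc3.trans hT3) hδ0.le
        linarith
    _ = 5 * (y ^ (c5 - c4 - 3 * κ) * y ^ (1 + c4)) := by rw [h6]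
    _ ≤ 5 * (1 / 80 * y ^ (1 + c4)) := by
        have := mul_le_mul_of_nonneg_right g4 h7.le
        linarith
    _ = y ^ (1 + c4) / 16 := by ring

end Vale.Agent.P159.H446.Nc
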