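import Vale.Agent.P159.H446.Cut3
import Vale.Agent.P159.H446.Nc3
import Vale.Agent.P159.H253.Sm12
import Vale.Agent.P159.H37.Lq5

/-!
P159 / S (helper446): CUT along the flow, in helper37's `Win` form.

* `HaP`, `TeP`, `NdP` : the inputs of a pair (deterministic fields of the path; typical locations;
  nodes);
* `win_pow'` : side of the tori of the window;
* **`cut_win`** : the field `cut` of `pairLv_ev` from the inputs.
-/

open scoped Matrix ENNReal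
open Finset MeasureTheory Filter Topology

set_option linter.unusedSectionVars false

namespace Vale.Agent.P159.H446.Pr

open Vale.Agent.P159.H37 (qf)
open Vale.Agent.P159.H770 (Ed wTD)
open Vale.Agent.P159.H963 (Anm)
open Vale.Agent.P159.H883 (nuM)
open Vale.Agent.P159.H191 (TP nd Nod RT)
open Vale.Agent.P159.H817 (sz U e1)
open Vale.Agent.P159.TM.Spec (V)
open Vale.Agent.P159.H663.Dr (tT)
open Vale.Agent.P159.H773 (sd nuF)
open Vale.Agent.P159.H145.Sp (AxP CutP lR lC wB gC muK)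
open Vale.Agent.P159.H145.Lw (KnW)
open Vale.Agent.P159.H856.Dl (Del)
open Vale.Agent.P159.H972 (Par Good tn lg)
open Vale.Agent.P159.H801 (SFlow itw)
open Vale.Agent.P159.H37.Sf (kf kE1 Win sf_k3 sf_ub sf_lb0 sf_lb sf_ny sf_big sf_win lg_le lb_eq lb_tend
  tn_pos)

noncomputable section

/-! ### the letters of a pair -/

/-- deterministic field of a point of the path -/
def H1p (i n k q R : ℕ) (μ g : V (sd i R) → ℝ) (j i' : ℕ) : V (sd i R) → ℝ :=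
  H1 (sd i R) (nC i n k R) (lC n k) (tT (sd i R) q) (U (30 * lR n R) (lR n R)) μ
    (wB (sd i R) (2 ^ n)) 0 (R • e1) g j i'

/-- random field of a point of the path, one location -/
def TPp (i n k q R : ℕ) (μ : V (sd i R) → ℝ) (j i' : ℕ) (F : V (sd i R) → ℝ) : V (sd i R) → ℝ :=
  TP (lC n k) (U (30 * lR n R) (lR n R)) μ 0 (R • e1) (sj (sd i R) (nC i n k R) (lC n k) j i')
    (tT (sd i R) q F)

/-- the field of a point of the path -/
def Y1p (i n k q R : ℕ) (μ g : V (sd i R) → ℝ) (j i' : ℕ) (F : V (sd i R) → ℝ) :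
    V (sd i R) → ℝ :=
  Y1 (sd i R) (nC i n k R) (lC n k) (U (30 * lR n R) (lR n R)) μ (wB (sd i R) (2 ^ n)) 0 (R • e1)
    (tT (sd i R) q (F + g)) g j i'

/-- **numbers of the deterministic fields** -/
def HaP (b t : ℝ) (i n k q R : ℕ) (μ g : V (sd i R) → ℝ) (aa δ : ℝ) : Prop :=
  ∀ j < nC i n k R, ∀ i' ≤ nC i n k R * nC i n k R,
    qf (Anm (sd i R) b t) (H1p i n k q R μ g j i') ≤ aa ∧
      RT (sd i R) b t ((4 : ℝ) • H1p i n k q R μ g j i') ≤ δ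

/-- **typical locations** -/
def TeP (b t : ℝ) (i n k q R : ℕ) (μ : V (sd i R) → ℝ) (z r p : ℝ) : Prop :=
  ∀ j < nC i n k R, ∀ i' ≤ nC i n k R * nC i n k R, (nuF b (sd i) t R).real
    {F | r < RT (sd i R) b t (z • TPp i n k q R μ j i' F)} ≤ p

/-- **nodes** -/
def NdP (b t : ℝ) (i n k q R : ℕ) (η : ∀ R, Ed (sd i R) → ℤ) (φ : ∀ R, V (sd i R) → ℝ)
    (μ g : V (sd i R) → ℝ) (Ω τ e e4 δ Ev p0 : ℝ) : Prop :=
  ∃ G0 : Set (V (sd i R) → ℝ), (nuF b (sd i) t R).real G0ᶜ ≤ p0 ∧ ∀ F ∈ G0,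
    (∀ x y, |tT (sd i R) q F x - tT (sd i R) q F y| ≤ Ω) →
    ∀ j < nC i n k R, ∀ i' < nC i n k R * nC i n k R,
      17 * lC n k < sz (nd (sd i R) (nC i n k R) (lC n k) i' - 0) →
      17 * lC n k < sz (nd (sd i R) (nC i n k R) (lC n k) i' - R • e1) →
      Nod (sd i R) b t (η R) (φ R) (lC n k) (nd (sd i R) (nC i n k R) (lC n k) i')
        (Y1p i n k q R μ g j i' F - Y1p i n k q R μ g j (i' + 1) F) τ e e4 δ Ev

lemma Om_eq (b : ℝ) (N s : ℕ) (Z : ℝ) : Om b N s Z = Nc.OmN b N s Z := rfl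

lemma nod_mono {N : ℕ} [NeZero N] {b t : ℝ} {η : Ed N → ℤ} {φ : V N → ℝ} {l : ℕ} {c : V N}
    {f : V N → ℝ} {τ e e4 δ δ' Ev : ℝ} (h : Nod N b t η φ l c f τ e e4 δ Ev) (hδ : δ ≤ δ') :
    Nod N b t η φ l c f τ e e4 δ' Ev := by
  intro v W c0 h1 h2
  obtain ⟨g1, g2, g3, g4⟩ := h v W c0 h1 h2
  exact ⟨g1, g2, g3, g4.trans hδ⟩

section flow

variable {P : Par} {b σ c c1 q2 qx : ℝ} {a y ε xs : ℕ → ℝ} {c' r' q' A : ℝ} {N0 : ℕ}

lemma w_le (h : SFlow P b σ c c1 q2 qx a y ε xs c' r' q' A N0) (hσ0 : 0 ≤ σ) (hσ : σ ≤ 1 / 4)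
    {n : ℕ} (hn : N0 ≤ n) :
    (P.w (ε n) : ℝ) ≤ 2 * P.thp * Real.logb 2 (1 / y n) + 1 := by
  have hth := P.thp0
  have hl0 := sf_lb0 h hn
  have e2 := sf_ub h hn
  have e3 : (2 - σ) * Real.logb 2 (1 / y n) ≤ 2 * Real.logb 2 (1 / y n) :=
    mul_le_mul_of_nonneg_right (by linarith) hl0
  have e0 : 0 ≤ P.thp * Real.logb 2 (1 / ε n) := by
    refine mul_nonneg hth.le ?_
    have e4 := sf_lb h hn
    have e5 : 0 ≤ (2 - 3 * σ) * Real.logb 2 (1 / y n) := mul_nonneg (by linarith) hl0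
    linarith
  have e1 : (P.w (ε n) : ℝ) ≤ P.thp * Real.logb 2 (1 / ε n) + 1 := lg_le e0
  have e6 : P.thp * Real.logb 2 (1 / ε n) ≤ P.thp * (2 * Real.logb 2 (1 / y n)) :=
    mul_le_mul_of_nonneg_left (e2.trans e3) hth.le
  linarith

/-- the side of the tori of the window (as helper340's `win_pow`) -/
lemma win_pow' (h : SFlow P b σ c c1 q2 qx a y ε xs c' r' q' A N0)
    (hσ0 : 0 ≤ σ) (hσ : σ ≤ 1 / 4) {ck : ℝ} (hck : 0 < ck) (hck1 : ck ≤ P.thp) {κ : ℝ}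
    (hκ : 16 * P.thp ≤ κ) (i : ℕ) :
    ∀ᶠ n : ℕ in atTop, ∀ R : ℕ, R ≤ 2 ^ kE1 P ck y ε n →
      (2 : ℝ) ^ (i + Nat.clog 2 R - n) ≤ y n ^ (-κ) := by
  have hth := P.thp0
  have hκ0 : 0 < κ := by linarith
  have h1 := (lb_tend h.fl.y0 h.fl.yt).eventually_ge_atTop (2 / κ * ((i : ℝ) + 4))
  filter_upwards [sf_k3 h hσ hck hck1, h1, eventually_ge_atTop N0] with n g1 g2 hn R hR
  have hy := h.fl.y0 n
  have hl0 := sf_lb0 h hn
  have g3 : Nat.clog 2 R ≤ n + P.w (ε n) + kf ck y (n + P.w (ε n)) := by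
    have := Nat.clog_mono_right 2 hR
    rwa [Nat.clog_pow 2 _ one_lt_two] at this
  have g4 : i + Nat.clog 2 R - n ≤ i + 4 * P.w (ε n) := by omega
  have g5 := w_le h hσ0 hσ hn
  have g6 : ((i + Nat.clog 2 R - n : ℕ) : ℝ) ≤ κ * Real.logb 2 (1 / y n) := by
    have e1 : ((i + Nat.clog 2 R - n : ℕ) : ℝ) ≤ ((i + 4 * P.w (ε n) : ℕ) : ℝ) := by
      exact_mod_cast g4
    push_cast at e1
    have e2 : 16 * P.thp * Real.logb 2 (1 / y n) ≤ κ * Real.logb 2 (1 / y n) :=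
      mul_le_mul_of_nonneg_right hκ hl0
    have e3 : (i : ℝ) + 4 ≤ κ / 2 * Real.logb 2 (1 / y n) := by
      have := mul_le_mul_of_nonneg_left g2 (show 0 ≤ κ / 2 by positivity)
      have e4 : κ / 2 * (2 / κ * ((i : ℝ) + 4)) = (i : ℝ) + 4 := by field_simp
      linarith
    linarith
  have g7 : (2 : ℝ) ^ (κ * Real.logb 2 (1 / y n)) = y n ^ (-κ) := by
    rw [mul_comm, Real.rpow_mul two_pos.le, Real.rpow_logb two_pos (by norm_num) (by positivity),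
      one_div, Real.inv_rpow hy.le, Real.rpow_neg hy.le]
  rw [← g7, ← Real.rpow_natCast]
  exact Real.rpow_le_rpow_of_exponent_le one_lt_two.le g6

/-- `y n → 0` from above -/
lemma y_tend (h : SFlow P b σ c c1 q2 qx a y ε xs c' r' q' A N0) : Tendsto y atTop (𝓝[>] 0) :=
  tendsto_nhdsWithin_iff.2 ⟨h.fl.yt, Eventually.of_forall h.fl.y0⟩

lemma sqrt_tn {n m : ℕ} (h : n ≤ m) : √(tn n * ((2 ^ m : ℕ) : ℝ) ^ 2) = 2 ^ (m - n) := by
  have h1 : tn n * ((2 ^ m : ℕ) : ℝ) ^ 2 = (2 ^ (m - n)) ^ 2 := by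
    unfold H972.tn
    obtain ⟨d, rfl⟩ := Nat.exists_eq_add_of_le h
    have e : n + d - n = d := by omega
    rw [e]
    push_cast
    rw [pow_add, mul_pow, ← pow_mul, ← pow_mul, mul_comm n 2, pow_mul]
    have : (4 : ℝ) ^ n ≠ 0 := by positivity
    norm_num
  rw [h1, Real.sqrt_sq (by positivity)]

/-- **(b) CUT ALONG THE FLOW** -/
theorem cut_win (hb : 0 < b) (h : SFlow P b σ c c1 q2 qx a y ε xs c' r' q' A N0)
    (hσ0 : 0 ≤ σ) (hσ : σ ≤ 1 / 4) {ck : ℝ} (hck : 0 < ck) (hck1 : ck ≤ P.thp)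
    {c3 c4 c5 κ' : ℝ} (h3 : 0 < c3) (h5 : c5 ≤ 1) (hκ : 16 * P.thp ≤ κ') (hκ1 : κ' ≤ 1)
    (h45 : c4 + 3 * κ' < c5) {β C2 : ℝ} (hβ : 1 / 4 ≤ β) (hβ2 : β < 1 / 2) (hC2 : 1 ≤ C2) :
    ∃ i0 : ℕ, ∀ i, i0 ≤ i → ∀ {A0 : ℝ} {Am : ℕ}, 1 ≤ Am →
      ∀ {η : ∀ R, Ed (sd i R) → ℤ} {φ : ∀ R, V (sd i R) → ℝ}, AxP i η φ →
      ∀ (sc : ℕ → ℕ) (κ : ℕ → ℤ × ℤ → ℝ) (Ev : ℝ),
      (∀ᶠ n in atTop, sc n ≤ n ∧ (sc n : ℝ) ≤ y n ^ (-(2 * c3)) + 1) →
      (∀ᶠ n in atTop, ∀ R, 2 ^ (n + kf ck y n) ≤ R → R ≤ 2 ^ kE1 P ck y ε n →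
        (∀ z, 0 ≤ muK (sd i R) (lC n (kf ck y n)) (κ n) z) ∧
          ∑ z, muK (sd i R) (lC n (kf ck y n)) (κ n) z = 1) →
      Win P b β C2 A0 Am i ck a y ε (fun n R =>
        Del (wTD (sd i R) b) (tn n • (1 : Matrix (V (sd i R)) (V (sd i R)) ℝ)) (tn n) 0 (η R)
          (φ R) ≤ y n ^ (-(c3 / 2))) →
      Win P b β C2 A0 Am i ck a y ε (fun n R =>
        HaP b (tn n) i n (kf ck y n) (2 ^ (n - sc n)) R (muK (sd i R) (lC n (kf ck y n)) (κ n))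
          (gC i n (kE1 P ck y ε n) R) (y n ^ (-c3) / 64) (y n ^ (1 + c5))) →
      Win P b β C2 A0 Am i ck a y ε (fun n R =>
        TeP b (tn n) i n (kf ck y n) (2 ^ (n - sc n)) R (muK (sd i R) (lC n (kf ck y n)) (κ n))
          32 1 (Real.exp (-(y n ^ (-(3 * c3)))))) →
      Win P b β C2 A0 Am i ck a y ε (fun n R =>
        TeP b (tn n) i n (kf ck y n) (2 ^ (n - sc n)) R (muK (sd i R) (lC n (kf ck y n)) (κ n))
          4 (y n ^ (1 + c5)) (Real.exp (-(y n ^ (-(3 * c3)))))) →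
      Win P b β C2 A0 Am i ck a y ε (fun n R =>
        NdP b (tn n) i n (kf ck y n) (2 ^ (n - sc n)) R η φ
          (muK (sd i R) (lC n (kf ck y n)) (κ n)) (gC i n (kE1 P ck y ε n) R)
          (Om b (sd i R) (2 ^ (n - sc n)) (6 * y n ^ (-c3)))
          (y n ^ (-c3) + 4 * y n ^ (-(c3 / 2)) + 3 * Ev) (y n ^ (1 + c5)) (y n ^ (1 + c5))
          (y n ^ (1 + c5)) Ev (Real.exp (-(5 * y n ^ (-c3))))) →
      Win P b β C2 A0 Am i ck a y ε fun n R =>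
        CutP b i η φ (tn n) n (kf ck y n) (2 ^ (n - sc n)) R
          (muK (sd i R) (lC n (kf ck y n)) (κ n)) (gC i n (kE1 P ck y ε n) R)
          (Real.exp (-(4 * y n ^ (-c3)))) (y n ^ (1 + c4) / 16) := by
  have hth := P.thp0
  obtain ⟨C, i1, hC0, hi1, hS⟩ := H253.Sm.K0_win (C2 := C2) hb hβ hβ2 hC2
  obtain ⟨Cn, hCn, hny⟩ := sf_ny h
  have hl2 : 0 < Real.log 2 := Real.log_pos one_lt_two
  have hKK : 0 ≤ 6 * P.thp / Real.log 2 + 3 + C := by positivity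
  refine ⟨max i1 2, fun i hi A0 Am hAm η φ hx sc κ Ev hsc hμ hDel hHa hT1 hT2 hNd => ?_⟩
  have hi1' : i1 ≤ i := (le_max_left _ _).trans hi
  have hi2 : 2 ≤ i := (le_max_right _ _).trans hi
  unfold Win at hDel hHa hT1 hT2 hNd ⊢
  filter_upwards [hDel, hHa, hT1, hT2, hNd, hsc, hμ, sf_win h hσ hck hck1 0, sf_k3 h hσ hck hck1,
    win_pow' h hσ0 hσ hck hck1 hκ i, hny, sf_big h (p := 1) (M := Cn) one_pos hCn,
    (y_tend h).eventually (Nc.num_y (K := 6 * P.thp / Real.log 2 + 3 + C) hb h3 h5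
      (by linarith : (0 : ℝ) ≤ κ') hκ1 hKK h45), eventually_ge_atTop N0, eventually_ge_atTop 2]
    with n u1 u2 u3 u4 u5 hscn hμn hwin hk3 hpw hnyn hyC hnum hn hn2 n0 j hnj R hR1 hR2 hK
  have hy := h.fl.y0 n
  have hy1 := h.y1 n hn
  obtain ⟨hsc1, hsc2⟩ := hscn
  obtain ⟨hμ0, hμ1⟩ := hμn R hR1 hR2
  have hcl := clog_ge hR1
  have hsd := sd_eq i R
  have hN0 : 0 < sd i R := NeZero.pos _
  have hT : √(tn n * (sd i R : ℝ) ^ 2) = 2 ^ (i + Nat.clog 2 R - n) := by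
    rw [hsd]
    exact sqrt_tn (by omega)
  have hT' : √(tn n * (sd i R : ℝ) ^ 2) ^ 2 = tn n * (sd i R : ℝ) ^ 2 :=
    Real.sq_sqrt (mul_nonneg (tn_pos n).le (sq_nonneg _))
  have hT1' : (1 : ℝ) ≤ √(tn n * (sd i R : ℝ) ^ 2) := by
    rw [hT]
    exact one_le_pow₀ one_le_two
  have htN : 1 ≤ tn n * (sd i R : ℝ) ^ 2 := by
    rw [← hT']
    exact one_le_pow₀ hT1'
  have hNT : (sd i R : ℝ) = √(tn n * (sd i R : ℝ) ^ 2) * 2 ^ n := by
    rw [hT, hsd, ← pow_add]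
    push_cast
    congr 1
    omega
  have hnc : 1 ≤ nC i n (kf ck y n) R := Nat.pos_of_ne_zero (NeZero.ne _)
  have hncT : (nC i n (kf ck y n) R : ℝ) ≤ √(tn n * (sd i R : ℝ) ^ 2) := by
    rw [hT]
    unfold nC
    push_cast
    exact pow_le_pow_right₀ one_le_two (by omega)
  have hny2 : (n : ℝ) ≤ y n ^ (-(2 : ℝ)) := by
    have e1 : y n ^ (-(2 : ℝ)) = y n ^ (-(1 : ℝ)) * (y n)⁻¹ := by
      rw [show (-(2 : ℝ)) = -1 + -1 by norm_num, Real.rpow_add hy, Real.rpow_neg_one]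
    have e2 : (n : ℝ) ≤ Cn * (y n)⁻¹ := by
      rw [← div_eq_mul_inv, le_div_iff₀ hy]
      exact hnyn
    rw [e1]
    exact e2.trans (mul_le_mul_of_nonneg_right hyC (inv_nonneg.2 hy.le))
  have hw := w_le h hσ0 hσ hn
  have hK0 : 3 * (P.w (ε n) : ℝ) + C ≤
      (6 * P.thp / Real.log 2 + 3 + C) * (Real.log (1 / y n) + 1) := by
    have e1 : Real.logb 2 (1 / y n) = Real.log (1 / y n) / Real.log 2 := rfl
    have hl : 0 ≤ Real.log (1 / y n) := Real.log_nonneg (one_le_one_div hy hy1)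
    rw [e1] at hw
    have e2 : 2 * P.thp * (Real.log (1 / y n) / Real.log 2) =
        1 / 3 * (6 * P.thp / Real.log 2 * Real.log (1 / y n)) := by ring
    rw [e2] at hw
    have e3 : 0 ≤ 6 * P.thp / Real.log 2 := by positivity
    have e4 : 0 ≤ (3 + C) * Real.log (1 / y n) := by positivity
    nlinarith
  have hqN : 2 ^ (n - sc n) ≤ sd i R := by
    rw [hsd]
    exact Nat.pow_le_pow_right (by norm_num) (by omega)
  have hε0 := Real.exp_pos (-(y n ^ (-(3 * c3))))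
  have hnm := hnum (sd i R) n (sc n) (nC i n (kf ck y n) R) (√(tn n * (sd i R : ℝ) ^ 2))
    (3 * (P.w (ε n) : ℝ) + C) (y n ^ (-c3) / 64) (Real.exp (-(y n ^ (-(3 * c3)))))
    (Real.exp (-(y n ^ (-(3 * c3))))) (Real.exp (-(5 * y n ^ (-c3)))) hN0 hNT
    (by rw [hT]; exact hpw R hR2) hnc hncT hny2 hsc1 hsc2 hε0.le le_rfl hε0.le le_rfl hK0 le_rfl
    le_rfl
  have hδ0 : 0 < y n ^ (1 + c5) := Real.rpow_pos_of_pos hy _
  have hZ0 : 0 < y n ^ (-c3) := Real.rpow_pos_of_pos hy _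
  obtain ⟨G0, hG0, hnd⟩ := u5 n0 j hnj R hR1 hR2 hK
  have hHa := u2 n0 j hnj R hR1 hR2 hK
  have key := cutP_of (b := b) (t := tn n) (i := i) (n := n) (k := kf ck y n)
    (q := 2 ^ (n - sc n)) (R := R) hb (tn_pos n) htN hi2 (by omega) hR1 (by positivity) hqN hx
    hμ0 hμ1 (gC i n (kE1 P ck y ε n) R) (e := y n ^ (1 + c5)) (e4 := y n ^ (1 + c5))
    (δ := 3 / 2 * y n ^ (1 + c5)) (δ' := y n ^ (1 + c5)) (δ'' := y n ^ (1 + c5))
    (κ := y n ^ (-c3)) (Δ := y n ^ (-(c3 / 2))) (Ev := Ev) (K0 := 3 * (P.w (ε n) : ℝ) + C)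
    (r := 1) (aa := y n ^ (-c3) / 64) (ε := Real.exp (-(y n ^ (-(3 * c3)))))
    (ε' := Real.exp (-(y n ^ (-(3 * c3))))) (Z := 6 * y n ^ (-c3))
    (p0 := Real.exp (-(5 * y n ^ (-c3)))) (p := Real.exp (-(4 * y n ^ (-c3))))
    (s := y n ^ (1 + c4) / 16) hδ0.le hδ0.le hδ0 (by linarith) hε0.le hε0.le (by positivity)
    (by positivity) (u1 n0 j hnj R hR1 hR2 hK)
    (fun ψ => hS i hi1' η hx.pth A0 Am a (kf ck y) (fun n => P.w (ε n)) n0 j R n _ hAm hnj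
      (by omega) hn2 hR1 hR2 hk3 le_rfl hK 0 ψ)
    (fun j hj i' hi' => (hHa j hj i' hi').1) (fun j hj i' hi' => (hHa j hj i' hi').2)
    (u3 n0 j hnj R hR1 hR2 hK) (u4 n0 j hnj R hR1 hR2 hK) hG0
    (fun F hF hosc j hj i' hi' h1 h2 => nod_mono (hnd F hF hosc j hj i' hi' h1 h2) (by linarith))
    ?_ ?_
  · exact key
  · refine le_trans (le_of_eq ?_) hnm.1
    rw [hT']
    rfl
  · exact hnm.2

end flow

end

end Vale.Agent.P159.H446.Pr
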