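import Vale.Agent.P159.H446.Cut2

/-!
P159 / S (helper446): **CUT at a pair, one phase** (helper817's 8972): the whole field
`H = S0 (F + g)` is removed away from the cores in `n` sweeps of amplitude `1 / n`.

* `sj`, `Y1` : profiles and fields of the path;
* `cut_one` : the cut (from `cut_sweep` of helper191);
* `Y1_split`, `Y1_diff` : split in a random and a deterministic part, the pieces;
* `cut_pair1` : the cut, on an event whose probability is explicit.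
-/

open scoped Matrix ENNReal
open Finset MeasureTheory

set_option linter.unusedSectionVars false

namespace Vale.Agent.P159.H446.Pr

open Vale.Agent.P159.H37
open Vale.Agent.P159.H770 (Ed wTD)
open Vale.Agent.P159.H963 (Anm)
open Vale.Agent.P159.H883 (nuM prob_nuM bw_wT mf_scalar trS Psi)
open Vale.Agent.P159.H552.Sm
open Vale.Agent.P159.H764.Evq
open Vale.Agent.P159.H191 (TP YP YS th nd Nod Plt Wts GT RT LT lcT dcs plp cst0 cut_sweep smr)
open Vale.Agent.P159.H817 (sz gr bD)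
open Vale.Agent.P159.TM.SpecC (wT)
open Vale.Agent.P159.TM.Spec (V)
open Vale.Agent.P159.H253.Sm (wU)

noncomputable section

variable {N n l : ℕ} [NeZero N] [NeZero n] {b t : ℝ}

/-- the profiles of the path -/
def sj (N n l : ℕ) [NeZero N] [NeZero n] (j i : ℕ) (x : V N) : ℝ :=
  ((j : ℝ) + th N n l i x) / n

/-- the fields of the path -/
def Y1 (N n l : ℕ) [NeZero N] [NeZero n] (pl μ w : V N → ℝ) (p q : V N) (H gs : V N → ℝ)
    (j i : ℕ) : V N → ℝ := YP l pl μ w p q (sj N n l j i) H - gs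

/-- the deterministic part of the field number `(j, i)` -/
def H1 (N n l : ℕ) [NeZero N] [NeZero n] (S0 : (V N → ℝ) → V N → ℝ) (pl μ w : V N → ℝ)
    (p q : V N) (g : V N → ℝ) (j i : ℕ) : V N → ℝ :=
  YP l pl μ w p q (sj N n l j i) (S0 g) - g

lemma sj_nonneg (j i : ℕ) (x : V N) : 0 ≤ sj N n l j i x := by
  have h2 := H191.th_nonneg (N := N) (n := n) (l := l) i x
  unfold sj
  positivity

lemma sj_le_one {j : ℕ} (hj : j < n) (i : ℕ) (x : V N) : sj N n l j i x ≤ 1 := by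
  unfold sj
  have h1 : (j : ℝ) + 1 ≤ n := by exact_mod_cast hj
  have h2 := H191.th_le_one (N := N) (n := n) (l := l) i x
  have h3 : (0 : ℝ) < n := by exact_mod_cast NeZero.pos n
  rw [div_le_one h3]
  linarith

lemma Y1_eq (pl μ w : V N → ℝ) (p q : V N) (H gs : V N → ℝ) (j i : ℕ) :
    Y1 N n l pl μ w p q H gs j i = YS N n l pl μ w p q (-gs) H (j / n) (1 / n) i := by
  have e2 : sj N n l j i = fun x => (j : ℝ) / n + 1 / n * th N n l i x := by
    funext x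
    unfold sj
    ring
  unfold Y1 YS
  rw [e2, sub_eq_add_neg, add_comm]

/-- consecutive sweeps -/
lemma Y1_next (pl μ w : V N → ℝ) (p q : V N) (H gs : V N → ℝ) (j : ℕ) :
    Y1 N n l pl μ w p q H gs (j + 1) 0 = Y1 N n l pl μ w p q H gs j (n * n) := by
  have e : sj N n l (j + 1) 0 = sj N n l j (n * n) := by
    funext x
    unfold sj
    rw [H191.th_last, H191.th_zero]
    push_cast
    ring
  unfold Y1
  rw [e]

/-- the start of the path -/
lemma Y1_start (hb : 0 < b) {w : V N → ℝ} {s : ℕ} (hw : Wts w s) (pl μ : V N → ℝ) (p q : V N)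
    (H gs : V N → ℝ) (η : Ed N → ℤ) (φ : V N → ℝ) :
    Psi (wT b N) (wTD N b η) (t • (1 : Matrix (V N) (V N) ℝ)) φ
      (Y1 N n l pl μ w p q H gs 0 0) =
      Psi (wT b N) (wTD N b η) (t • (1 : Matrix (V N) (V N) ℝ)) φ (H - gs) := by
  have e : Y1 N n l pl μ w p q H gs 0 0 = fun x => (H - gs) x + (-(cst0 μ w p H)) := by
    funext x
    have h1 := H191.YP_zero (l := l) hw pl μ p q (θ := sj N n l 0 0) (fun x => by
      unfold sj
      rw [H191.th_zero]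
      simp) H x
    unfold Y1
    rw [Pi.sub_apply, h1, Pi.sub_apply]
    ring
  rw [e]
  exact H191.log_psi_cs hb η φ _ _

/-- the end of the path -/
lemma Y1_last (pl μ w : V N → ℝ) (p q : V N) (H gs : V N → ℝ) {j : ℕ} (hj : j + 1 = n) :
    Y1 N n l pl μ w p q H gs j (n * n) =
      dcs l μ w p q H + plp pl μ w p q H - gs := by
  have hn : (n : ℝ) ≠ 0 := Nat.cast_ne_zero.2 (NeZero.ne n)
  funext x
  have h := H191.YP_one (l := l) pl μ w p q (θ := sj N n l j (n * n)) (fun x => by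
    unfold sj
    rw [H191.th_last]
    have : (j : ℝ) + 1 = n := by exact_mod_cast hj
    rw [this]
    exact div_self hn) H x
  unfold Y1
  rw [Pi.sub_apply, h]
  rfl

/-- **the cut, one phase** -/
theorem cut_one (hb : 0 < b) (ht : 0 < t) (hN : N = n * l) (hl : 0 < l) (h32 : 32 * l ≤ N)
    {p q : V N} {η : Ed N → ℤ} {φ : V N → ℝ} (hη : ∀ e, (η e : ℝ) + gr φ e = bD p q e)
    {w : V N → ℝ} {s : ℕ} (hw : Wts w s) {pl : V N → ℝ} (hP : Plt l pl p q)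
    (hpq : 60 * l ≤ sz (q - p)) (μ H gs : V N → ℝ) {e e4 δ κ Δ lc Ev : ℝ}
    (he : 0 ≤ e) (he4 : 0 ≤ e4) (hδ : 0 ≤ δ)
    (hU : ∀ F, LT N b t ((η, φ) + H191.iT N F) - LT N b t 0 ≤ lc)
    (hΔ : lc - Δ ≤ LT N b t (η, φ) - LT N b t 0)
    (hnd : ∀ j < n, ∀ i < n * n, 17 * l < sz (nd N n l i - p) → 17 * l < sz (nd N n l i - q) →
      Nod N b t η φ l (nd N n l i) (Y1 N n l pl μ w p q H gs j i -
        Y1 N n l pl μ w p q H gs j (i + 1)) (κ + 4 * Δ + 3 * Ev) e e4 δ Ev)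
    (hR : ∀ j < n, ∀ i ≤ n * n, RT N b t ((2 : ℝ) • Y1 N n l pl μ w p q H gs j i) ≤ δ)
    (hE : ∀ j < n, ∀ i ≤ n * n, GT N b t (η, φ) ((4 : ℝ) • Y1 N n l pl μ w p q H gs j i) +
      GT N b t (η, φ) (-((4 : ℝ) • Y1 N n l pl μ w p q H gs j i)) ≤ 2 * lc + 2 * κ) :
    |Real.log (Psi (wT b N) (wTD N b η) (t • (1 : Matrix (V N) (V N) ℝ)) φ (H - gs)) -
      Real.log (Psi (wT b N) (wTD N b η) (t • (1 : Matrix (V N) (V N) ℝ)) φ
        (dcs l μ w p q H + plp pl μ w p q H - gs))| ≤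
      (n : ℝ) * ((n * n : ℕ) * (e + e4 + 2 * δ)) := by
  set P : (V N → ℝ) → ℝ := fun F =>
    Real.log (Psi (wT b N) (wTD N b η) (t • (1 : Matrix (V N) (V N) ℝ)) φ F) with hPd
  have one : ∀ j < n, |P (Y1 N n l pl μ w p q H gs j 0) -
      P (Y1 N n l pl μ w p q H gs j (n * n))| ≤ (n * n : ℕ) * (e + e4 + 2 * δ) := by
    intro j hj
    have h1 := hnd j hj
    have h2 := hR j hj
    have h3 := hE j hj
    simp only [Y1_eq] at h1 h2 h3 ⊢
    exact cut_sweep hb ht hN hl h32 hη w hP hpq μ _ H (j / n) (1 / n) he he4 hδ hU hΔ h1 h2 h3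
  have all : ∀ j < n, |P (Y1 N n l pl μ w p q H gs 0 0) -
      P (Y1 N n l pl μ w p q H gs j (n * n))| ≤
      ((j : ℝ) + 1) * ((n * n : ℕ) * (e + e4 + 2 * δ)) := by
    intro j
    induction j with
    | zero =>
      intro hj
      have := one 0 hj
      push_cast at this ⊢
      linarith
    | succ j ih =>
      intro hj
      have h1 := ih (by omega)
      have h2 := one (j + 1) hj
      rw [Y1_next] at h2
      have h3 := abs_sub_le (P (Y1 N n l pl μ w p q H gs 0 0))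
        (P (Y1 N n l pl μ w p q H gs j (n * n))) (P (Y1 N n l pl μ w p q H gs (j + 1) (n * n)))
      push_cast at h1 h2 ⊢
      linarith
  have hn1 : 1 ≤ n := NeZero.pos n
  have hj1 : n - 1 + 1 = n := by omega
  have key := all (n - 1) (by omega)
  have e0 : P (Y1 N n l pl μ w p q H gs 0 0) = P (H - gs) := by
    simp only [hPd]
    rw [Y1_start hb hw]
  rw [e0, Y1_last pl μ w p q H gs hj1] at key
  have e2 : ((n - 1 : ℕ) : ℝ) + 1 = n := by exact_mod_cast hj1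
  rw [e2] at key
  exact key

lemma Y1_split {S0 : (V N → ℝ) → V N → ℝ} (hSa : ∀ F G, S0 (F + G) = S0 F + S0 G)
    (pl μ w : V N → ℝ) (p q : V N) (g F : V N → ℝ) (j i : ℕ) :
    Y1 N n l pl μ w p q (S0 (F + g)) g j i =
      YP l pl μ w p q (sj N n l j i) (S0 F) + H1 N n l S0 pl μ w p q g j i := by
  unfold Y1 H1
  rw [hSa, YP_add', add_sub_assoc]

/-- the pieces of the path in terms of the oscillations -/
theorem Y1_diff {pl μ w : V N → ℝ} {s : ℕ} (hw : Wts w s) (hμ0 : ∀ z, 0 ≤ μ z)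
    (hμ : ∑ z, μ z = 1) (p q : V N) (hp0 : ∀ z, 0 ≤ pl z) (hp1 : ∀ z, pl z ≤ 1)
    {H : V N → ℝ} {Ω : ℝ} (hH : ∀ x y, |H x - H y| ≤ Ω) (gs : V N → ℝ)
    {j : ℕ} (hj : j < n) (i : ℕ) (x : V N) :
    |(Y1 N n l pl μ w p q H gs j i - Y1 N n l pl μ w p q H gs j (i + 1)) x| ≤ 6 * Ω := by
  have h1 := YP_abs (l := l) hw hμ0 hμ p q hp0 hp1 (sj_nonneg (N := N) (n := n) (l := l) j i)
    (sj_le_one hj i) hH x
  have h2 := YP_abs (l := l) hw hμ0 hμ p q hp0 hp1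
    (sj_nonneg (N := N) (n := n) (l := l) j (i + 1)) (sj_le_one hj (i + 1)) hH x
  rw [abs_le] at h1 h2 ⊢
  unfold Y1
  simp only [Pi.sub_apply]
  constructor <;> linarith [h1.1, h1.2, h2.1, h2.2]

/-- **CUT at a pair, one phase** -/
theorem cut_pair1 (hb : 0 < b) (ht : 0 < t) (htN : 1 ≤ t * (N : ℝ) ^ 2) (hN : N = n * l)
    (hl : 0 < l) (h32 : 32 * l ≤ N) {p q : V N} {η : Ed N → ℤ} {φ : V N → ℝ}
    (hη : ∀ e, (η e : ℝ) + gr φ e = bD p q e) {ρ : ℕ} {pl : V N → ℝ} (hP : Plt l pl p q)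
    (hp0 : ∀ z, 0 ≤ pl z) (hp1 : ∀ z, pl z ≤ 1) (hpq : 60 * l ≤ sz (q - p)) {μ : V N → ℝ}
    (hμ0 : ∀ z, 0 ≤ μ z) (hμ : ∑ z, μ z = 1) {S0 : (V N → ℝ) → V N → ℝ}
    (hS0 : Continuous S0) (hSa : ∀ F G, S0 (F + G) = S0 F + S0 G)
    (hSt : ∀ a F, S0 (trS a F) = trS a (S0 F))
    (hSc : ∀ (F : V N → ℝ) (c : ℝ), S0 (fun x => F x + c) = fun x => S0 F x + c)
    (g : V N → ℝ) {e e4 δ κ Δ Ev K0 r aa ε Ω pΩ p0 : ℝ} (he : 0 ≤ e) (he4 : 0 ≤ e4)
    (hδ : 0 ≤ δ) (hε0 : 0 ≤ ε) (hΩ0 : 0 ≤ Ω) (hK0 : 0 ≤ K0 + r / 2)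
    (hΔ : lcT N b η - Δ ≤ LT N b t (η, φ) - LT N b t 0)
    (hS : √(SS (wTD N b) 0 (wU ρ) (fun v => trX (aU N ρ v) (η, φ))) ≤
      Real.exp K0 * Real.exp (lcT N b η) ^ 2)
    (ha : ∀ j < n, ∀ i ≤ n * n, qf (Anm N b t) (H1 N n l S0 pl μ (wV N ρ) p q g j i) ≤ aa)
    (hε : ∀ j < n, ∀ i ≤ n * n, (nuM (wT b N) (t • (1 : Matrix (V N) (V N) ℝ)) 0).real
      {F | r < RT N b t ((32 : ℝ) • TP l pl μ p q (sj N n l j i) (S0 F))} ≤ ε)
    (hosc : (nuM (wT b N) (t • (1 : Matrix (V N) (V N) ℝ)) 0).real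
      {F | ∃ x y, Ω < |S0 F x - S0 F y|} ≤ pΩ)
    {G0 : Set (V N → ℝ)}
    (hG0 : (nuM (wT b N) (t • (1 : Matrix (V N) (V N) ℝ)) 0).real G0ᶜ ≤ p0)
    (hnd : ∀ F ∈ G0, (∀ x y, |S0 F x - S0 F y| ≤ Ω) → ∀ j < n, ∀ i < n * n,
      17 * l < sz (nd N n l i - p) → 17 * l < sz (nd N n l i - q) →
      Nod N b t η φ l (nd N n l i) (Y1 N n l pl μ (wV N ρ) p q (S0 (F + g)) g j i -
        Y1 N n l pl μ (wV N ρ) p q (S0 (F + g)) g j (i + 1)) (κ + 4 * Δ + 3 * Ev) e e4 δ Ev)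
    (hR : ∀ F ∈ G0, ∀ j < n, ∀ i ≤ n * n,
      RT N b t ((2 : ℝ) • Y1 N n l pl μ (wV N ρ) p q (S0 (F + g)) g j i) ≤ δ) :
    ∃ G : Set (V N → ℝ), MeasurableSet G ∧
      (nuM (wT b N) (t • (1 : Matrix (V N) (V N) ℝ)) 0).real Gᶜ ≤
        p0 + 2 * pΩ + (n * (n * n + 1) : ℕ) * (48 * √(t * (N : ℝ) ^ 2) * (1 + Ω) * ε +
          2 * Real.exp (K0 + r / 2 + 1 + 128 * aa - 8 * κ)) ∧
      ∀ F ∈ G, |Real.log (Psi (wT b N) (wTD N b η) (t • (1 : Matrix (V N) (V N) ℝ)) φ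
          (S0 (F + g) - g)) -
        Real.log (Psi (wT b N) (wTD N b η) (t • (1 : Matrix (V N) (V N) ℝ)) φ
          (dcs l μ (wV N ρ) p q (S0 (F + g)) + plp pl μ (wV N ρ) p q (S0 (F + g)) - g))| ≤
        (n : ℝ) * ((n * n : ℕ) * (e + e4 + 2 * δ)) := by
  have hpr : IsProbabilityMeasure (nuM (wT b N) (t • (1 : Matrix (V N) (V N) ℝ)) 0) :=
    prob_nuM (H963.gw_wT hb.le) (bw_wT hb) (mf_scalar ht) 0
  set ν := nuM (wT b N) (t • (1 : Matrix (V N) (V N) ℝ)) 0 with hν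
  set m : ℕ := n * (n * n + 1) with hm
  have hdiv : ∀ k < m, k / (n * n + 1) < n := by
    intro k hk
    exact Nat.div_lt_of_lt_mul (by rw [mul_comm]; exact hk)
  have hmod : ∀ k, k % (n * n + 1) ≤ n * n := by
    intro k
    exact Nat.lt_succ_iff.1 (Nat.mod_lt k (Nat.succ_pos (n * n)))
  -- the profiles, with values in `[0, 1]` for every index
  set θ : ℕ → V N → ℝ := fun k => if k < m then sj N n l (k / (n * n + 1)) (k % (n * n + 1))
    else fun _ => 0 with hθd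
  have hθ0 : ∀ k x, 0 ≤ θ k x := by
    intro k x
    simp only [hθd]
    split_ifs
    · exact sj_nonneg _ _ x
    · exact le_rfl
  have hθ1 : ∀ k x, θ k x ≤ 1 := by
    intro k x
    simp only [hθd]
    split_ifs with h
    · exact sj_le_one (hdiv k h) _ x
    · exact zero_le_one
  have hθk : ∀ k < m, θ k = sj N n l (k / (n * n + 1)) (k % (n * n + 1)) := by
    intro k hk
    simp only [hθd, if_pos hk]
  have key := price_tot (m := m) hb ht htN (ρ := ρ) (l := l) (η := η) (φ := φ) hμ0 hμ p q hp0 hp1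
    (θ := θ) hθ0 hθ1 hS0 hSt hSc
    (fun k => H1 N n l S0 pl μ (wV N ρ) p q g (k / (n * n + 1)) (k % (n * n + 1)))
    (Ω := Ω) (pΩ := pΩ) κ hε0 hΩ0 hK0 hosc hS (fun k hk => ha _ (hdiv k hk) _ (hmod k))
    (fun k hk => by rw [hθk k hk]; exact hε _ (hdiv k hk) _ (hmod k))
  set B1 : Set (V N → ℝ) := {F | ∃ k < m, 2 * lcT N b η + 2 * κ <
        GT N b t (η, φ) ((4 : ℝ) • (YP l pl μ (wV N ρ) p q (θ k) (S0 F) +
          H1 N n l S0 pl μ (wV N ρ) p q g (k / (n * n + 1)) (k % (n * n + 1)))) +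
        GT N b t (η, φ) (-((4 : ℝ) • (YP l pl μ (wV N ρ) p q (θ k) (S0 F) +
          H1 N n l S0 pl μ (wV N ρ) p q g (k / (n * n + 1)) (k % (n * n + 1)))))} with hB1
  set B2 : Set (V N → ℝ) := {F | ∃ x y, Ω < |S0 F x - S0 F y|} with hB2
  have hB : ν.real (G0ᶜ ∪ B2 ∪ B1) ≤ p0 + 2 * pΩ +
      m * (48 * √(t * (N : ℝ) ^ 2) * (1 + Ω) * ε +
        2 * Real.exp (K0 + r / 2 + 1 + 128 * aa - 8 * κ)) := by
    have h1 := measureReal_union_le (μ := ν) (G0ᶜ ∪ B2) B1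
    have h2 := measureReal_union_le (μ := ν) G0ᶜ B2
    linarith
  obtain ⟨G, hGm, hGp, hGo⟩ := hull ν hB
  refine ⟨G, hGm, hGp, fun F hF => ?_⟩
  have hF' := hGo F hF
  rw [Set.mem_union, Set.mem_union, not_or, not_or] at hF'
  obtain ⟨⟨f1, f2⟩, f3⟩ := hF'
  have f1' : F ∈ G0 := not_not.1 f1
  have f2' : ∀ x y, |S0 F x - S0 F y| ≤ Ω := by
    intro x y
    by_contra hc
    exact f2 ⟨x, y, not_le.1 hc⟩
  have hE : ∀ j < n, ∀ i ≤ n * n,
      GT N b t (η, φ) ((4 : ℝ) • Y1 N n l pl μ (wV N ρ) p q (S0 (F + g)) g j i) +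
      GT N b t (η, φ) (-((4 : ℝ) • Y1 N n l pl μ (wV N ρ) p q (S0 (F + g)) g j i)) ≤
        2 * lcT N b η + 2 * κ := by
    intro j hj i hi
    by_contra hc
    have hkm : j * (n * n + 1) + i < m := by
      rw [hm]
      calc j * (n * n + 1) + i < j * (n * n + 1) + (n * n + 1) := by omega
        _ = (j + 1) * (n * n + 1) := by ring
        _ ≤ n * (n * n + 1) := Nat.mul_le_mul_right _ (by omega)
    refine f3 ⟨j * (n * n + 1) + i, hkm, ?_⟩
    have e1 : (j * (n * n + 1) + i) / (n * n + 1) = j := by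
      rw [mul_comm, Nat.mul_add_div (Nat.succ_pos _), Nat.div_eq_of_lt (by omega), add_zero]
    have e2 : (j * (n * n + 1) + i) % (n * n + 1) = i := by
      rw [mul_comm, Nat.mul_add_mod, Nat.mod_eq_of_lt (by omega)]
    rw [hθk _ hkm, e1, e2, ← Y1_split hSa]
    exact not_le.1 hc
  exact cut_one (μ := μ) (H := S0 (F + g)) (gs := g) hb ht hN hl h32 hη (wts_wV ρ) hP hpq
    he he4 hδ (fun F => H191.LT_le hb ht η φ F) hΔ (hnd F f1' f2') (hR F f1') hE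

end

end Vale.Agent.P159.H446.Pr
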