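import Vale.Agent.P159.H552.Tl4

/-!
P159 / S (helper446): final price of CUT, part 1 (abstract, letters of `H552.Sm`).

`X` a vector (dislocation, real background), `G F = Gx w M m x₀ X F`, `lc = log (CX X)`.

* `Gx_conv` : convexity of `F ↦ G F`, `Gx_le` : `G F ≤ lc + qf An F / 2`;
* `ev_split` : `G (4 (Y + h)) + G (-4 (Y + h))` from the amplitude `8` of `Y` and the form of `h`;
* `mk_ev` : Markov for one map, `mk_all` : all maps of a finite family.
-/

open scoped Matrix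
open Finset MeasureTheory

set_option linter.unusedSectionVars false

namespace Vale.Agent.P159.H446.Pr

open Vale.Agent.P159.TM.H104 (EM)
open Vale.Agent.P159.H37
open Vale.Agent.P159.H770 (GWF)
open Vale.Agent.P159.H963 (pin MF An)
open Vale.Agent.P159.H883
open Vale.Agent.P159.H552.Sm

noncomputable section

variable {B V : Type} [AddCommGroup B] [Fintype V] [DecidableEq V] [Nonempty V]
variable {w : B → (V → ℤ) → ℝ} {M : Matrix V V ℝ} {m : ℝ} {x₀ : V}

/-- convexity in the real field -/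
theorem Gx_conv (hw : GWF w) (hM : MF M m) (X : B × (V → ℝ)) (F H : V → ℝ) {a b : ℝ}
    (ha : 0 ≤ a) (hb : 0 ≤ b) (hab : a + b = 1) :
    Gx w M m x₀ X (a • F + b • H) ≤ a * Gx w M m x₀ X F + b * Gx w M m x₀ X H := by
  have h1 := (eng_neu (x₀ := x₀) hw hM).cv (X, 0) F H ha hb hab
  have f : ∀ K : V → ℝ, (X, (0 : V → ℝ)) + rP B V K = (X, K) := fun K => by
    rw [rP_apply]
    simp
  rw [f, f, f] at h1
  exact h1

/-- upper bound by the quadratic form -/
theorem Gx_le (hw : GWF w) (hE : ∀ b x₀, EM (pin (w b) x₀)) (hM : MF M m)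
    (X : B × (V → ℝ)) (F : V → ℝ) :
    Gx w M m x₀ X F ≤ Real.log (CX w x₀ X) + qf (An (w 0) M m x₀) F / 2 := by
  have h1 := Px_le hw hE hM x₀ (X + (0, F))
  have h2 : CX w x₀ (X + (0, F)) = CX w x₀ X := by
    unfold CX
    rw [Prod.fst_add, add_zero]
  have h3 := Px_eq (w := w) (M := M) (X + ((0 : B), F)) 0
  have e0 : ((0 : B), (0 : V → ℝ)) = 0 := rfl
  rw [e0, add_zero] at h3
  have h4 := exp_Gx (x₀ := x₀) hw hM X F
  rw [← h3] at h4
  have h5 := Px_pos hw hM (X + ((0 : B), F)) 0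
  have h6 : Gx w M m x₀ X F = Real.log (Px w M (X + (0, F)) 0) +
      qf (An (w 0) M m x₀) F / 2 := by
    rw [← Real.log_exp (Gx w M m x₀ X F), h4, Real.log_mul h5.ne' (Real.exp_pos _).ne',
      Real.log_exp]
  rw [h6, ← h2]
  have h7 := Real.log_le_log h5 h1
  linarith

/-- the symmetric sum at amplitude `4` of `Y + h` -/
theorem ev_split (hw : GWF w) (hE : ∀ b x₀, EM (pin (w b) x₀)) (hM : MF M m)
    (X : B × (V → ℝ)) (Y h : V → ℝ) {a : ℝ} (ha : qf (An (w 0) M m x₀) h ≤ a) :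
    Gx w M m x₀ X ((4 : ℝ) • (Y + h)) + Gx w M m x₀ X (-((4 : ℝ) • (Y + h))) ≤
      (Gx w M m x₀ X ((8 : ℝ) • Y) + Gx w M m x₀ X (-((8 : ℝ) • Y))) / 2 +
        Real.log (CX w x₀ X) + 32 * a := by
  have c1 := Gx_conv (x₀ := x₀) hw hM X ((8 : ℝ) • Y) ((8 : ℝ) • h) (a := 1 / 2) (b := 1 / 2)
    (by norm_num) (by norm_num) (by norm_num)
  have c2 := Gx_conv (x₀ := x₀) hw hM X (-((8 : ℝ) • Y)) (-((8 : ℝ) • h)) (a := 1 / 2)
    (b := 1 / 2) (by norm_num) (by norm_num) (by norm_num)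
  have e1 : (1 / 2 : ℝ) • ((8 : ℝ) • Y) + (1 / 2 : ℝ) • ((8 : ℝ) • h) = (4 : ℝ) • (Y + h) := by
    module
  have e2 : (1 / 2 : ℝ) • (-((8 : ℝ) • Y)) + (1 / 2 : ℝ) • (-((8 : ℝ) • h)) =
      -((4 : ℝ) • (Y + h)) := by
    module
  rw [e1] at c1
  rw [e2] at c2
  have u1 := Gx_le (x₀ := x₀) hw hE hM X ((8 : ℝ) • h)
  have u2 := Gx_le (x₀ := x₀) hw hE hM X (-((8 : ℝ) • h))
  have q1 : qf (An (w 0) M m x₀) ((8 : ℝ) • h) = 64 * qf (An (w 0) M m x₀) h := by
    rw [qf_smul]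
    norm_num
  rw [qf_neg, q1] at u2
  rw [q1] at u1
  linarith

/-- **Markov**: the symmetric sum at amplitude `4` of `T F + h` is large with small probability -/
theorem mk_ev (hw : GWF w) (hE : ∀ b x₀, EM (pin (w b) x₀)) (hM : MF M m)
    (X : B × (V → ℝ)) {T : (V → ℝ) → V → ℝ} (hT : Continuous T) {A : Set (V → ℝ)}
    (hA : MeasurableSet A) {K0 a κ : ℝ} {h : V → ℝ} (ha : qf (An (w 0) M m x₀) h ≤ a)
    (hi : IntegrableOn (fun F => ES w M m x₀ X 8 (T F)) A (nuM (w 0) M x₀))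
    (hS : ∫ F in A, ES w M m x₀ X 8 (T F) ∂(nuM (w 0) M x₀) ≤
      Real.exp K0 * CX w x₀ X ^ 2) :
    (nuM (w 0) M x₀).real {F | F ∈ A ∧ 2 * Real.log (CX w x₀ X) + 2 * κ <
      Gx w M m x₀ X ((4 : ℝ) • (T F + h)) + Gx w M m x₀ X (-((4 : ℝ) • (T F + h)))} ≤
      Real.exp (K0 + 64 * a - 4 * κ) := by
  have := prob0 hw hE hM x₀
  have cp := CX_pos hw hE x₀ X
  set ν := nuM (w 0) M x₀ with hν
  set c := CX w x₀ X with hc
  set lv := c ^ 2 * Real.exp (4 * κ - 64 * a) with hlv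
  have hlv0 : 0 < lv := by positivity
  set S := {F | F ∈ A ∧ lv ≤ ES w M m x₀ X 8 (T F)} with hSd
  have hTm : Measurable fun F => ES w M m x₀ X 8 (T F) :=
    ((cont_ES hw hE hM X 8).comp hT).measurable
  have hSm : MeasurableSet S := hA.inter (measurableSet_le measurable_const hTm)
  have hsub : {F | F ∈ A ∧ 2 * Real.log c + 2 * κ <
      Gx w M m x₀ X ((4 : ℝ) • (T F + h)) + Gx w M m x₀ X (-((4 : ℝ) • (T F + h)))} ⊆ S := by
    rintro F ⟨hFA, hF⟩
    refine ⟨hFA, ?_⟩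
    have h1 := ev_split hw hE hM X (T F) h ha
    have h2 : 2 * Real.log c + (4 * κ - 64 * a) ≤
        Gx w M m x₀ X ((8 : ℝ) • T F) + Gx w M m x₀ X (-((8 : ℝ) • T F)) := by
      linarith
    have h3 : lv = Real.exp (2 * Real.log c + (4 * κ - 64 * a)) := by
      rw [Real.exp_add, hlv]
      congr 1
      rw [two_mul, Real.exp_add, Real.exp_log cp]
      ring
    rw [h3]
    exact Real.exp_le_exp.2 h2
  have h4 : ν.real S * lv ≤ ∫ F in A, ES w M m x₀ X 8 (T F) ∂ν := by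
    have hiS : IntegrableOn (fun F => ES w M m x₀ X 8 (T F)) S ν :=
      hi.mono_set fun F hF => hF.1
    calc ν.real S * lv = ∫ _ in S, lv ∂ν := by
          rw [setIntegral_const, smul_eq_mul]
      _ ≤ ∫ F in S, ES w M m x₀ X 8 (T F) ∂ν :=
          setIntegral_mono_on (integrable_const _) hiS hSm fun F hF => hF.2
      _ ≤ ∫ F in A, ES w M m x₀ X 8 (T F) ∂ν :=
          setIntegral_mono_set hi (Filter.Eventually.of_forall fun F => (ES_pos _ _ _).le)
            (Filter.Eventually.of_forall fun F hF => hF.1)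
  have h5 : ν.real S ≤ Real.exp (K0 + 64 * a - 4 * κ) := by
    have h6 := h4.trans hS
    have e : Real.exp (K0 + 64 * a - 4 * κ) = Real.exp K0 * c ^ 2 / lv := by
      rw [hlv, eq_div_iff (by positivity)]
      have : Real.exp (K0 + 64 * a - 4 * κ) * (c ^ 2 * Real.exp (4 * κ - 64 * a)) =
          c ^ 2 * (Real.exp (K0 + 64 * a - 4 * κ) * Real.exp (4 * κ - 64 * a)) := by ring
      rw [this, ← Real.exp_add, mul_comm]
      congr 2
      ring
    rw [e, le_div_iff₀ hlv0]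
    exact h6
  exact (measureReal_mono hsub (measure_ne_top _ _)).trans h5

/-- **all maps of a finite family** -/
theorem mk_all (hw : GWF w) (hE : ∀ b x₀, EM (pin (w b) x₀)) (hM : MF M m)
    (X : B × (V → ℝ)) {n : ℕ} {T : ℕ → (V → ℝ) → V → ℝ} (hT : ∀ i < n, Continuous (T i))
    {A : Set (V → ℝ)} (hA : MeasurableSet A) {K0 a κ : ℝ} {h : ℕ → V → ℝ}
    (ha : ∀ i < n, qf (An (w 0) M m x₀) (h i) ≤ a)
    (hi : ∀ i < n, IntegrableOn (fun F => ES w M m x₀ X 8 (T i F)) A (nuM (w 0) M x₀))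
    (hS : ∀ i < n, ∫ F in A, ES w M m x₀ X 8 (T i F) ∂(nuM (w 0) M x₀) ≤
      Real.exp K0 * CX w x₀ X ^ 2) :
    (nuM (w 0) M x₀).real {F | F ∈ A ∧ ∃ i < n, 2 * Real.log (CX w x₀ X) + 2 * κ <
      Gx w M m x₀ X ((4 : ℝ) • (T i F + h i)) +
        Gx w M m x₀ X (-((4 : ℝ) • (T i F + h i)))} ≤
      n * Real.exp (K0 + 64 * a - 4 * κ) := by
  have := prob0 hw hE hM x₀
  set S : ℕ → Set (V → ℝ) := fun i => {F | F ∈ A ∧ 2 * Real.log (CX w x₀ X) + 2 * κ <
      Gx w M m x₀ X ((4 : ℝ) • (T i F + h i)) +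
        Gx w M m x₀ X (-((4 : ℝ) • (T i F + h i)))} with hSd
  have hsub : {F | F ∈ A ∧ ∃ i < n, 2 * Real.log (CX w x₀ X) + 2 * κ <
      Gx w M m x₀ X ((4 : ℝ) • (T i F + h i)) +
        Gx w M m x₀ X (-((4 : ℝ) • (T i F + h i)))} ⊆ ⋃ i ∈ Finset.range n, S i := by
    rintro F ⟨hFA, i, hin, hF⟩
    exact Set.mem_biUnion (Finset.mem_coe.2 (Finset.mem_range.2 hin)) ⟨hFA, hF⟩
  refine (measureReal_mono hsub (measure_ne_top _ _)).trans ?_
  refine (measureReal_biUnion_finset_le _ _).trans ?_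
  calc ∑ i ∈ Finset.range n, (nuM (w 0) M x₀).real (S i) ≤
        ∑ _i ∈ Finset.range n, Real.exp (K0 + 64 * a - 4 * κ) :=
        Finset.sum_le_sum fun i hin => by
          have hin' := Finset.mem_range.1 hin
          exact mk_ev hw hE hM X (hT i hin') hA (ha i hin') (hi i hin') (hS i hin')
    _ = n * Real.exp (K0 + 64 * a - 4 * κ) := by
        rw [Finset.sum_const, Finset.card_range, nsmul_eq_mul]

end

end Vale.Agent.P159.H446.Pr
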