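import Vale.Agent.P159.H817.St5

/-!
P159 / H446 (S list, S4): the CUT of a rough background.

`F` is an arbitrary (rough) real field, `c` a smooth field. The background `F` of a dislocated
pair `(p, q)` is replaced by `c` outside the boxes of radius `d` around the two cores, box by box
(boxes of side `s`). Every step costs one mixed difference between a dislocated field which vanishes
near the box and the rough field in the box (locality at distance `l`), over a REAL base, and two
real values.
-/

set_option linter.unusedSectionVars false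

namespace Vale.Agent.P159.H446

open Finset
open Vale.Agent.P159.TM.Spec (V)
open Vale.Agent.P159.H817

noncomputable section

variable {N : ℕ} [NeZero N]

/-- **hypotheses of the cut** on the functional `ρ` of edge fields: `RR` a class of real fields,
`s` size of the rough bumps, `l` distance, `Lam` size of the smooth fields -/
structure RLoc (ρ : (V N × Bool → ℝ) → ℝ) (p q : V N) (s l : ℕ) (Λ ε₂ ε₃ : ℝ)
    (RR : Set (V N → ℝ)) : Prop where
  real : ∀ Y ∈ RR, |ρ (gr Y)| ≤ ε₂
  loc : ∀ (Y g v : V N → ℝ) (w : V N), 8 * l ≤ sz (w - p) → 8 * l ≤ sz (w - q) →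
    (fun x => Y x + g x) ∈ RR → (fun x => Y x + g x + v x) ∈ RR →
    (∀ x, s ≤ sz (x - w) → v x = 0) → GB (Λ / l) g → (∀ x, 4 * l ≤ sz (x - w) → g x = 0) →
    (∀ e : V N × Bool, sz (e.1 - w) < 3 * l → gr g e = bD p q e) →
    |ρ (fun e => bD p q e + gr (fun x => Y x + v x) e) - ρ (fun e => bD p q e + gr Y e)
      - ρ (gr fun x => Y x + g x + v x) + ρ (gr fun x => Y x + g x)| ≤ ε₃

/-- the local potential of the pair near `w`, cut off at distance `3 l` -/
theorem loc_pot {p q : V N} {l : ℕ} (hl : 1 ≤ l) (hlN : 10 * l + 2 ≤ N) {w : V N}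
    (hp : 8 * l ≤ sz (w - p)) (hq : 8 * l ≤ sz (w - q)) :
    ∃ g : V N → ℝ, GB (41 * (1 + 2 * CG) / l) g ∧ (∀ x, 4 * l ≤ sz (x - w) → g x = 0) ∧
      (∀ e : V N × Bool, sz (e.1 - w) < 3 * l → gr g e = bD p q e) ∧
      ∀ x, |g x| ≤ 40 * (1 + 2 * CG) := by
  have hC := CG_pos
  have hl0 : 0 < l := hl
  have hl' : (0 : ℝ) < l := by exact_mod_cast hl0
  have hN := N_pos_real (N := N)
  have dist : ∀ x c : V N, 8 * l ≤ sz (w - c) → sz (x - w) ≤ 5 * l → 3 * l ≤ sz (x - c) := by
    intro x c hc hx
    have h3 := sz_add_le (w - x) (x - c)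
    rw [sub_add_sub_cancel, sz_sub_comm w x] at h3
    omega
  set S : ℝ := 1 + 2 * CG with hS
  have hS0 : 0 ≤ S := by positivity
  have hβb : ∀ x b, sz (x - w) ≤ 5 * l → |bD p q (x, b)| ≤ S / l := by
    intro x b hx
    have d1 := dist x p hp hx
    have d2 := dist x q hq hx
    have a1 := bD_le p q x b d1 d2
    have a3 : 1 / (N : ℝ) ≤ 1 / l := by
      refine one_div_le_one_div_of_le hl' ?_
      have : l ≤ N := by omega
      exact_mod_cast this
    have a4 : 4 * CG / (1 + ((3 * l : ℕ) : ℝ)) ≤ 2 * CG / l := by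
      rw [div_le_div_iff₀ (by positivity) hl']
      push_cast
      nlinarith
    have e2 : S / l = 1 / l + 2 * CG / l := by rw [hS]; ring
    rw [e2]
    linarith
  have hcu : ∀ x, sz (x - w) ≤ 5 * l → cu (bD p q) x = 0 := by
    intro x hx
    have d1 := dist x p hp hx
    have d2 := dist x q hq hx
    rw [cu_bD, if_neg, if_neg, sub_self]
    · intro h
      rw [h, sub_self, sz_zero] at d2
      omega
    · intro h
      rw [h, sub_self, sz_zero] at d1
      omega
  obtain ⟨f, -, hfg, hfb⟩ := box_pot (bD p q) w (m := 5 * l) (by omega) hβb hcu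
  have hfb' : ∀ x, sz (x - w) ≤ 5 * l → |f x| ≤ 40 * S := by
    intro x hx
    refine (hfb x hx).trans (le_of_eq ?_)
    push_cast
    field_simp
    ring
  refine ⟨fun x => U (3 * l) l (x - w) * f x, ?_, ?_, ?_, ?_⟩
  · have h2 := GB.cut (w := w) (m := 5 * l) (k := 3 * l) (l := l) (s := S / l) (B := 40 * S)
      (f := f) hl0 (by omega) (by positivity)
      (fun x b hx => by rw [hfg x b hx]; exact hβb x b hx) hfb'
    refine h2.mono (le_of_eq ?_)
    ring
  · intro x hx
    show U (3 * l) l (x - w) * f x = 0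
    rw [U_zero (by omega), zero_mul]
  · rintro ⟨y, c⟩ hy
    simp only at hy
    have h5 := (sz_step (y - w) c).2
    have h8 : sz (y + eb c - w) ≤ 3 * l := by rw [add_sub_right_comm]; omega
    rw [← hfg y c (by omega), gr_eq, gr_eq]
    show U (3 * l) l (y + eb c - w) * f (y + eb c) - U (3 * l) l (y - w) * f y = _
    rw [U_one hl0 h8, U_one hl0 (show sz (y - w) ≤ 3 * l by omega)]
    ring
  · intro x
    show |U (3 * l) l (x - w) * f x| ≤ _
    rcases le_or_gt (sz (x - w)) (5 * l) with h | h
    · rw [abs_mul]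
      calc _ ≤ 1 * (40 * S) := mul_le_mul (abs_U _ _ _) (hfb' x h) (abs_nonneg _) zero_le_one
        _ = 40 * S := one_mul _
    · rw [U_zero (by omega), zero_mul, abs_zero]
      positivity

/-- **one rough bump** -/
theorem RLoc.bump {ρ : (V N × Bool → ℝ) → ℝ} {p q : V N} {s l : ℕ} {Λ ε₂ ε₃ : ℝ}
    {RR : Set (V N → ℝ)} (H : RLoc ρ p q s l Λ ε₂ ε₃ RR) {Y v g : V N → ℝ} {w : V N}
    (hp : 8 * l ≤ sz (w - p)) (hq : 8 * l ≤ sz (w - q))
    (h1 : (fun x => Y x + g x) ∈ RR) (h2 : (fun x => Y x + g x + v x) ∈ RR)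
    (hv : ∀ x, s ≤ sz (x - w) → v x = 0) (hg : GB (Λ / l) g)
    (hg0 : ∀ x, 4 * l ≤ sz (x - w) → g x = 0)
    (hgD : ∀ e : V N × Bool, sz (e.1 - w) < 3 * l → gr g e = bD p q e) :
    |ρ (fun e => bD p q e + gr (fun x => Y x + v x) e) - ρ (fun e => bD p q e + gr Y e)| ≤
      2 * ε₂ + ε₃ := by
  have a := H.loc Y g v w hp hq h1 h2 hv hg hg0 hgD
  have r1 := H.real _ h1
  have r2 := H.real _ h2
  rw [abs_le] at a r1 r2 ⊢
  constructor <;> linarith

/-! ### the partial cuts -/

/-- index of the box of side `s` of a site -/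
def bx (s : ℕ) (x : V N) : ℕ := x.1.val / s * (N / s + 1) + x.2.val / s

lemma bx_lt (s : ℕ) (x : V N) : bx s x < (N / s + 1) ^ 2 := by
  have h1 : x.1.val / s ≤ N / s := Nat.div_le_div_right (ZMod.val_lt x.1).le
  have h2 : x.2.val / s ≤ N / s := Nat.div_le_div_right (ZMod.val_lt x.2).le
  unfold bx
  have h3 : x.1.val / s * (N / s + 1) ≤ N / s * (N / s + 1) := Nat.mul_le_mul_right _ h1
  have h4 : (N / s + 1) ^ 2 = N / s * (N / s + 1) + (N / s + 1) := by ring
  omega

lemma val_near {s : ℕ} (hs : 0 < s) {a b : ZMod N} (h : a.val / s = b.val / s) :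
    (a - b).valMinAbs.natAbs < s := by
  have key : ∀ a b : ZMod N, b.val ≤ a.val → a.val / s = b.val / s →
      (a - b).valMinAbs.natAbs < s := by
    intro a b hab h
    have h1 : a.val - b.val < s := by
      have h2 := Nat.div_add_mod a.val s
      have h3 := Nat.div_add_mod b.val s
      have h4 := Nat.mod_lt a.val hs
      have h5 := Nat.mod_lt b.val hs
      rw [h] at h2
      omega
    have h2 : (a - b).val = a.val - b.val := ZMod.val_sub hab
    rw [ZMod.valMinAbs_natAbs_eq_min]
    omega
  rcases le_total b.val a.val with hab | hab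
  · exact key a b hab h
  · have := key b a hab h.symm
    rwa [← neg_sub, ZMod.natAbs_valMinAbs_neg]

lemma bx_near {s : ℕ} (hs : 0 < s) {x y : V N} (h : bx s x = bx s y) : sz (x - y) < s := by
  have h1 : x.2.val / s ≤ N / s := Nat.div_le_div_right (ZMod.val_lt x.2).le
  have h2 : y.2.val / s ≤ N / s := Nat.div_le_div_right (ZMod.val_lt y.2).le
  unfold bx at h
  have h3 : x.1.val / s = y.1.val / s ∧ x.2.val / s = y.2.val / s := by
    have hm : ∀ a c M : ℕ, c < M → (a * M + c) / M = a ∧ (a * M + c) % M = c := by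
      intro a c M hc
      have hM : 0 < M := by omega
      constructor
      · rw [mul_comm, Nat.mul_add_div hM, Nat.div_eq_of_lt hc, add_zero]
      · rw [mul_comm, Nat.mul_add_mod, Nat.mod_eq_of_lt hc]
    obtain ⟨a1, a2⟩ := hm (x.1.val / s) (x.2.val / s) (N / s + 1) (by omega)
    obtain ⟨b1, b2⟩ := hm (y.1.val / s) (y.2.val / s) (N / s + 1) (by omega)
    rw [h] at a1 a2
    exact ⟨a1.symm.trans b1, a2.symm.trans b2⟩
  have h4 := val_near hs h3.1
  have h5 := val_near hs h3.2
  unfold sz
  exact max_lt h4 h5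

open Classical in
/-- **partial cut**: the field `F` near the cores and in the first `k` boxes, `c` elsewhere -/
def pc (F c : V N → ℝ) (p q : V N) (d s k : ℕ) (x : V N) : ℝ :=
  if sz (x - p) ≤ d ∨ sz (x - q) ≤ d ∨ bx s x < k then F x else c x

open Classical in
lemma pc_last (F c : V N → ℝ) (p q : V N) (d s : ℕ) : pc F c p q d s ((N / s + 1) ^ 2) = F := by
  funext x
  unfold pc
  rw [if_pos (Or.inr (Or.inr (bx_lt s x)))]

/-- **THE CUT, abstract form** -/
theorem RLoc.cut {ρ : (V N × Bool → ℝ) → ℝ} {p q : V N} {s l d : ℕ} {Λ ε₂ ε₃ : ℝ}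
    {RR : Set (V N → ℝ)} (H : RLoc ρ p q s l Λ ε₂ ε₃ RR) (hs : 0 < s) (hsl : s ≤ l)
    (hd : 8 * l ≤ d) (hlN : 10 * l + 2 ≤ N) (hΛ : 41 * (1 + 2 * CG) ≤ Λ) (F c : V N → ℝ)
    (hRR : ∀ k (w : V N) (g : V N → ℝ), d < sz (w - p) → d < sz (w - q) →
      GB (41 * (1 + 2 * CG) / l) g → (∀ x, 4 * l ≤ sz (x - w) → g x = 0) →
      (∀ x, |g x| ≤ 40 * (1 + 2 * CG)) →
      (∀ e : V N × Bool, sz (e.1 - w) < 3 * l → gr g e = bD p q e) → k ≤ (N / s + 1) ^ 2 →
      (fun x => pc F c p q d s k x + g x) ∈ RR) (k : ℕ) (hk : k ≤ (N / s + 1) ^ 2)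
    (he : 0 ≤ 2 * ε₂ + ε₃) :
    |ρ (fun e => bD p q e + gr (pc F c p q d s k) e) -
      ρ (fun e => bD p q e + gr (pc F c p q d s 0) e)| ≤ k * (2 * ε₂ + ε₃) := by
  classical
  induction k with
  | zero => simp
  | succ k ih =>
    have ih' := ih (by omega)
    have step : |ρ (fun e => bD p q e + gr (pc F c p q d s (k + 1)) e) -
        ρ (fun e => bD p q e + gr (pc F c p q d s k) e)| ≤ 2 * ε₂ + ε₃ := by
      by_cases hex : ∃ w : V N, d < sz (w - p) ∧ d < sz (w - q) ∧ bx s w = k
      · obtain ⟨w, w1, w2, w3⟩ := hex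
        obtain ⟨g, g1, g2, g3, g4⟩ := loc_pot (p := p) (q := q) (l := l) (by omega) hlN (w := w)
          (by omega) (by omega)
        set Y := pc F c p q d s k with hY
        set v : V N → ℝ := fun x => pc F c p q d s (k + 1) x - Y x with hv
        have e1 : pc F c p q d s (k + 1) = fun x => Y x + v x := by
          funext x
          rw [hv]
          ring
        have hv0 : ∀ x, s ≤ sz (x - w) → v x = 0 := by
          intro x hx
          have hne : bx s x ≠ k := by
            intro h
            have := bx_near hs (h.trans w3.symm)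
            omega
          rw [hv, hY]
          simp only [pc]
          have : (bx s x < k + 1) ↔ (bx s x < k) := by omega
          simp only [this, sub_self]
        have hgl : GB (Λ / l) g := g1.mono (div_le_div_of_nonneg_right hΛ (Nat.cast_nonneg _))
        have m1 := hRR k w g w1 w2 g1 g2 g4 g3 (by omega)
        have m2 := hRR (k + 1) w g w1 w2 g1 g2 g4 g3 hk
        have m2' : (fun x => Y x + g x + v x) ∈ RR := by
          have e2 : (fun x => Y x + g x + v x) = fun x => pc F c p q d s (k + 1) x + g x := by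
            funext x
            rw [e1]
            ring
          rw [e2]
          exact m2
        have hb := H.bump (Y := Y) (v := v) (g := g) (w := w) (by omega) (by omega) m1 m2' hv0 hgl
          g2 g3
        rw [e1]
        exact hb
      · have e1 : pc F c p q d s (k + 1) = pc F c p q d s k := by
          funext x
          unfold pc
          by_cases h1 : sz (x - p) ≤ d ∨ sz (x - q) ≤ d ∨ bx s x < k
          · rw [if_pos h1, if_pos]
            rcases h1 with h | h | h
            · exact Or.inl h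
            · exact Or.inr (Or.inl h)
            · exact Or.inr (Or.inr (by omega))
          · rw [if_neg h1, if_neg]
            push Not at h1 hex ⊢
            refine ⟨h1.1, h1.2.1, ?_⟩
            have h3 := hex x h1.1 h1.2.1
            have h4 := h1.2.2
            omega
        rw [e1, sub_self, abs_zero]
        exact he
    have hk1 : ((k + 1 : ℕ) : ℝ) * (2 * ε₂ + ε₃) = k * (2 * ε₂ + ε₃) + (2 * ε₂ + ε₃) := by
      push_cast
      ring
    rw [hk1]
    rw [abs_le] at ih' step ⊢
    constructor <;> linarith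

end

end Vale.Agent.P159.H446
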