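import Vale.Agent.P159.H446.Pr6
import Vale.Agent.P159.H191.Ct7

/-!
P159 / S (helper446): **CUT at a pair**: `cut_two` of helper191 on an event whose probability is
explicit.

`KF F = S0 (F + g) - g` (`S0` the smoothing), `HJ j i` the deterministic part of the field number
`(j, i)` of the path.

* `YJ_split` : `YJ (KF F) g j i = YP (tht j i) (S0 F) + HJ j i`;
* `YJ_diff` : the energy of the pieces in terms of the oscillation;
* `cut_pair` : the cut, on an event of probability `1 - p0 - 2 pΩ - m (...)`.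
-/

open scoped Matrix ENNReal
open Finset MeasureTheory

set_option linter.unusedSectionVars false

namespace Vale.Agent.P159.H446.Pr

open Vale.Agent.P159.H37
open Vale.Agent.P159.H770 (Ed wTD)
open Vale.Agent.P159.H963 (Anm)
open Vale.Agent.P159.H883 (nuM prob_nuM bw_wT mf_scalar trS Psi)
open Vale.Agent.P159.H552.Sm
open Vale.Agent.P159.H764.Evq
open Vale.Agent.P159.H191 (TP YP YJ tht sig th nd Nod Plt Wts GT RT LT lcT dcs plp cut_two smr)
open Vale.Agent.P159.H817 (sz gr bD)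
open Vale.Agent.P159.TM.SpecC (wT)
open Vale.Agent.P159.TM.Spec (V)
open Vale.Agent.P159.H253.Sm (wU)

noncomputable section

variable {N n l : ℕ} [NeZero N] [NeZero n] {b t : ℝ}

/-- the field after the door -/
def KF (S0 : (V N → ℝ) → V N → ℝ) (g F : V N → ℝ) : V N → ℝ := S0 (F + g) - g

/-- the deterministic part of the field number `(j, i)` of the path -/
def HJ (N n l : ℕ) [NeZero N] [NeZero n] (S0 : (V N → ℝ) → V N → ℝ) (pl μ w : V N → ℝ)
    (p q : V N) (g : V N → ℝ) (j i : ℕ) : V N → ℝ :=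
  YP l pl μ w p q (tht N n l j i) (S0 g - g) + YP l pl μ w p q (sig N n l j i) g - g

lemma YP_add' (pl μ w : V N → ℝ) (p q : V N) (θ H K : V N → ℝ) :
    YP l pl μ w p q θ (H + K) = YP l pl μ w p q θ H + YP l pl μ w p q θ K :=
  H191.YP_add pl μ w p q θ H K

lemma YJ_split {S0 : (V N → ℝ) → V N → ℝ} (hSa : ∀ F G, S0 (F + G) = S0 F + S0 G)
    (pl μ w : V N → ℝ) (p q : V N) (g F : V N → ℝ) (j i : ℕ) :
    YJ N n l pl μ w p q (KF S0 g F) g j i =
      YP l pl μ w p q (tht N n l j i) (S0 F) + HJ N n l S0 pl μ w p q g j i := by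
  have e : S0 F + S0 g - g = S0 F + (S0 g - g) := add_sub_assoc _ _ _
  unfold YJ HJ KF
  rw [hSa, e, YP_add']
  funext x
  simp only [Pi.add_apply, Pi.sub_apply]
  ring

/-- the smeared field in terms of the oscillation -/
theorem YP_abs {pl μ w : V N → ℝ} {s : ℕ} (hw : Wts w s) (hμ0 : ∀ z, 0 ≤ μ z)
    (hμ : ∑ z, μ z = 1) (p q : V N) (hp0 : ∀ z, 0 ≤ pl z) (hp1 : ∀ z, pl z ≤ 1)
    {θ : V N → ℝ} (hθ0 : ∀ x, 0 ≤ θ x) (hθ1 : ∀ x, θ x ≤ 1) {H : V N → ℝ} {Ω : ℝ}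
    (h : ∀ x y, |H x - H y| ≤ Ω) (x : V N) : |YP l pl μ w p q θ H x| ≤ 3 * Ω := by
  unfold YP smr
  calc |∑ v, w v * TP l pl μ p q θ (fun y => H (y + v)) (x - v)|
      ≤ ∑ v, |w v * TP l pl μ p q θ (fun y => H (y + v)) (x - v)| :=
        Finset.abs_sum_le_sum_abs _ _
    _ ≤ ∑ v, w v * (3 * Ω) := Finset.sum_le_sum fun v _ => by
        rw [abs_mul, abs_of_nonneg (hw.nn v)]
        exact mul_le_mul_of_nonneg_left
          (TP_abs hμ0 hμ p q hp0 hp1 hθ0 hθ1 (fun y z => h _ _) _) (hw.nn v)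
    _ = 3 * Ω := by rw [← Finset.sum_mul, hw.one, one_mul]

lemma tht_nonneg (j i : ℕ) (x : V N) : 0 ≤ tht N n l j i x := by
  unfold tht
  split_ifs
  · exact H191.th_nonneg i x
  · exact zero_le_one

lemma tht_le_one (j i : ℕ) (x : V N) : tht N n l j i x ≤ 1 := by
  unfold tht
  split_ifs
  · exact H191.th_le_one i x
  · exact le_rfl

lemma sig_nonneg (j i : ℕ) (x : V N) : 0 ≤ sig N n l j i x := by
  unfold sig
  split_ifs with h
  · exact le_rfl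
  · have h1 : (1 : ℝ) ≤ j := by exact_mod_cast Nat.one_le_iff_ne_zero.2 h
    have h2 := H191.th_nonneg (N := N) (n := n) (l := l) i x
    exact div_nonneg (by linarith) (Nat.cast_nonneg n)

lemma sig_le_one {j : ℕ} (hj : j ≤ n) (i : ℕ) (x : V N) : sig N n l j i x ≤ 1 := by
  unfold sig
  split_ifs with h
  · exact zero_le_one
  · have h1 : (j : ℝ) ≤ n := by exact_mod_cast hj
    have h2 := H191.th_le_one (N := N) (n := n) (l := l) i x
    have h3 : (0 : ℝ) < n := by exact_mod_cast NeZero.pos n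
    rw [div_le_one h3]
    linarith

/-- the pieces of the path in terms of the oscillations -/
theorem YJ_diff {pl μ w : V N → ℝ} {s : ℕ} (hw : Wts w s) (hμ0 : ∀ z, 0 ≤ μ z)
    (hμ : ∑ z, μ z = 1) (p q : V N) (hp0 : ∀ z, 0 ≤ pl z) (hp1 : ∀ z, pl z ≤ 1)
    {K g : V N → ℝ} {Ω Ω' : ℝ} (hK : ∀ x y, |K x - K y| ≤ Ω) (hg : ∀ x y, |g x - g y| ≤ Ω')
    {j : ℕ} (hj : j ≤ n) (i : ℕ) (x : V N) :
    |(YJ N n l pl μ w p q K g j i - YJ N n l pl μ w p q K g j (i + 1)) x| ≤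
      6 * (Ω + Ω') := by
  have h1 := YP_abs (l := l) hw hμ0 hμ p q hp0 hp1 (tht_nonneg (N := N) (n := n) (l := l) j i)
    (tht_le_one j i) hK x
  have h2 := YP_abs (l := l) hw hμ0 hμ p q hp0 hp1
    (tht_nonneg (N := N) (n := n) (l := l) j (i + 1)) (tht_le_one j (i + 1)) hK x
  have h3 := YP_abs (l := l) hw hμ0 hμ p q hp0 hp1 (sig_nonneg (N := N) (n := n) (l := l) j i)
    (sig_le_one hj i) hg x
  have h4 := YP_abs (l := l) hw hμ0 hμ p q hp0 hp1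
    (sig_nonneg (N := N) (n := n) (l := l) j (i + 1)) (sig_le_one hj (i + 1)) hg x
  rw [abs_le] at h1 h2 h3 h4 ⊢
  unfold YJ
  simp only [Pi.sub_apply, Pi.add_apply]
  constructor <;> linarith [h1.1, h1.2, h2.1, h2.2, h3.1, h3.2, h4.1, h4.2]

/-- **CUT at a pair** -/
theorem cut_pair (hb : 0 < b) (ht : 0 < t) (htN : 1 ≤ t * (N : ℝ) ^ 2) (hN : N = n * l)
    (hl : 0 < l) (h32 : 32 * l ≤ N) {p q : V N} {η : Ed N → ℤ} {φ : V N → ℝ}
    (hη : ∀ e, (η e : ℝ) + gr φ e = bD p q e) {ρ : ℕ} {pl : V N → ℝ} (hP : Plt l pl p q)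
    (hp0 : ∀ z, 0 ≤ pl z) (hp1 : ∀ z, pl z ≤ 1) (hpq : 60 * l ≤ sz (q - p)) {μ : V N → ℝ}
    (hμ0 : ∀ z, 0 ≤ μ z) (hμ : ∑ z, μ z = 1) {S0 : (V N → ℝ) → V N → ℝ}
    (hS0 : Continuous S0) (hSa : ∀ F G, S0 (F + G) = S0 F + S0 G)
    (hSt : ∀ a F, S0 (trS a F) = trS a (S0 F))
    (hSc : ∀ (F : V N → ℝ) (c : ℝ), S0 (fun x => F x + c) = fun x => S0 F x + c)
    (g : V N → ℝ) {e e4 δ κ Δ Ev K0 r aa ε Ω pΩ p0 : ℝ} (he : 0 ≤ e) (he4 : 0 ≤ e4)
    (hδ : 0 ≤ δ) (hε0 : 0 ≤ ε) (hΩ0 : 0 ≤ Ω) (hK0 : 0 ≤ K0 + r / 2)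
    (hΔ : lcT N b η - Δ ≤ LT N b t (η, φ) - LT N b t 0)
    (hS : √(SS (wTD N b) 0 (wU ρ) (fun v => trX (aU N ρ v) (η, φ))) ≤
      Real.exp K0 * Real.exp (lcT N b η) ^ 2)
    (ha : ∀ j ≤ n, ∀ i ≤ n * n, qf (Anm N b t) (HJ N n l S0 pl μ (wV N ρ) p q g j i) ≤ aa)
    (hε : ∀ i ≤ n * n, (nuM (wT b N) (t • (1 : Matrix (V N) (V N) ℝ)) 0).real
      {F | r < RT N b t ((32 : ℝ) • TP l pl μ p q (th N n l i) (S0 F))} ≤ ε)
    (hosc : (nuM (wT b N) (t • (1 : Matrix (V N) (V N) ℝ)) 0).real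
      {F | ∃ x y, Ω < |S0 F x - S0 F y|} ≤ pΩ)
    {G0 : Set (V N → ℝ)}
    (hG0 : (nuM (wT b N) (t • (1 : Matrix (V N) (V N) ℝ)) 0).real G0ᶜ ≤ p0)
    (hnd : ∀ F ∈ G0, (∀ x y, |S0 F x - S0 F y| ≤ Ω) → ∀ j ≤ n, ∀ i < n * n,
      17 * l < sz (nd N n l i - p) → 17 * l < sz (nd N n l i - q) →
      Nod N b t η φ l (nd N n l i) (YJ N n l pl μ (wV N ρ) p q (KF S0 g F) g j i -
        YJ N n l pl μ (wV N ρ) p q (KF S0 g F) g j (i + 1)) (κ + 4 * Δ + 3 * Ev) e e4 δ Ev)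
    (hR : ∀ F ∈ G0, ∀ j ≤ n, ∀ i ≤ n * n,
      RT N b t ((2 : ℝ) • YJ N n l pl μ (wV N ρ) p q (KF S0 g F) g j i) ≤ δ) :
    ∃ G : Set (V N → ℝ), MeasurableSet G ∧
      (nuM (wT b N) (t • (1 : Matrix (V N) (V N) ℝ)) 0).real Gᶜ ≤
        p0 + 2 * pΩ + ((n + 1) * (n * n + 1) : ℕ) * (48 * √(t * (N : ℝ) ^ 2) * (1 + Ω) * ε +
          2 * Real.exp (K0 + r / 2 + 1 + 128 * aa - 8 * κ)) ∧
      ∀ F ∈ G, |Real.log (Psi (wT b N) (wTD N b η) (t • (1 : Matrix (V N) (V N) ℝ)) φ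
          (S0 (F + g) - g)) -
        Real.log (Psi (wT b N) (wTD N b η) (t • (1 : Matrix (V N) (V N) ℝ)) φ
          (dcs l μ (wV N ρ) p q (S0 (F + g)) + plp pl μ (wV N ρ) p q (S0 (F + g)) - g))| ≤
        ((n : ℝ) + 1) * ((n * n : ℕ) * (e + e4 + 2 * δ)) := by
  have hpr : IsProbabilityMeasure (nuM (wT b N) (t • (1 : Matrix (V N) (V N) ℝ)) 0) :=
    prob_nuM (H963.gw_wT hb.le) (bw_wT hb) (mf_scalar ht) 0
  set ν := nuM (wT b N) (t • (1 : Matrix (V N) (V N) ℝ)) 0 with hν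
  set m : ℕ := (n + 1) * (n * n + 1) with hm
  have hdiv : ∀ k < m, k / (n * n + 1) ≤ n := by
    intro k hk
    have : k / (n * n + 1) < n + 1 := Nat.div_lt_of_lt_mul (by rw [mul_comm]; exact hk)
    omega
  have hmod : ∀ k, k % (n * n + 1) ≤ n * n := by
    intro k
    exact Nat.lt_succ_iff.1 (Nat.mod_lt k (Nat.succ_pos (n * n)))
  have hθε : ∀ k < m, ν.real {F | r < RT N b t ((32 : ℝ) •
      TP l pl μ p q (tht N n l (k / (n * n + 1)) (k % (n * n + 1))) (S0 F))} ≤ ε := by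
    intro k hk
    by_cases h : k / (n * n + 1) = 0
    · have e1 : tht N n l (k / (n * n + 1)) (k % (n * n + 1)) =
          th N n l (k % (n * n + 1)) := by
        funext x
        unfold tht
        rw [if_pos h]
      rw [e1]
      exact hε _ (hmod k)
    · have e1 : tht N n l (k / (n * n + 1)) (k % (n * n + 1)) = th N n l (n * n) := by
        funext x
        unfold tht
        rw [if_neg h, H191.th_last]
      rw [e1]
      exact hε _ le_rfl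
  have key := price_tot (m := m) hb ht htN (ρ := ρ) (l := l) (η := η) (φ := φ) hμ0 hμ p q hp0 hp1
    (θ := fun k => tht N n l (k / (n * n + 1)) (k % (n * n + 1)))
    (fun k x => tht_nonneg _ _ x) (fun k x => tht_le_one _ _ x) hS0 hSt hSc
    (fun k => HJ N n l S0 pl μ (wV N ρ) p q g (k / (n * n + 1)) (k % (n * n + 1)))
    (Ω := Ω) (pΩ := pΩ) κ hε0 hΩ0 hK0 hosc hS (fun k hk => ha _ (hdiv k hk) _ (hmod k)) hθε
  set B1 : Set (V N → ℝ) := {F | ∃ k < m, 2 * lcT N b η + 2 * κ <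
        GT N b t (η, φ) ((4 : ℝ) • (YP l pl μ (wV N ρ) p q
          (tht N n l (k / (n * n + 1)) (k % (n * n + 1))) (S0 F) +
          HJ N n l S0 pl μ (wV N ρ) p q g (k / (n * n + 1)) (k % (n * n + 1)))) +
        GT N b t (η, φ) (-((4 : ℝ) • (YP l pl μ (wV N ρ) p q
          (tht N n l (k / (n * n + 1)) (k % (n * n + 1))) (S0 F) +
          HJ N n l S0 pl μ (wV N ρ) p q g (k / (n * n + 1)) (k % (n * n + 1)))))} with hB1
  set B2 : Set (V N → ℝ) := {F | ∃ x y, Ω < |S0 F x - S0 F y|} with hB2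
  have hB : ν.real (G0ᶜ ∪ B2 ∪ B1) ≤ p0 + 2 * pΩ +
      m * (48 * √(t * (N : ℝ) ^ 2) * (1 + Ω) * ε +
        2 * Real.exp (K0 + r / 2 + 1 + 128 * aa - 8 * κ)) := by
    have h1 := measureReal_union_le (μ := ν) (G0ᶜ ∪ B2) B1
    have h2 := measureReal_union_le (μ := ν) G0ᶜ B2
    linarith
  obtain ⟨G, hGm, hGp, hGo⟩ := hull ν hB
  refine ⟨G, hGm, hGp, fun F hF => ?_⟩
  have hF' := hGo F hF
  rw [Set.mem_union, Set.mem_union, not_or, not_or] at hF'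
  obtain ⟨⟨f1, f2⟩, f3⟩ := hF'
  have f1' : F ∈ G0 := not_not.1 f1
  have f2' : ∀ x y, |S0 F x - S0 F y| ≤ Ω := by
    intro x y
    by_contra hc
    exact f2 ⟨x, y, not_le.1 hc⟩
  have hE : ∀ j ≤ n, ∀ i ≤ n * n,
      GT N b t (η, φ) ((4 : ℝ) • YJ N n l pl μ (wV N ρ) p q (KF S0 g F) g j i) +
      GT N b t (η, φ) (-((4 : ℝ) • YJ N n l pl μ (wV N ρ) p q (KF S0 g F) g j i)) ≤
        2 * lcT N b η + 2 * κ := by
    intro j hj i hi
    by_contra hc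
    refine f3 ⟨j * (n * n + 1) + i, ?_, ?_⟩
    · rw [hm]
      calc j * (n * n + 1) + i < j * (n * n + 1) + (n * n + 1) := by omega
        _ = (j + 1) * (n * n + 1) := by ring
        _ ≤ (n + 1) * (n * n + 1) := Nat.mul_le_mul_right _ (by omega)
    · have e1 : (j * (n * n + 1) + i) / (n * n + 1) = j := by
        rw [mul_comm, Nat.mul_add_div (Nat.succ_pos _), Nat.div_eq_of_lt (by omega), add_zero]
      have e2 : (j * (n * n + 1) + i) % (n * n + 1) = i := by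
        rw [mul_comm, Nat.mul_add_mod, Nat.mod_eq_of_lt (by omega)]
      rw [e1, e2, ← YJ_split hSa]
      exact not_le.1 hc
  have h := cut_two (μ := μ) (K := KF S0 g F) (gs := g) hb ht hN hl h32 hη (wts_wV ρ) hP hpq
    he he4 hδ (fun F => H191.LT_le hb ht η φ F) hΔ (hnd F f1' f2') (hR F f1') hE
  have e0 : (fun y => KF S0 g F y + g y) = S0 (F + g) := by
    funext y
    unfold KF
    rw [Pi.sub_apply]
    ring
  rw [e0] at h
  exact h

end

end Vale.Agent.P159.H446.Pr
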