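import Vale.Agent.P159.H446.Cut5
import Vale.Agent.P159.H859.Gn4

/-!
P159 / S (helper446): the numbers `HaP` of the deterministic fields of the path, at a pair and along
the flow (helper859's `Gn4`, helper816's smooth real fields).
-/

open scoped Matrix ENNReal
open Finset MeasureTheory Filter Topology

set_option linter.unusedSectionVars false

namespace Vale.Agent.P159.H446.Pr

open Vale.Agent.P159.H37 (qf)
open Vale.Agent.P159.H963 (Anm)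
open Vale.Agent.P159.H963.Core (RF)
open Vale.Agent.P159.H191 (RT Wts)
open Vale.Agent.P159.H817 (sz U e1)
open Vale.Agent.P159.TM.Spec (V)
open Vale.Agent.P159.H663.Dr (tT)
open Vale.Agent.P159.H773 (sd nuF)
open Vale.Agent.P159.H145.Sp (lR lC wB gC muK)
open Vale.Agent.P159.H972 (Par Good tn lg FL)
open Vale.Agent.P159.H801 (SFlow)
open Vale.Agent.P159.H859.Idl (s0 SmT Prm s0_pos)
open Vale.Agent.P159.H789 (lvS)
open Vale.Agent.P159.H37.Sf (kf kE1 Win sf_big sf_win sf_FL sf_TT FL_cast tn_pos prm_of)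

noncomputable section

/-- smooth real fields at a torus (helper816's `SmKAt`, word for word) -/
def SmL (N : ℕ) [NeZero N] (b t Λ eR : ℝ) : Prop :=
  ∃ (lc : ℕ) (_ : NeZero (N / lc)) (Y ρ p p' κ : ℝ) (j k' : ℕ),
    SmT N lc b t Y ρ p p' κ j k' ∧ 112896 * κ * Λ ^ 2 ≤ 4 ^ j ∧
    lvS ρ j k' / 2 + 56448 * t * (lc : ℝ) ^ 2 * Λ ^ 2 ≤ eR

/-- **the numbers of the deterministic fields at a pair** -/
theorem haP_of {b t : ℝ} (hb : 0 < b) (ht : 0 < t) {i n k q R K1 : ℕ} (hi : 6 ≤ i) (hk : 32 ≤ k)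
    (hR1 : 2 ^ (n + k) ≤ R) (hR2 : R ≤ 2 ^ K1) (hq : 0 < q) {μ : V (sd i R) → ℝ}
    (hμ0 : ∀ z, 0 ≤ μ z) (hμ1 : ∑ z, μ z = 1) {a η : ℝ} (hFL : FL b t a η (sd i R)) (ha : a ≤ 2)
    (hη : η ≤ 1) {Λ eR : ℝ} (hS : SmL (sd i R) b t Λ eR) (hΛ : 1000000000 * s0 ^ 2 ≤ Λ ^ 2) :
    HaP b t i n k q R μ (gC i n K1 R) (780000000000 * s0 ^ 2) eR := by
  have hl : 0 < lC n k := by unfold H145.Sp.lC; positivity
  have hP : Prm (sd i R) (sd i (2 ^ K1)) (lR n R) R (2 ^ K1) := prm_of hi hk hR1 hR2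
  have hs0 := s0_pos
  have h2n := pow_le_lC n k
  have hlR := lR_le (by omega : 24 ≤ k) hR1
  have hlC := lC_le hR1
  have h4 : 4 * R ≤ sd i R := by
    have h2 : 2 ^ 2 ≤ 2 ^ i := Nat.pow_le_pow_right (by norm_num) (by omega)
    exact (Nat.mul_le_mul_right R h2).trans (H773.sd_ge i R)
  have hwV := wts_wV (N := sd i R) (2 ^ n)
  have hR0 : 0 < R := lt_of_lt_of_le (by positivity) hR1
  have hr : ((lR n R : ℕ) : ℝ) / R ≤ 1 := by
    rw [div_le_one (by exact_mod_cast hR0)]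
    have : lR n R ≤ R := by omega
    exact_mod_cast this
  have hr0 : 0 ≤ ((lR n R : ℕ) : ℝ) / R := by positivity
  have hr2 : s0 ^ 2 * (((lR n R : ℕ) : ℝ) / R) ^ 2 ≤ s0 ^ 2 := by
    have h1 : (((lR n R : ℕ) : ℝ) / R) ^ 2 ≤ 1 := pow_le_one₀ hr0 hr
    have h3 := mul_le_mul_of_nonneg_left h1 (sq_nonneg s0)
    linarith
  have hw : wB (sd i R) (2 ^ n) = wV (sd i R) (2 ^ n) := (wV_eq (by omega)).symm
  have h1 := H859.Gn.ha_H1 (q := q) hP hq (sd_nC hR1) hl hwV hμ0 hμ1 0 (R • e1) hb ht hFL ha hη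
  obtain ⟨lc, hne, Y, ρ, p, p', κ, j0, k', hT, h5, h6⟩ := hS
  have hκ := hT.hκ
  have hz : 4160000000000 * (4 : ℝ) ^ 2 * κ * (s0 ^ 2 * (((lR n R : ℕ) : ℝ) / R) ^ 2) ≤
      4 ^ j0 := by
    refine le_trans ?_ h5
    have h7 := mul_le_mul_of_nonneg_left hr2 (show 0 ≤ 4160000000000 * (4 : ℝ) ^ 2 * κ by
      positivity)
    have h8 := mul_le_mul_of_nonneg_left hΛ (show 0 ≤ 112896 * κ by linarith)
    have h9 : 0 ≤ κ * s0 ^ 2 := by positivity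
    linarith
  have h2 := H859.Gn.rf_H1 (q := q) hP hq (sd_nC hR1) hl hwV hμ0 hμ1 0 (R • e1) hb ht hT
    (z := 4) hz
  intro j hj i' hi'
  unfold H1p gC
  rw [hw]
  refine ⟨(h1 j hj i' hi').trans (by linarith), ?_⟩
  rw [RT_RF hb ht]
  refine (h2 j hj i' hi').trans (le_trans ?_ h6)
  have h7 : 0 ≤ t * (lc : ℝ) ^ 2 := by positivity
  have h8 := mul_le_mul_of_nonneg_left hr2 (show 0 ≤ 2080000000000 * (4 : ℝ) ^ 2 *
    (t * (lc : ℝ) ^ 2) by positivity)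
  have h9 := mul_le_mul_of_nonneg_left hΛ (show 0 ≤ 56448 * (t * (lc : ℝ) ^ 2) by positivity)
  have h10 : 0 ≤ t * (lc : ℝ) ^ 2 * s0 ^ 2 := by positivity
  linarith

section flow

variable {P : Par} {b σ c c1 q2 qx : ℝ} {a y ε xs : ℕ → ℝ} {c' r' q' A : ℝ} {N0 : ℕ}

/-- **the numbers of the deterministic fields along the flow** -/
theorem haP_win (hb : 0 < b) (h : SFlow P b σ c c1 q2 qx a y ε xs c' r' q' A N0) (hA : P.Adm)
    (hσ0 : 0 ≤ σ) (hσ : σ ≤ 1 / 4) {ck : ℝ} (hck : 0 < ck) (hck1 : ck ≤ P.thp)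
    (hck2 : 2 * P.th ≤ ck) (hc1 : 0 < c1) {c3 : ℝ} (h3 : 0 < c3) {i : ℕ} (hi : 6 ≤ i)
    {β C2 A0 : ℝ} {Am : ℕ} (sc : ℕ → ℕ) (κ : ℕ → ℤ × ℤ → ℝ)
    (hμ : ∀ᶠ n in atTop, ∀ R, 2 ^ (n + kf ck y n) ≤ R → R ≤ 2 ^ kE1 P ck y ε n →
        (∀ z, 0 ≤ muK (sd i R) (lC n (kf ck y n)) (κ n) z) ∧
          ∑ z, muK (sd i R) (lC n (kf ck y n)) (κ n) z = 1)
    (hS : ∀ᶠ n in atTop, ∀ R, 2 ^ (n + kf ck y n) ≤ R → R ≤ 2 ^ kE1 P ck y ε n →
      SmL (sd i R) b (tn n) (y n ^ (-c1)) (y n ^ (9 / 8 : ℝ))) :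
    Win P b β C2 A0 Am i ck a y ε fun n R =>
      HaP b (tn n) i n (kf ck y n) (2 ^ (n - sc n)) R (muK (sd i R) (lC n (kf ck y n)) (κ n))
        (gC i n (kE1 P ck y ε n) R) (y n ^ (-c3) / 64) (y n ^ (9 / 8 : ℝ)) := by
  have hs0 := s0_pos
  refine Win.of ?_
  filter_upwards [hμ, hS, sf_FL h hA hσ, sf_TT h hA hσ0 hσ hck hck1 hck2 (by omega : 1 ≤ i),
    sf_win h hσ hck hck1 0, sf_big h (p := c3) (M := 64 * (780000000000 * s0 ^ 2)) h3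
      (by positivity), sf_big h (p := c1) (M := 100000 * s0) hc1 (by positivity)] with n g1 g2
    g3 g4 g5 g6 g7 R hR1 hR2
  obtain ⟨ha2, hη, hFL⟩ := g3
  have hF : FL b (tn n) (a n) (17 * ε n ^ P.pf) (sd i R) :=
    FL_cast (sd_eq i R).symm (hFL _ (g4 R hR1 hR2))
  have hΛ : 1000000000 * s0 ^ 2 ≤ (y n ^ (-c1)) ^ 2 := by
    have h1 := pow_le_pow_left₀ (by positivity) g7 2
    refine le_trans ?_ h1
    have : 0 ≤ s0 ^ 2 := sq_nonneg _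
    nlinarith
  have key := haP_of hb (tn_pos n) (q := 2 ^ (n - sc n)) hi g5.1 hR1 hR2 (by positivity)
    (g1 R hR1 hR2).1 (g1 R hR1 hR2).2 hF ha2 hη (g2 R hR1 hR2) hΛ
  intro j hj i' hi'
  obtain ⟨k1, k2⟩ := key j hj i' hi'
  exact ⟨k1.trans (by linarith), k2⟩

end flow

end

end Vale.Agent.P159.H446.Pr
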