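import Vale.Agent.P159.H446.Cut6
import Vale.Agent.P159.H145.Spc4

/-!
P159 / S (helper446): the field `cut` in the letters of the final instance (helper145's Spc4):
`q = qF c1 y n`, kernel `kapF ck y n`, `c3 = c1 / 2`, `u = 9 / 8`, `c4 ≤ 1 / 16`.
-/

open scoped Matrix ENNReal
open Finset MeasureTheory Filter Topology

set_option linter.unusedSectionVars false

namespace Vale.Agent.P159.H446.Pr

open Vale.Agent.P159.H770 (Ed wTD)
open Vale.Agent.P159.H817 (sz U e1)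
open Vale.Agent.P159.TM.Spec (V)
open Vale.Agent.P159.H773 (sd nuF)
open Vale.Agent.P159.H145.Sp (AxP CutP lR lC wB gC muK kapF qF sF scF scF_le)
open Vale.Agent.P159.H856.Dl (Del)
open Vale.Agent.P159.H972 (Par Good tn lg)
open Vale.Agent.P159.H801 (SFlow itw)
open Vale.Agent.P159.H37.Sf (kf kE1 Win)

noncomputable section

/-- the weights of the mean -/
lemma mu_kapF (ck : ℝ) (y : ℕ → ℝ) {n : ℕ} (hn : 2 ≤ n) (i R : ℕ) :
    (∀ z, 0 ≤ muK (sd i R) (lC n (kf ck y n)) (kapF ck y n) z) ∧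
      ∑ z, muK (sd i R) (lC n (kf ck y n)) (kapF ck y n) z = 1 := by
  have h1 : 4 ≤ lC n (kf ck y n) := by
    unfold H145.Sp.lC
    calc 4 = 2 ^ 2 := by norm_num
      _ ≤ _ := Nat.pow_le_pow_right (by norm_num) (by omega)
  have h2 := H663.Dr.wts_kT (N := sd i R) (h := lC n (kf ck y n) / 4) (ρ := lC n (kf ck y n))
    (by omega) (by omega)
  exact ⟨h2.nn, h2.one⟩

section flow

variable {P : Par} {b σ c c1 q2 qx : ℝ} {a y ε xs : ℕ → ℝ} {c' r' q' A : ℝ} {N0 : ℕ}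

/-- **the field `cut`**, letters of the final instance; inputs: the energy number, smooth real
fields, typical locations, nodes -/
theorem cut_fin (hb : 0 < b) (h : SFlow P b σ c c1 q2 qx a y ε xs c' r' q' A N0) (hA : P.Adm)
    (hσ0 : 0 ≤ σ) (hσ : σ ≤ 1 / 4) (hc1 : 0 < c1) (hc18 : c1 ≤ 1 / 8) {ck : ℝ} (hck : 0 < ck)
    (hck1 : ck ≤ P.thp) (hck2 : 2 * P.th ≤ ck) (hthp : P.thp ≤ 1 / 1000) {c4 : ℝ}
    (h4 : c4 ≤ 1 / 16) {β C2 : ℝ} (hβ : 1 / 4 ≤ β) (hβ2 : β < 1 / 2) (hC2 : 1 ≤ C2) :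
    ∃ i0 : ℕ, ∀ i, i0 ≤ i → ∀ {A0 : ℝ} {Am : ℕ}, 1 ≤ Am →
      ∀ {η : ∀ R, Ed (sd i R) → ℤ} {φ : ∀ R, V (sd i R) → ℝ}, AxP i η φ → ∀ Ev : ℝ,
      (∀ᶠ n in atTop, ∀ R, 2 ^ (n + kf ck y n) ≤ R → R ≤ 2 ^ kE1 P ck y ε n →
        SmL (sd i R) b (tn n) (y n ^ (-c1)) (y n ^ (9 / 8 : ℝ))) →
      Win P b β C2 A0 Am i ck a y ε (fun n R =>
        Del (wTD (sd i R) b) (tn n • (1 : Matrix (V (sd i R)) (V (sd i R)) ℝ)) (tn n) 0 (η R)
          (φ R) ≤ y n ^ (-(c1 / 2 / 2))) →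
      Win P b β C2 A0 Am i ck a y ε (fun n R =>
        TeP b (tn n) i n (kf ck y n) (qF c1 y n) R (muK (sd i R) (lC n (kf ck y n))
          (kapF ck y n)) 32 1 (Real.exp (-(y n ^ (-(3 * (c1 / 2))))))) →
      Win P b β C2 A0 Am i ck a y ε (fun n R =>
        TeP b (tn n) i n (kf ck y n) (qF c1 y n) R (muK (sd i R) (lC n (kf ck y n))
          (kapF ck y n)) 4 (y n ^ (9 / 8 : ℝ)) (Real.exp (-(y n ^ (-(3 * (c1 / 2))))))) →
      Win P b β C2 A0 Am i ck a y ε (fun n R =>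
        NdP b (tn n) i n (kf ck y n) (qF c1 y n) R η φ
          (muK (sd i R) (lC n (kf ck y n)) (kapF ck y n)) (gC i n (kE1 P ck y ε n) R)
          (Om b (sd i R) (qF c1 y n) (6 * y n ^ (-(c1 / 2))))
          (y n ^ (-(c1 / 2)) + 4 * y n ^ (-(c1 / 2 / 2)) + 3 * Ev) (y n ^ (9 / 8 : ℝ))
          (y n ^ (9 / 8 : ℝ)) (y n ^ (9 / 8 : ℝ)) Ev (Real.exp (-(5 * y n ^ (-(c1 / 2)))))) →
      Win P b β C2 A0 Am i ck a y ε fun n R =>
        CutP b i η φ (tn n) n (kf ck y n) (qF c1 y n) R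
          (muK (sd i R) (lC n (kf ck y n)) (kapF ck y n)) (gC i n (kE1 P ck y ε n) R)
          (Real.exp (-(4 * y n ^ (-(c1 / 2))))) (y n ^ (1 + c4) / 16) := by
  obtain ⟨i0, H⟩ := cut_win (c3 := c1 / 2) (c4 := c4) (c5 := 1 / 8) (κ' := 2 / 125) hb h hσ0 hσ
    hck hck1 (by linarith) (by norm_num) (by linarith) (by norm_num) (by linarith) hβ hβ2 hC2
  refine ⟨max i0 6, fun i hi A0 Am hAm η φ hx Ev hS hDel hT1 hT2 hNd => ?_⟩
  have e : (9 / 8 : ℝ) = 1 + 1 / 8 := by norm_num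
  have hμ : ∀ᶠ n in atTop, ∀ R, 2 ^ (n + kf ck y n) ≤ R → R ≤ 2 ^ kE1 P ck y ε n →
      (∀ z, 0 ≤ muK (sd i R) (lC n (kf ck y n)) (kapF ck y n) z) ∧
        ∑ z, muK (sd i R) (lC n (kf ck y n)) (kapF ck y n) z = 1 := by
    filter_upwards [eventually_ge_atTop 2] with n hn R _ _
    exact mu_kapF ck y hn i R
  have hsc : ∀ᶠ n in atTop, scF c1 y n ≤ n ∧ (scF c1 y n : ℝ) ≤ y n ^ (-(2 * (c1 / 2))) + 1 := by
    filter_upwards [scF_le h hσ0 hσ hc1 hc18] with n hn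
    have e2 : 2 * (c1 / 2) = c1 := by ring
    rw [e2]
    exact ⟨hn.1, hn.2.1⟩
  have hHa := haP_win (c3 := c1 / 2) (β := β) (C2 := C2) (A0 := A0) (Am := Am) hb h hA hσ0 hσ hck
    hck1 hck2 hc1 (by linarith) ((le_max_right _ _).trans hi) (scF c1 y) (kapF ck y) hμ hS
  rw [e] at hT2 hNd hHa
  exact H i ((le_max_left _ _).trans hi) hAm hx (scF c1 y) (kapF ck y) Ev hsc hμ hDel hHa hT1 hT2
    hNd

end flow

end

end Vale.Agent.P159.H446.Pr
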