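import Vale.Agent.P159.H764.Evq2
import Vale.Agent.P159.H446.Pr1

/-!
P159 / S (helper446): final price of CUT, part 2: un-averaging with good shifts only.

The smeared cut `∑ p_v σ'_v (T0 (σ_v F))` runs over exponentially many shifts; the condition
`σ_v F ∈ A0` is asked for most of them only.

* `gd`, `bd`, `bm` : the part of the good shifts, of the bad shifts, the mass of the bad shifts;
* `gd_pt`, `gd_lint`, `gd_mk` : `∫ exp (2 ev (s gd F)) ≤ √S e^{r/2} + CX²` and Markov;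
* `bm_mk` : `ν {β < bm} ≤ ν (A0ᶜ) / β`.
-/

open scoped Matrix ENNReal
open Finset MeasureTheory

set_option linter.unusedSectionVars false

namespace Vale.Agent.P159.H446.Pr

open Vale.Agent.P159.TM.H104 (EM)
open Vale.Agent.P159.H37
open Vale.Agent.P159.H770 (GWF Ed wTD wTD_zero gwf_wTD)
open Vale.Agent.P159.H963 (pin ntr nM MF An)
open Vale.Agent.P159.H883
open Vale.Agent.P159.H552.Sm
open Vale.Agent.P159.H764.Evq

noncomputable section

variable {B V : Type} [AddCommGroup B] [Fintype V] [DecidableEq V] [Nonempty V]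
variable {w : B → (V → ℤ) → ℝ} {M : Matrix V V ℝ} {m : ℝ} {x₀ : V}
variable {ι : Type*} [Fintype ι] {σ σ' : ι → (V → ℝ) → V → ℝ}
  {τ : ι → B × (V → ℝ) → B × (V → ℝ)}

open Classical in
/-- the part of the good shifts -/
def gd (p : ι → ℝ) (σ σ' : ι → (V → ℝ) → V → ℝ) (T0 : (V → ℝ) → V → ℝ) (A0 : Set (V → ℝ))
    (F : V → ℝ) : V → ℝ := ∑ v, p v • (if σ v F ∈ A0 then σ' v (T0 (σ v F)) else 0)

open Classical in
/-- the part of the bad shifts -/
def bd (p : ι → ℝ) (σ σ' : ι → (V → ℝ) → V → ℝ) (T0 : (V → ℝ) → V → ℝ) (A0 : Set (V → ℝ))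
    (F : V → ℝ) : V → ℝ := ∑ v, p v • (if σ v F ∈ A0 then 0 else σ' v (T0 (σ v F)))

open Classical in
/-- the mass of the bad shifts -/
def bm (p : ι → ℝ) (σ : ι → (V → ℝ) → V → ℝ) (A0 : Set (V → ℝ)) (F : V → ℝ) : ℝ :=
  ∑ v, (if σ v F ∈ A0 then 0 else p v)

lemma smT_split (p : ι → ℝ) (σ σ' : ι → (V → ℝ) → V → ℝ) (T0 : (V → ℝ) → V → ℝ)
    (A0 : Set (V → ℝ)) (F : V → ℝ) :
    smT p σ σ' T0 F = gd p σ σ' T0 A0 F + bd p σ σ' T0 A0 F := by
  unfold smT gd bd
  rw [← Finset.sum_add_distrib]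
  refine Finset.sum_congr rfl fun v _ => ?_
  split_ifs
  · rw [smul_zero, add_zero]
  · rw [smul_zero, zero_add]

lemma bm_nonneg {p : ι → ℝ} (hp : ∀ v, 0 ≤ p v) (A0 : Set (V → ℝ)) (F : V → ℝ) :
    0 ≤ bm p σ A0 F := by
  unfold bm
  refine Finset.sum_nonneg fun v _ => ?_
  split_ifs
  · exact le_rfl
  · exact hp v

open Classical in
/-- pointwise -/
theorem gd_pt (hw : GWF w) (hM : MF M m) (h : ∀ v, Mv w M m x₀ (σ v) (σ' v) (τ v))
    {p : ι → ℝ} (hp : ∀ v, 0 ≤ p v) (hp1 : ∑ v, p v = 1) (T0 : (V → ℝ) → V → ℝ)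
    (A0 : Set (V → ℝ)) (X : B × (V → ℝ)) (s : ℝ) (F : V → ℝ) :
    Real.exp (2 * EvG w M m x₀ X (s • gd p σ σ' T0 A0 F)) ≤
      (∑ v, p v * (if σ v F ∈ A0 then
        Real.exp (2 * EvG w M m x₀ (τ v X) (s • T0 (σ v F))) else 0)) +
        Real.exp (2 * EvG w M m x₀ X 0) := by
  have h1 := EvG_jensen (x₀ := x₀) hw hM X (c := 2) (by norm_num) hp hp1
    fun v => (if σ v F ∈ A0 then s • σ' v (T0 (σ v F)) else 0)
  have e : ∑ v, p v • (if σ v F ∈ A0 then s • σ' v (T0 (σ v F)) else 0) =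
      s • gd p σ σ' T0 A0 F := by
    unfold gd
    rw [Finset.smul_sum]
    refine Finset.sum_congr rfl fun v _ => ?_
    split_ifs
    · exact smul_comm _ _ _
    · rw [smul_zero, smul_zero]
  rw [e] at h1
  refine h1.trans ?_
  have h2 : Real.exp (2 * EvG w M m x₀ X 0) =
      ∑ v, p v * Real.exp (2 * EvG w M m x₀ X 0) := by
    rw [← Finset.sum_mul, hp1, one_mul]
  rw [h2, ← Finset.sum_add_distrib]
  refine Finset.sum_le_sum fun v _ => ?_
  rw [← mul_add]
  refine mul_le_mul_of_nonneg_left ?_ (hp v)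
  split_ifs
  · rw [(h v).ev]
    have := Real.exp_pos (2 * EvG w M m x₀ X 0)
    linarith
  · rw [zero_add]

lemma ev0_le (hw : GWF w) (hE : ∀ b x₀, EM (pin (w b) x₀)) (hM : MF M m)
    (X : B × (V → ℝ)) : Real.exp (2 * EvG w M m x₀ X 0) ≤ CX w x₀ X ^ 2 := by
  have h1 := Gx_le (x₀ := x₀) hw hE hM X 0
  have q0 : qf (An (w 0) M m x₀) (0 : V → ℝ) = 0 := qf_zero_vec _
  rw [q0] at h1
  have cp := CX_pos hw hE x₀ X
  rw [EvG_zero, two_mul, Real.exp_add, pow_two]
  have h2 : Real.exp (Gx w M m x₀ X 0) ≤ CX w x₀ X := by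
    calc _ ≤ Real.exp (Real.log (CX w x₀ X)) := Real.exp_le_exp.2 (by linarith)
      _ = _ := Real.exp_log cp
  exact mul_le_mul h2 h2 (Real.exp_pos _).le cp.le

open Classical in
/-- **the integral of the good part** -/
theorem gd_lint (hw : GWF w) (hE : ∀ b x₀, EM (pin (w b) x₀)) (hM : MF M m)
    (h : ∀ v, Mv w M m x₀ (σ v) (σ' v) (τ v)) {p : ι → ℝ} (hp : ∀ v, 0 ≤ p v)
    (hp1 : ∑ v, p v = 1) {T0 : (V → ℝ) → V → ℝ} (hT : Measurable T0) (hTc : CI T0)
    (X : B × (V → ℝ)) (s r : ℝ) {S : ℝ} (hS : SS w x₀ p (fun v => τ v X) ≤ S) :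
    ∫⁻ F, ENNReal.ofReal (Real.exp (2 * EvG w M m x₀ X
        (s • gd p σ σ' T0 (AT w M m x₀ T0 s r) F))) ∂(nuM (w 0) M x₀) ≤
      ENNReal.ofReal (Real.sqrt S * Real.exp (r / 2) + CX w x₀ X ^ 2) := by
  have hpr := prob0 hw hE hM x₀
  set A0 := AT w M m x₀ T0 s r with hA0d
  have hA0 : MeasurableSet A0 := meas_AT hw hE hM hT s r
  have hAc : CI fun F => F ∈ A0 := ci_AT (w := w) (M := M) (m := m) (x₀ := x₀) hTc s r
  set g : ι → (V → ℝ) → ℝ := fun v F =>
    p v * (if F ∈ A0 then Real.exp (2 * EvG w M m x₀ (τ v X) (s • T0 F)) else 0) with hg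
  have hg0 : ∀ v F, 0 ≤ g v F := fun v F => by
    refine mul_nonneg (hp v) ?_
    split_ifs
    · exact (Real.exp_pos _).le
    · exact le_rfl
  have hgm : ∀ v, Measurable (g v) := by
    intro v
    have h1 : Continuous fun Y : V → ℝ =>
        Real.exp (2 * EvG w M m x₀ (τ v X) (s • Y)) :=
      Real.continuous_exp.comp (continuous_const.mul
        ((cont_EvG hw hE hM _).comp (by fun_prop)))
    exact (Measurable.ite hA0 (h1.measurable.comp hT) measurable_const).const_mul _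
  have hgc : ∀ v, CI (g v) := by
    intro v F c
    have h2 : ((fun x => F x + c) ∈ A0) = (F ∈ A0) := hAc F c
    have h3 := hTc F c
    simp only [hg]
    rw [h3]
    simp only [h2]
  have h1 : ∫⁻ F, ENNReal.ofReal (Real.exp (2 * EvG w M m x₀ X (s • gd p σ σ' T0 A0 F)))
        ∂(nuM (w 0) M x₀) ≤
      ∫⁻ F, ((∑ v, ENNReal.ofReal (g v (σ v F))) + ENNReal.ofReal (CX w x₀ X ^ 2))
        ∂(nuM (w 0) M x₀) := by
    refine lintegral_mono fun F => ?_
    have h2 := gd_pt hw hM h hp hp1 T0 A0 X s F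
    rw [← ENNReal.ofReal_sum_of_nonneg fun v _ => hg0 v _,
      ← ENNReal.ofReal_add (Finset.sum_nonneg fun v _ => hg0 v _) (sq_nonneg _)]
    refine ENNReal.ofReal_le_ofReal (h2.trans ?_)
    have h3 := ev0_le hw hE hM X (x₀ := x₀)
    simp only [hg]
    linarith
  refine h1.trans ?_
  have hms : ∀ v, Measurable fun F : V → ℝ => ENNReal.ofReal (g v (σ v F)) :=
    fun v => ((hgm v).comp (h v).ms).ennreal_ofReal
  rw [lintegral_add_right _ measurable_const, lintegral_finsetSum _ fun v _ => hms v,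
    lintegral_const, measure_univ, mul_one]
  have h4 : ∀ v, ∫⁻ F, ENNReal.ofReal (g v (σ v F)) ∂(nuM (w 0) M x₀) =
      ∫⁻ F, ENNReal.ofReal (g v F) ∂(nuM (w 0) M x₀) := fun v =>
    (h v).law (fun F => ENNReal.ofReal (g v F)) (fun F c => by
      have := hgc v F c
      simp only [this]) (hgm v).ennreal_ofReal
  simp only [h4]
  rw [← lintegral_finsetSum _ fun v _ => (hgm v).ennreal_ofReal,
    ENNReal.ofReal_add (by positivity) (sq_nonneg _)]
  refine add_le_add_left ?_ _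
  calc ∫⁻ F, ∑ v, ENNReal.ofReal (g v F) ∂(nuM (w 0) M x₀)
      ≤ ∫⁻ _, ENNReal.ofReal (Real.sqrt S * Real.exp (r / 2)) ∂(nuM (w 0) M x₀) := by
        refine lintegral_mono fun F => ?_
        rw [← ENNReal.ofReal_sum_of_nonneg fun v _ => hg0 v _]
        refine ENNReal.ofReal_le_ofReal ?_
        by_cases hF : F ∈ A0
        · have h2 := sm_pt' hw hE hM x₀ hp (fun v => τ v X) (s • T0 F)
          have h3 : Rw w M m x₀ ((2 : ℝ) • s • T0 F) ≤ r := by
            rw [smul_smul]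
            exact hF
          have e1 : ∀ v, g v F = p v * Real.exp (Gx w M m x₀ (τ v X) (s • T0 F) +
              Gx w M m x₀ (τ v X) (-(s • T0 F))) := by
            intro v
            simp only [hg, if_pos hF]
            congr 2
            unfold EvG
            ring
          simp only [e1]
          refine h2.trans ?_
          exact mul_le_mul (Real.sqrt_le_sqrt hS) (Real.exp_le_exp.2 (by linarith))
            (Real.exp_pos _).le (Real.sqrt_nonneg _)
        · have e1 : ∀ v, g v F = 0 := by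
            intro v
            simp only [hg, if_neg hF, mul_zero]
          simp only [e1, Finset.sum_const_zero]
          positivity
    _ = ENNReal.ofReal (Real.sqrt S * Real.exp (r / 2)) := by
        rw [lintegral_const, measure_univ, mul_one]

open Classical in
lemma gd_meas (h : ∀ v, Mv w M m x₀ (σ v) (σ' v) (τ v)) (p : ι → ℝ)
    {T0 : (V → ℝ) → V → ℝ} (hT : Measurable T0) {A0 : Set (V → ℝ)} (hA0 : MeasurableSet A0) :
    Measurable (gd p σ σ' T0 A0) := by
  unfold gd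
  refine Finset.measurable_sum _ fun v _ => ?_
  refine Measurable.const_smul ?_ (p v)
  exact Measurable.ite ((h v).ms hA0) ((h v).ms'.comp (hT.comp (h v).ms)) measurable_const

/-- Markov for an exponential -/
lemma mk_exp {Ω : Type*} [MeasurableSpace Ω] (ν : Measure Ω) {Φ : Ω → ℝ} (hΦ : Measurable Φ)
    {I K : ℝ} (hI : ∫⁻ x, ENNReal.ofReal (Real.exp (Φ x)) ∂ν ≤ ENNReal.ofReal I) :
    ν {x | K < Φ x} ≤ ENNReal.ofReal (I * Real.exp (-K)) := by
  have h3 := mul_meas_ge_le_lintegral (μ := ν)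
    (f := fun x => ENNReal.ofReal (Real.exp (Φ x)))
    (Real.continuous_exp.measurable.comp hΦ).ennreal_ofReal (ENNReal.ofReal (Real.exp K))
  have hK : ENNReal.ofReal (Real.exp K) ≠ 0 := by
    rw [Ne, ENNReal.ofReal_eq_zero, not_le]
    exact Real.exp_pos _
  have h4 : ν {x | K < Φ x} ≤ ENNReal.ofReal I / ENNReal.ofReal (Real.exp K) := by
    rw [ENNReal.le_div_iff_mul_le (Or.inl hK) (Or.inl ENNReal.ofReal_ne_top), mul_comm]
    refine le_trans (mul_le_mul_of_nonneg_left (measure_mono fun x hx => ?_) zero_le)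
      (h3.trans hI)
    exact ENNReal.ofReal_le_ofReal (Real.exp_le_exp.2 (le_of_lt hx))
  refine h4.trans (le_of_eq ?_)
  rw [← ENNReal.ofReal_div_of_pos (Real.exp_pos K), Real.exp_neg, div_eq_mul_inv]

/-- **Markov for the good part** -/
theorem gd_mk (hw : GWF w) (hE : ∀ b x₀, EM (pin (w b) x₀)) (hM : MF M m)
    (h : ∀ v, Mv w M m x₀ (σ v) (σ' v) (τ v)) {p : ι → ℝ} (hp : ∀ v, 0 ≤ p v)
    (hp1 : ∑ v, p v = 1) {T0 : (V → ℝ) → V → ℝ} (hT : Measurable T0) (hTc : CI T0)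
    (X : B × (V → ℝ)) (s r K : ℝ) {S : ℝ} (hS : SS w x₀ p (fun v => τ v X) ≤ S) :
    nuM (w 0) M x₀ {F | K < 2 * EvG w M m x₀ X
        (s • gd p σ σ' T0 (AT w M m x₀ T0 s r) F)} ≤
      ENNReal.ofReal ((Real.sqrt S * Real.exp (r / 2) + CX w x₀ X ^ 2) * Real.exp (-K)) := by
  refine mk_exp _ ?_ (gd_lint hw hE hM h hp hp1 hT hTc X s r hS)
  have h1 : Continuous fun Y : V → ℝ => 2 * EvG w M m x₀ X (s • Y) :=
    continuous_const.mul ((cont_EvG hw hE hM _).comp (by fun_prop))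
  exact h1.measurable.comp (gd_meas h p hT (meas_AT hw hE hM hT s r))

open Classical in
/-- **the mass of the bad shifts** -/
theorem bm_mk (h : ∀ v, Mv w M m x₀ (σ v) (σ' v) (τ v))
    {p : ι → ℝ} (hp : ∀ v, 0 ≤ p v) (hp1 : ∑ v, p v = 1) {A0 : Set (V → ℝ)}
    (hA0 : MeasurableSet A0) (hAc : CI fun F => F ∈ A0) {β : ℝ} (hβ : 0 < β) :
    nuM (w 0) M x₀ {F | β < bm p σ A0 F} ≤ nuM (w 0) M x₀ A0ᶜ / ENNReal.ofReal β := by
  have hm : ∀ v, Measurable fun F : V → ℝ =>
      ENNReal.ofReal (if σ v F ∈ A0 then 0 else p v) := fun v =>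
    (Measurable.ite ((h v).ms hA0) measurable_const measurable_const).ennreal_ofReal
  have h1 : ∫⁻ F, ENNReal.ofReal (bm p σ A0 F) ∂(nuM (w 0) M x₀) =
      nuM (w 0) M x₀ A0ᶜ := by
    have e1 : ∀ F, ENNReal.ofReal (bm p σ A0 F) =
        ∑ v, ENNReal.ofReal (if σ v F ∈ A0 then 0 else p v) := fun F => by
      unfold bm
      refine ENNReal.ofReal_sum_of_nonneg fun v _ => ?_
      split_ifs
      · exact le_rfl
      · exact hp v
    simp only [e1]
    rw [lintegral_finsetSum _ fun v _ => hm v]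
    have e2 : ∀ v, ∫⁻ F, ENNReal.ofReal (if σ v F ∈ A0 then 0 else p v)
        ∂(nuM (w 0) M x₀) = ENNReal.ofReal (p v) * nuM (w 0) M x₀ A0ᶜ := by
      intro v
      have h2 := (h v).law (fun F => ENNReal.ofReal (if F ∈ A0 then 0 else p v))
        (fun F c => by
          have h3 : ((fun x => F x + c) ∈ A0) = (F ∈ A0) := hAc F c
          simp only [h3])
        (Measurable.ite hA0 measurable_const measurable_const).ennreal_ofReal
      rw [h2]
      have e3 : (fun F : V → ℝ => ENNReal.ofReal (if F ∈ A0 then 0 else p v)) =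
          A0ᶜ.indicator fun _ => ENNReal.ofReal (p v) := by
        funext F
        by_cases hF : F ∈ A0
        · rw [if_pos hF, Set.indicator_of_notMem (fun h' : F ∈ A0ᶜ => h' hF), ENNReal.ofReal_zero]
        · rw [if_neg hF, Set.indicator_of_mem (show F ∈ A0ᶜ from hF)]
      rw [e3, lintegral_indicator_const hA0.compl]
    simp only [e2]
    rw [← Finset.sum_mul, ← ENNReal.ofReal_sum_of_nonneg fun v _ => hp v, hp1,
      ENNReal.ofReal_one, one_mul]
  have hmb : Measurable fun F : V → ℝ => ENNReal.ofReal (bm p σ A0 F) := by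
    refine Measurable.ennreal_ofReal ?_
    unfold bm
    exact Finset.measurable_sum _ fun v _ =>
      Measurable.ite ((h v).ms hA0) measurable_const measurable_const
  have h3 := mul_meas_ge_le_lintegral (μ := nuM (w 0) M x₀) hmb (ENNReal.ofReal β)
  rw [h1] at h3
  have hβ0 : ENNReal.ofReal β ≠ 0 := by
    rw [Ne, ENNReal.ofReal_eq_zero, not_le]
    exact hβ
  rw [ENNReal.le_div_iff_mul_le (Or.inl hβ0) (Or.inl ENNReal.ofReal_ne_top), mul_comm]
  refine le_trans (mul_le_mul_of_nonneg_left (measure_mono fun F hF => ?_) zero_le) h3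
  exact ENNReal.ofReal_le_ofReal (le_of_lt hF)

end

end Vale.Agent.P159.H446.Pr
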