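import Vale.Agent.P159.H446.Pr2
import Vale.Agent.P159.H253.Sm8

/-!
P159 / S (helper446): final price of CUT, part 3: the torus.

* `bd_le` : the bare energy of the part of the bad shifts,
* `price_one` : probability that the symmetric sum at amplitude `4` of `T F + h` is large, one map,
  `T F = smTt p a T0 F` the smeared cut,
* `price_fam` : finitely many maps and the uniform average over a box (`SS_le` of helper253).
-/

open scoped Matrix ENNReal
open Finset MeasureTheory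

set_option linter.unusedSectionVars false

namespace Vale.Agent.P159.H446.Pr

open Vale.Agent.P159.TM.H104 (EM)
open Vale.Agent.P159.H37
open Vale.Agent.P159.H770 (GWF Ed wTD wTD_zero gwf_wTD)
open Vale.Agent.P159.H963 (pin ntr nM MF An Anm Ank)
open Vale.Agent.P159.H883
open Vale.Agent.P159.H552.Sm
open Vale.Agent.P159.H764.Evq
open Vale.Agent.P159.TM.SpecC (wT)
open Vale.Agent.P159.TM.Spec (V)

noncomputable section

variable {N : ℕ} [NeZero N] {b t : ℝ} {ι : Type*} [Fintype ι]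

/-- `A ≤ t` -/
lemma An_le_mass (hb : 0 < b) (ht : 0 < t) (F : V N → ℝ) :
    qf (Anm N b t) F ≤ t * ∑ x, F x ^ 2 := by
  have h1 : t * ∑ x, F x ^ 2 = qf (t • (1 : Matrix (V N) (V N) ℝ)) F := by
    rw [H864.qf_smul_mat, H37.qf_eq, Matrix.one_mulVec]
    unfold dotProduct
    congr 1
    exact Finset.sum_congr rfl fun x _ => by ring
  rw [h1]
  refine (H864.qf_le_iff (H963.ti_Anm hb.le ht) (H864.TI.one.smul t)).2 (fun k => ?_) F
  rw [H963.sym_Anm, H864.sym_smul, H864.sym_one, mul_one]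
  unfold Ank
  split_ifs with hk
  · exact ht.le
  · have := H963.Gnh_nonneg (N := N) hb.le ht k
    nlinarith [mul_nonneg (sq_nonneg t) this]

open Classical in
/-- **the bare energy of the bad part** -/
theorem bd_le (ht : 0 < t) (a : ι → V N) {p : ι → ℝ} (hp : ∀ v, 0 ≤ p v)
    (T0 : (V N → ℝ) → V N → ℝ) (A0 : Set (V N → ℝ)) (F : V N → ℝ) {O β : ℝ}
    (hO : ∀ v, t * ∑ x, (T0 (trS (a v) F) x) ^ 2 ≤ O)
    (hO0 : 0 ≤ O) (hb : bm p (fun v => trS (a v)) A0 F ≤ β) :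
    t * ∑ x, (bd p (fun v => trS (a v)) (fun v => trS (-a v)) T0 A0 F x) ^ 2 ≤ β ^ 2 * O := by
  set q : ι → ℝ := fun v => if trS (a v) F ∈ A0 then 0 else p v with hq
  have hq0 : ∀ v, 0 ≤ q v := fun v => by
    simp only [hq]
    split_ifs
    · exact le_rfl
    · exact hp v
  set Y : ι → V N → ℝ := fun v => trS (-a v) (T0 (trS (a v) F)) with hY
  have hbm : bm p (fun v => trS (a v)) A0 F = ∑ v, q v := rfl
  have hQ0 : 0 ≤ ∑ v, q v := Finset.sum_nonneg fun v _ => hq0 v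
  have hbd : ∀ x, bd p (fun v => trS (a v)) (fun v => trS (-a v)) T0 A0 F x =
      ∑ v, q v * Y v x := by
    intro x
    unfold bd
    rw [Finset.sum_apply]
    refine Finset.sum_congr rfl fun v _ => ?_
    simp only [hq, hY]
    split_ifs
    · simp
    · simp
  have hcs : ∀ x, (∑ v, q v * Y v x) ^ 2 ≤ (∑ v, q v) * ∑ v, q v * (Y v x) ^ 2 := by
    intro x
    have h1 := Finset.sum_mul_sq_le_sq_mul_sq Finset.univ (fun v => Real.sqrt (q v))
      (fun v => Real.sqrt (q v) * Y v x)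
    have e1 : ∀ v, Real.sqrt (q v) * (Real.sqrt (q v) * Y v x) = q v * Y v x := fun v => by
      rw [← mul_assoc, Real.mul_self_sqrt (hq0 v)]
    have e2 : ∀ v, Real.sqrt (q v) ^ 2 = q v := fun v => Real.sq_sqrt (hq0 v)
    have e3 : ∀ v, (Real.sqrt (q v) * Y v x) ^ 2 = q v * (Y v x) ^ 2 := fun v => by
      rw [mul_pow, Real.sq_sqrt (hq0 v)]
    simp only [e1, e2, e3] at h1
    exact h1
  have hsh : ∀ v, ∑ x, (Y v x) ^ 2 = ∑ x, (T0 (trS (a v) F) x) ^ 2 := by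
    intro v
    have := Equiv.sum_comp (Equiv.addRight (-a v)) fun x => (T0 (trS (a v) F) x) ^ 2
    exact this
  have h2 : ∑ x, (bd p (fun v => trS (a v)) (fun v => trS (-a v)) T0 A0 F x) ^ 2 ≤
      (∑ v, q v) * ∑ v, q v * ∑ x, (T0 (trS (a v) F) x) ^ 2 := by
    calc _ = ∑ x, (∑ v, q v * Y v x) ^ 2 := Finset.sum_congr rfl fun x _ => by rw [hbd]
      _ ≤ ∑ x, (∑ v, q v) * ∑ v, q v * (Y v x) ^ 2 := Finset.sum_le_sum fun x _ => hcs x
      _ = (∑ v, q v) * ∑ v, q v * ∑ x, (Y v x) ^ 2 := by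
          rw [← Finset.mul_sum, Finset.sum_comm]
          congr 1
          exact Finset.sum_congr rfl fun v _ => by rw [Finset.mul_sum]
      _ = _ := by simp only [hsh]
  calc _ ≤ t * ((∑ v, q v) * ∑ v, q v * ∑ x, (T0 (trS (a v) F) x) ^ 2) :=
        mul_le_mul_of_nonneg_left h2 ht.le
    _ = (∑ v, q v) * ∑ v, q v * (t * ∑ x, (T0 (trS (a v) F) x) ^ 2) := by
        rw [← mul_assoc, mul_comm t, mul_assoc, Finset.mul_sum]
        congr 1
        exact Finset.sum_congr rfl fun v _ => by ring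
    _ ≤ (∑ v, q v) * ∑ v, q v * O :=
        mul_le_mul_of_nonneg_left (Finset.sum_le_sum fun v _ =>
          mul_le_mul_of_nonneg_left (hO v) (hq0 v)) hQ0
    _ = (∑ v, q v) ^ 2 * O := by
        rw [← Finset.sum_mul]
        ring
    _ ≤ β ^ 2 * O := mul_le_mul_of_nonneg_right (pow_le_pow_left₀ hQ0 (hbm ▸ hb) 2) hO0

/-- **one map** -/
theorem price_one (hb : 0 < b) (ht : 0 < t) (a : ι → V N) {p : ι → ℝ} (hp : ∀ v, 0 ≤ p v)
    (hp1 : ∑ v, p v = 1) {T0 : (V N → ℝ) → V N → ℝ} (hT : Measurable T0) (hTc : CI T0)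
    (X : (Ed N → ℤ) × (V N → ℝ)) (h : V N → ℝ) {S r β O aa ε : ℝ} (κ : ℝ) (hβ : 0 < β)
    (hO : 0 ≤ O) (hS : SS (wTD N b) 0 p (fun v => trX (a v) X) ≤ S)
    (ha : qf (Anm N b t) h ≤ aa) (hε0 : 0 ≤ ε)
    (hε : nuM (wT b N) (t • (1 : Matrix (V N) (V N) ℝ)) 0
      {F | r < Rw (wTD N b) (t • (1 : Matrix (V N) (V N) ℝ)) t 0 ((32 : ℝ) • T0 F)} ≤
        ENNReal.ofReal ε) :
    nuM (wT b N) (t • (1 : Matrix (V N) (V N) ℝ)) 0
      {F | (∀ v, t * ∑ x, (T0 (trS (a v) F) x) ^ 2 ≤ O) ∧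
        2 * Real.log (CX (wTD N b) 0 X) + 2 * κ <
          Gx (wTD N b) (t • (1 : Matrix (V N) (V N) ℝ)) t 0 X
            ((4 : ℝ) • (smTt p a T0 F + h)) +
          Gx (wTD N b) (t • (1 : Matrix (V N) (V N) ℝ)) t 0 X
            (-((4 : ℝ) • (smTt p a T0 F + h)))} ≤
      ENNReal.ofReal (ε / β + (Real.sqrt S * Real.exp (r / 2) + CX (wTD N b) 0 X ^ 2) *
        Real.exp (-(2 * Real.log (CX (wTD N b) 0 X) + 8 * κ - 256 * (β ^ 2 * O) -
          128 * aa))) := by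
  have hw := gwf_wTD (N := N) hb
  have hE : ∀ (η : Ed N → ℤ) x₀, EM (pin (wTD N b η) x₀) := fun η x₀ => em_pin_wTD hb η x₀
  have hM := mf_scalar (N := N) ht
  set MM := t • (1 : Matrix (V N) (V N) ℝ) with hMM
  set A0 := AT (wTD N b) MM t (0 : V N) T0 16 r with hA0
  have hA0m : MeasurableSet A0 := meas_AT hw hE hM hT 16 r
  have hA0c : CI fun F => F ∈ A0 :=
    ci_AT (w := wTD N b) (M := MM) (m := t) (x₀ := (0 : V N)) hTc 16 r
  have hmv : ∀ v, Mv (wTD N b) MM t 0 (trS (a v)) (trS (-a v)) (trX (a v)) :=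
    fun v => mv_tor hb ht (a v)
  set K := 2 * Real.log (CX (wTD N b) 0 X) + 8 * κ - 256 * (β ^ 2 * O) - 128 * aa with hK
  have h1 := bm_mk hmv hp hp1 hA0m hA0c hβ
  have h2 := gd_mk hw hE hM hmv hp hp1 hT hTc X 16 r K hS
  rw [wTD_zero] at h1 h2
  have hAc : nuM (wT b N) MM 0 A0ᶜ ≤ ENNReal.ofReal ε := by
    refine le_trans (measure_mono fun F hF => ?_) hε
    show r < Rw (wTD N b) MM t 0 ((32 : ℝ) • T0 F)
    have h3 : ¬ Rw (wTD N b) MM t 0 (((2 : ℝ) * 16) • T0 F) ≤ r := hF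
    have e : ((2 : ℝ) * 16) = 32 := by norm_num
    rw [e] at h3
    exact not_le.1 h3
  have hsub : {F | (∀ v, t * ∑ x, (T0 (trS (a v) F) x) ^ 2 ≤ O) ∧
        2 * Real.log (CX (wTD N b) 0 X) + 2 * κ <
          Gx (wTD N b) MM t 0 X ((4 : ℝ) • (smTt p a T0 F + h)) +
          Gx (wTD N b) MM t 0 X (-((4 : ℝ) • (smTt p a T0 F + h)))} ⊆
      {F | β < bm p (fun v => trS (a v)) A0 F} ∪
      {F | K < 2 * EvG (wTD N b) MM t 0 X
        ((16 : ℝ) • gd p (fun v => trS (a v)) (fun v => trS (-a v)) T0 A0 F)} := by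
    rintro F ⟨hF1, hF2⟩
    by_cases hbm : β < bm p (fun v => trS (a v)) A0 F
    · exact Or.inl hbm
    refine Or.inr ?_
    push Not at hbm
    set Y1 := gd p (fun v => trS (a v)) (fun v => trS (-a v)) T0 A0 F with hY1
    set Yb := bd p (fun v => trS (a v)) (fun v => trS (-a v)) T0 A0 F with hYb
    have hsp : smTt p a T0 F = Y1 + Yb :=
      smT_split p (fun v => trS (a v)) (fun v => trS (-a v)) T0 A0 F
    have hqb : qf (An (wTD N b 0) MM t 0) Yb ≤ β ^ 2 * O := by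
      rw [wTD_zero, H963.qf_An_torus b ht]
      exact (An_le_mass hb ht Yb).trans (bd_le ht a hp T0 A0 F hF1 hO hbm)
    have hqh : qf (An (wTD N b 0) MM t 0) h ≤ aa := by
      rw [wTD_zero, H963.qf_An_torus b ht]
      exact ha
    have s1 := ev_split (x₀ := (0 : V N)) hw hE hM X (Y1 + Yb) h hqh
    rw [← hsp] at s1
    have c1 := Gx_conv (x₀ := (0 : V N)) hw hM X ((16 : ℝ) • Y1) ((16 : ℝ) • Yb) (a := 1 / 2)
      (b := 1 / 2) (by norm_num) (by norm_num) (by norm_num)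
    have c2 := Gx_conv (x₀ := (0 : V N)) hw hM X (-((16 : ℝ) • Y1)) (-((16 : ℝ) • Yb))
      (a := 1 / 2) (b := 1 / 2) (by norm_num) (by norm_num) (by norm_num)
    have e1 : (1 / 2 : ℝ) • ((16 : ℝ) • Y1) + (1 / 2 : ℝ) • ((16 : ℝ) • Yb) =
        (8 : ℝ) • (Y1 + Yb) := by module
    have e2 : (1 / 2 : ℝ) • (-((16 : ℝ) • Y1)) + (1 / 2 : ℝ) • (-((16 : ℝ) • Yb)) =
        -((8 : ℝ) • (Y1 + Yb)) := by module
    rw [e1, ← hsp] at c1
    rw [e2, ← hsp] at c2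
    have u1 := Gx_le (x₀ := (0 : V N)) hw hE hM X ((16 : ℝ) • Yb)
    have u2 := Gx_le (x₀ := (0 : V N)) hw hE hM X (-((16 : ℝ) • Yb))
    have q1 : qf (An (wTD N b 0) MM t 0) ((16 : ℝ) • Yb) =
        256 * qf (An (wTD N b 0) MM t 0) Yb := by
      rw [qf_smul]
      norm_num
    rw [qf_neg, q1] at u2
    rw [q1] at u1
    show K < 2 * EvG (wTD N b) MM t 0 X ((16 : ℝ) • Y1)
    unfold EvG
    linarith
  refine (measure_mono hsub).trans ((measure_union_le _ _).trans ?_)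
  have hCX : 0 ≤ CX (wTD N b) 0 X ^ 2 := sq_nonneg _
  rw [ENNReal.ofReal_add (div_nonneg hε0 hβ.le) (by positivity)]
  refine add_le_add ?_ h2
  refine h1.trans ?_
  rw [ENNReal.ofReal_div_of_pos hβ]
  exact ENNReal.div_le_div_right hAc _

/-- **finitely many maps** -/
theorem price_all (hb : 0 < b) (ht : 0 < t) (a : ι → V N) {p : ι → ℝ} (hp : ∀ v, 0 ≤ p v)
    (hp1 : ∑ v, p v = 1) {n : ℕ} {T0 : ℕ → (V N → ℝ) → V N → ℝ}
    (hT : ∀ i < n, Measurable (T0 i)) (hTc : ∀ i < n, CI (T0 i))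
    (X : (Ed N → ℤ) × (V N → ℝ)) (h : ℕ → V N → ℝ) {S r β O aa ε : ℝ} (κ : ℝ) (hβ : 0 < β)
    (hO : 0 ≤ O) (hS : SS (wTD N b) 0 p (fun v => trX (a v) X) ≤ S)
    (ha : ∀ i < n, qf (Anm N b t) (h i) ≤ aa) (hε0 : 0 ≤ ε)
    (hε : ∀ i < n, nuM (wT b N) (t • (1 : Matrix (V N) (V N) ℝ)) 0
      {F | r < Rw (wTD N b) (t • (1 : Matrix (V N) (V N) ℝ)) t 0 ((32 : ℝ) • T0 i F)} ≤
        ENNReal.ofReal ε) :
    (nuM (wT b N) (t • (1 : Matrix (V N) (V N) ℝ)) 0).real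
      {F | (∀ i < n, ∀ v, t * ∑ x, (T0 i (trS (a v) F) x) ^ 2 ≤ O) ∧
        ∃ i < n, 2 * Real.log (CX (wTD N b) 0 X) + 2 * κ <
          Gx (wTD N b) (t • (1 : Matrix (V N) (V N) ℝ)) t 0 X
            ((4 : ℝ) • (smTt p a (T0 i) F + h i)) +
          Gx (wTD N b) (t • (1 : Matrix (V N) (V N) ℝ)) t 0 X
            (-((4 : ℝ) • (smTt p a (T0 i) F + h i)))} ≤
      n * (ε / β + (Real.sqrt S * Real.exp (r / 2) + CX (wTD N b) 0 X ^ 2) *
        Real.exp (-(2 * Real.log (CX (wTD N b) 0 X) + 8 * κ - 256 * (β ^ 2 * O) -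
          128 * aa))) := by
  set E : ℝ := ε / β + (Real.sqrt S * Real.exp (r / 2) + CX (wTD N b) 0 X ^ 2) *
        Real.exp (-(2 * Real.log (CX (wTD N b) 0 X) + 8 * κ - 256 * (β ^ 2 * O) -
          128 * aa)) with hE
  have hE0 : 0 ≤ E := by
    have := sq_nonneg (CX (wTD N b) 0 X)
    positivity
  set ν := nuM (wT b N) (t • (1 : Matrix (V N) (V N) ℝ)) 0 with hν
  set Bs : ℕ → Set (V N → ℝ) := fun i =>
    {F | (∀ v, t * ∑ x, (T0 i (trS (a v) F) x) ^ 2 ≤ O) ∧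
        2 * Real.log (CX (wTD N b) 0 X) + 2 * κ <
          Gx (wTD N b) (t • (1 : Matrix (V N) (V N) ℝ)) t 0 X
            ((4 : ℝ) • (smTt p a (T0 i) F + h i)) +
          Gx (wTD N b) (t • (1 : Matrix (V N) (V N) ℝ)) t 0 X
            (-((4 : ℝ) • (smTt p a (T0 i) F + h i)))} with hBs
  have hi : ∀ i ∈ Finset.range n, ν (Bs i) ≤ ENNReal.ofReal E := fun i hi => by
    have hi' := Finset.mem_range.1 hi
    exact price_one hb ht a hp hp1 (hT i hi') (hTc i hi') X (h i) κ hβ hO hS (ha i hi') hε0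
      (hε i hi')
  have hsub : {F | (∀ i < n, ∀ v, t * ∑ x, (T0 i (trS (a v) F) x) ^ 2 ≤ O) ∧
        ∃ i < n, 2 * Real.log (CX (wTD N b) 0 X) + 2 * κ <
          Gx (wTD N b) (t • (1 : Matrix (V N) (V N) ℝ)) t 0 X
            ((4 : ℝ) • (smTt p a (T0 i) F + h i)) +
          Gx (wTD N b) (t • (1 : Matrix (V N) (V N) ℝ)) t 0 X
            (-((4 : ℝ) • (smTt p a (T0 i) F + h i)))} ⊆ ⋃ i ∈ Finset.range n, Bs i := by
    rintro F ⟨h1, i, hin, h2⟩
    exact Set.mem_biUnion (Finset.mem_coe.2 (Finset.mem_range.2 hin)) ⟨h1 i hin, h2⟩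
  have h3 : ν (⋃ i ∈ Finset.range n, Bs i) ≤ ENNReal.ofReal (n * E) := by
    refine (measure_biUnion_finset_le _ _).trans ((Finset.sum_le_sum hi).trans ?_)
    rw [Finset.sum_const, Finset.card_range, nsmul_eq_mul,
      ENNReal.ofReal_mul (Nat.cast_nonneg n), ENNReal.ofReal_natCast]
  rw [measureReal_def]
  exact ENNReal.toReal_le_of_le_ofReal (by positivity) ((measure_mono hsub).trans h3)

end

end Vale.Agent.P159.H446.Pr
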