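import Vale.Agent.P159.H446.Pr3
import Vale.Agent.P159.H191.Ct3
import Vale.Agent.P159.H191.Ct6

/-!
P159 / S (helper446): final price of CUT, part 4: the path `YP` of helper191.

* `wV ρ` : the uniform weights of the box of radius `ρ` as weights on the torus, `Wts (wV ρ) ρ`,
* `smr_wV` : `smr (wV ρ) T` is the smeared cut `smTt` of helper764,
* `TP_abs` : `|TP H| ≤ 3 osc H`,
* `price_YP` : the hypothesis `hE` of `cut_path` for all members `YP θ_i (S0 F) + h_i` of a finite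
  family, with the probability of the exceptional set.
-/

open scoped Matrix ENNReal
open Finset MeasureTheory

set_option linter.unusedSectionVars false

namespace Vale.Agent.P159.H446.Pr

open Vale.Agent.P159.TM.H104 (EM)
open Vale.Agent.P159.H37
open Vale.Agent.P159.H770 (GWF Ed wTD wTD_zero gwf_wTD)
open Vale.Agent.P159.H963 (pin ntr nM MF An Anm Ank)
open Vale.Agent.P159.H883
open Vale.Agent.P159.H552.Sm
open Vale.Agent.P159.H764.Evq
open Vale.Agent.P159.H191 (smr TP YP a0 Wts GT RT lcT BT LT iT)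
open Vale.Agent.P159.H817 (sz abs_U U_nonneg U_le_one)
open Vale.Agent.P159.TM.SpecC (wT)
open Vale.Agent.P159.TM.Spec (V)
open Vale.Agent.P159.TM.H365 (box)
open Vale.Agent.P159.H253.Sm (cz wU wU_nonneg wU_sum dU Dt)

noncomputable section

variable {N : ℕ} [NeZero N] {b t : ℝ}

/-! ### the weights -/

/-- the shift of the index `u` -/
def aU (N : ℕ) [NeZero N] (ρ : ℕ) (u : {u : ℤ × ℤ // u ∈ box ρ}) : V N := -cz N u.1

/-- the uniform weights of the box of radius `ρ`, on the torus -/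
def wV (N : ℕ) [NeZero N] (ρ : ℕ) (v : V N) : ℝ :=
  ∑ u : {u : ℤ × ℤ // u ∈ box ρ}, if aU N ρ u = v then wU ρ u else 0

lemma sum_wV (ρ : ℕ) (f : V N → ℝ) : ∑ v, wV N ρ v * f v = ∑ u, wU ρ u * f (aU N ρ u) := by
  unfold wV
  simp only [Finset.sum_mul]
  rw [Finset.sum_comm]
  refine Finset.sum_congr rfl fun u _ => ?_
  simp only [ite_mul, zero_mul]
  rw [Finset.sum_ite_eq]
  simp

lemma natAbs_cast_le {ρ : ℕ} {a : ℤ} (h : a.natAbs ≤ ρ) :
    ((-(a : ZMod N)) : ZMod N).valMinAbs.natAbs ≤ ρ := by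
  have h1 : ((-a : ℤ) : ZMod N) = -(a : ZMod N) := by push_cast; rfl
  rw [← h1]
  have h2 := ZMod.natAbs_min_of_le_div_two N ((((-a : ℤ) : ZMod N)).valMinAbs) (-a)
    (ZMod.coe_valMinAbs _) (ZMod.natAbs_valMinAbs_le _)
  omega

lemma wts_wV (ρ : ℕ) : Wts (wV N ρ) ρ where
  nn v := Finset.sum_nonneg fun u _ => by
    split_ifs
    · exact wU_nonneg ρ u
    · exact le_rfl
  one := by
    have h := sum_wV (N := N) ρ fun _ => 1
    simp only [mul_one] at h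
    rw [h]
    exact wU_sum ρ
  sup v hv := by
    obtain ⟨u, _, hu⟩ := Finset.exists_ne_zero_of_sum_ne_zero hv
    split_ifs at hu with h1
    · rw [← h1]
      obtain ⟨h3, h4⟩ := TM.H365.mem_box.1 u.2
      rw [abs_le] at h3 h4
      unfold sz aU cz
      refine max_le ?_ ?_
      · exact natAbs_cast_le (by omega)
      · exact natAbs_cast_le (by omega)
    · exact absurd rfl hu

lemma smr_wV (ρ : ℕ) (T : (V N → ℝ) → V N → ℝ) (H : V N → ℝ) :
    smr (wV N ρ) T H = smTt (wU ρ) (aU N ρ) T H := by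
  funext x
  unfold smr smTt
  rw [sum_wV ρ fun v => T (fun y => H (y + v)) (x - v), Finset.sum_apply]
  refine Finset.sum_congr rfl fun u _ => ?_
  rw [Pi.smul_apply, smul_eq_mul]
  unfold trS
  rw [sub_eq_add_neg]

/-! ### the maps -/

variable {l : ℕ} {pl μ : V N → ℝ} {θ : V N → ℝ}

lemma TP_add' (l : ℕ) (pl μ : V N → ℝ) (p q : V N) (θ H K : V N → ℝ) :
    TP l pl μ p q θ (H + K) = TP l pl μ p q θ H + TP l pl μ p q θ K := by
  funext x
  exact H191.TP_add pl μ p q θ H K x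

lemma smTt_add {ι : Type*} [Fintype ι] (p : ι → ℝ) (a : ι → V N) {T : (V N → ℝ) → V N → ℝ}
    (hT : ∀ H K, T (H + K) = T H + T K) (H K : V N → ℝ) :
    smTt p a T (H + K) = smTt p a T H + smTt p a T K := by
  unfold smTt
  rw [← Finset.sum_add_distrib]
  refine Finset.sum_congr rfl fun v _ => ?_
  rw [trS_add, hT, trS_add, smul_add]

lemma smTt_comp {ι : Type*} [Fintype ι] (p : ι → ℝ) (a : ι → V N) (T : (V N → ℝ) → V N → ℝ)
    {S : (V N → ℝ) → V N → ℝ} (hS : ∀ a F, S (trS a F) = trS a (S F)) (F : V N → ℝ) :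
    smTt p a T (S F) = smTt p a (fun G => T (S G)) F := by
  unfold smTt
  refine Finset.sum_congr rfl fun v _ => ?_
  rw [← hS]

lemma cont_mn (μ : V N → ℝ) (c : V N) : Continuous fun H : V N → ℝ => H191.mn μ c H := by
  unfold H191.mn
  fun_prop

lemma cont_TP (l : ℕ) (pl μ : V N → ℝ) (p q : V N) (θ : V N → ℝ) :
    Continuous fun H : V N → ℝ => TP l pl μ p q θ H := by
  refine continuous_pi fun x => ?_
  unfold TP
  have h1 := cont_mn μ p
  have h2 := cont_mn μ q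
  fun_prop

lemma TP_addc (hμ : ∑ z, μ z = 1) (p q : V N) (H : V N → ℝ) (c : ℝ) :
    TP l pl μ p q θ (fun x => H x + c) = TP l pl μ p q θ H := by
  funext x
  have h1 := H191.TP_add (l := l) pl μ p q θ H (fun _ => c) x
  rw [H191.TP_const hμ, add_zero] at h1
  exact h1

lemma mn_sub_le (hμ0 : ∀ z, 0 ≤ μ z) (hμ : ∑ z, μ z = 1) (c : V N) {H : V N → ℝ}
    {Ω k : ℝ} (h : ∀ y, |H y - k| ≤ Ω) : |H191.mn μ c H - k| ≤ Ω := by
  have h1 : ∑ y : V N, μ (y - c) = 1 := by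
    have := Equiv.sum_comp (Equiv.subRight c) μ
    rw [← hμ]
    exact this
  have e : H191.mn μ c H - k = ∑ y, μ (y - c) * (H y - k) := by
    unfold H191.mn
    simp only [mul_sub]
    rw [Finset.sum_sub_distrib, ← Finset.sum_mul, h1, one_mul]
  rw [e]
  calc |∑ y, μ (y - c) * (H y - k)| ≤ ∑ y, |μ (y - c) * (H y - k)| :=
        Finset.abs_sum_le_sum_abs _ _
    _ ≤ ∑ y, μ (y - c) * Ω := Finset.sum_le_sum fun y _ => by
        rw [abs_mul, abs_of_nonneg (hμ0 _)]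
        exact mul_le_mul_of_nonneg_left (h y) (hμ0 _)
    _ = Ω := by rw [← Finset.sum_mul, h1, one_mul]

/-- the partially cut field in terms of the oscillation -/
theorem TP_abs (hμ0 : ∀ z, 0 ≤ μ z) (hμ : ∑ z, μ z = 1) (p q : V N)
    (hp0 : ∀ z, 0 ≤ pl z) (hp1 : ∀ z, pl z ≤ 1)
    (hθ0 : ∀ x, 0 ≤ θ x) (hθ1 : ∀ x, θ x ≤ 1) {H : V N → ℝ} {Ω : ℝ}
    (h : ∀ x y, |H x - H y| ≤ Ω) (x : V N) : |TP l pl μ p q θ H x| ≤ 3 * Ω := by
  have hΩ : 0 ≤ Ω := (abs_nonneg _).trans (h x x)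
  have m1 : |H x - H191.mn μ p H| ≤ Ω := by
    rw [abs_sub_comm]
    exact mn_sub_le hμ0 hμ p fun y => h y x
  have m2 : |H191.mn μ q H - H191.mn μ p H| ≤ Ω := by
    refine mn_sub_le hμ0 hμ q fun y => ?_
    rw [abs_sub_comm]
    exact mn_sub_le hμ0 hμ p fun z => h z y
  have c1 := U_nonneg (18 * l) (2 * l) (x - p)
  have c2 := U_le_one (18 * l) (2 * l) (x - p)
  have c3 := U_nonneg (18 * l) (2 * l) (x - q)
  have c4 := U_le_one (18 * l) (2 * l) (x - q)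
  have c5 := hp0 (x - q)
  have c6 := hp1 (x - q)
  have a1 : |1 - θ x * a0 l p q x| ≤ 2 := by
    have h1 : |a0 l p q x| ≤ 1 := by
      unfold a0 H191.chi
      rw [abs_le]
      constructor <;> linarith
    have h2 : |θ x * a0 l p q x| ≤ 1 := by
      rw [abs_mul, abs_of_nonneg (hθ0 x)]
      calc θ x * |a0 l p q x| ≤ 1 * 1 :=
            mul_le_mul (hθ1 x) h1 (abs_nonneg _) zero_le_one
        _ = 1 := one_mul 1
    calc |1 - θ x * a0 l p q x| ≤ |(1 : ℝ)| + |θ x * a0 l p q x| := abs_sub _ _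
      _ ≤ 2 := by rw [abs_one]; linarith
  have a2 : |pl (x - q) - H191.chi l (x - q)| ≤ 1 := by
    unfold H191.chi
    rw [abs_le]
    constructor <;> linarith
  unfold TP
  calc |(1 - θ x * a0 l p q x) * (H x - H191.mn μ p H) +
        θ x * (H191.mn μ q H - H191.mn μ p H) * (pl (x - q) - H191.chi l (x - q))|
      ≤ |(1 - θ x * a0 l p q x) * (H x - H191.mn μ p H)| +
        |θ x * (H191.mn μ q H - H191.mn μ p H) * (pl (x - q) - H191.chi l (x - q))| := abs_add_le _ _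
    _ ≤ 2 * Ω + 1 * Ω * 1 := by
        refine add_le_add ?_ ?_
        · rw [abs_mul]
          exact mul_le_mul a1 m1 (abs_nonneg _) (by norm_num)
        · rw [abs_mul, abs_mul, abs_of_nonneg (hθ0 x)]
          exact mul_le_mul (mul_le_mul (hθ1 x) m2 (abs_nonneg _) zero_le_one) a2
            (abs_nonneg _) (by positivity)
    _ = 3 * Ω := by ring

lemma TP_energy (ht : 0 < t) (hμ0 : ∀ z, 0 ≤ μ z) (hμ : ∑ z, μ z = 1)
    (p q : V N) (hp0 : ∀ z, 0 ≤ pl z) (hp1 : ∀ z, pl z ≤ 1)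
    (hθ0 : ∀ x, 0 ≤ θ x) (hθ1 : ∀ x, θ x ≤ 1) {H : V N → ℝ} {Ω : ℝ}
    (h : ∀ x y, |H x - H y| ≤ Ω) :
    t * ∑ x, (TP l pl μ p q θ H x) ^ 2 ≤ 9 * (t * (N : ℝ) ^ 2) * Ω ^ 2 := by
  have hc : (Finset.univ : Finset (V N)).card = N * N := by
    rw [Finset.card_univ, Fintype.card_prod, ZMod.card]
  calc t * ∑ x, (TP l pl μ p q θ H x) ^ 2 ≤ t * ∑ _x : V N, (3 * Ω) ^ 2 := by
        refine mul_le_mul_of_nonneg_left (Finset.sum_le_sum fun x _ => ?_) ht.le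
        have h1 := TP_abs (l := l) hμ0 hμ p q hp0 hp1 hθ0 hθ1 h x
        rw [← sq_abs]
        exact pow_le_pow_left₀ (abs_nonneg _) h1 2
    _ = 9 * (t * (N : ℝ) ^ 2) * Ω ^ 2 := by
        rw [Finset.sum_const, hc, nsmul_eq_mul]
        push_cast
        ring

/-! ### the letters of 191 -/

lemma GT_eq (hb : 0 ≤ b) (ht : 0 < t) (X : H474.Cb.GE N) (F : V N → ℝ) :
    GT N b t X F = Gx (wTD N b) (t • (1 : Matrix (V N) (V N) ℝ)) t 0 X F :=
  H191.gL_eq hb ht (X, F)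

lemma RT_Rw (hb : 0 < b) (ht : 0 < t) (F : V N → ℝ) :
    RT N b t F = Rw (wTD N b) (t • (1 : Matrix (V N) (V N) ℝ)) t 0 F :=
  H191.RT_eq hb ht F

lemma CX_lcT (hb : 0 < b) (η : Ed N → ℤ) (φ : V N → ℝ) :
    CX (wTD N b) 0 (η, φ) = Real.exp (lcT N b η) := by
  have h1 := CX_pos (w := wTD N b) (gwf_wTD hb) (fun η x₀ => em_pin_wTD hb η x₀) (0 : V N)
    ((η, φ) : (Ed N → ℤ) × (V N → ℝ))
  unfold lcT
  unfold CX at h1 ⊢
  rw [wTD_zero] at h1 ⊢
  rw [Real.exp_log h1]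

/-- **the even parts along the paths of helper191**: exceptional probability of the hypothesis
`hE` of `cut_path` for all the fields `YP θ_i (S0 F) + h_i`, `i < n` -/
theorem price_YP (hb : 0 < b) (ht : 0 < t) {ρ l : ℕ} {η : Ed N → ℤ} {φ : V N → ℝ}
    {pl μ : V N → ℝ} (hμ0 : ∀ z, 0 ≤ μ z) (hμ : ∑ z, μ z = 1) (p q : V N)
    (hp0 : ∀ z, 0 ≤ pl z) (hp1 : ∀ z, pl z ≤ 1) {n : ℕ}
    {θ : ℕ → V N → ℝ} (hθ0 : ∀ i x, 0 ≤ θ i x) (hθ1 : ∀ i x, θ i x ≤ 1)
    {S0 : (V N → ℝ) → V N → ℝ} (hS0 : Continuous S0) (hSt : ∀ a F, S0 (trS a F) = trS a (S0 F))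
    (hSc : ∀ (F : V N → ℝ) (c : ℝ), S0 (fun x => F x + c) = fun x => S0 F x + c)
    (h : ℕ → V N → ℝ) {S r β Ω aa ε : ℝ} (κ : ℝ) (hβ : 0 < β) (hε0 : 0 ≤ ε)
    (hS : SS (wTD N b) 0 (wU ρ) (fun v => trX (aU N ρ v) (η, φ)) ≤ S)
    (ha : ∀ i < n, qf (Anm N b t) (h i) ≤ aa)
    (hε : ∀ i < n, nuM (wT b N) (t • (1 : Matrix (V N) (V N) ℝ)) 0
      {F | r < RT N b t ((32 : ℝ) • TP l pl μ p q (θ i) (S0 F))} ≤ ENNReal.ofReal ε) :
    (nuM (wT b N) (t • (1 : Matrix (V N) (V N) ℝ)) 0).real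
      {F | (∀ x y, |S0 F x - S0 F y| ≤ Ω) ∧ ∃ i < n, 2 * lcT N b η + 2 * κ <
        GT N b t (η, φ) ((4 : ℝ) • (YP l pl μ (wV N ρ) p q (θ i) (S0 F) + h i)) +
        GT N b t (η, φ) (-((4 : ℝ) • (YP l pl μ (wV N ρ) p q (θ i) (S0 F) + h i)))} ≤
      n * (ε / β + (Real.sqrt S * Real.exp (r / 2 - 2 * lcT N b η) + 1) *
        Real.exp (-(8 * κ - 256 * (β ^ 2 * (9 * (t * (N : ℝ) ^ 2) * Ω ^ 2)) - 128 * aa))) := by
  set O : ℝ := 9 * (t * (N : ℝ) ^ 2) * Ω ^ 2 with hO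
  have hO0 : 0 ≤ O := by positivity
  set T0 : ℕ → (V N → ℝ) → V N → ℝ := fun i F => TP l pl μ p q (θ i) (S0 F) with hT0
  have hTm : ∀ i < n, Measurable (T0 i) := fun i _ =>
    ((cont_TP l pl μ p q (θ i)).comp hS0).measurable
  have hTc : ∀ i < n, CI (T0 i) := fun i _ F c => by
    simp only [hT0]
    rw [hSc F c, TP_addc hμ]
  have hε' : ∀ i < n, nuM (wT b N) (t • (1 : Matrix (V N) (V N) ℝ)) 0
      {F | r < Rw (wTD N b) (t • (1 : Matrix (V N) (V N) ℝ)) t 0 ((32 : ℝ) • T0 i F)} ≤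
        ENNReal.ofReal ε := fun i hi => by
    refine le_trans (measure_mono fun F hF => ?_) (hε i hi)
    show r < RT N b t ((32 : ℝ) • TP l pl μ p q (θ i) (S0 F))
    rw [RT_Rw hb ht]
    exact hF
  have key := price_all hb ht (aU N ρ) (wU_nonneg ρ) (wU_sum ρ) hTm hTc (η, φ)
    h κ hβ hO0 hS ha hε0 hε'
  have hlc : Real.log (CX (wTD N b) 0 ((η, φ) : (Ed N → ℤ) × (V N → ℝ))) = lcT N b η := by
    rw [CX_lcT hb, Real.log_exp]
  have hY : ∀ i F, YP l pl μ (wV N ρ) p q (θ i) (S0 F) =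
      smTt (wU ρ) (aU N ρ) (T0 i) F := by
    intro i F
    unfold YP
    rw [smr_wV, smTt_comp _ _ _ hSt]
  have hpr : IsProbabilityMeasure (nuM (wT b N) (t • (1 : Matrix (V N) (V N) ℝ)) 0) :=
    prob_nuM (H963.gw_wT hb.le) (bw_wT hb) (mf_scalar ht) 0
  refine le_trans (measureReal_mono ?_ (measure_ne_top _ _)) (key.trans (le_of_eq ?_))
  · rintro F ⟨h1, i, hin, h2⟩
    refine ⟨fun j _ v => ?_, i, hin, ?_⟩
    · simp only [hT0]
      rw [hSt]
      exact TP_energy ht hμ0 hμ p q hp0 hp1 (hθ0 j) (hθ1 j) fun x y => h1 _ _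
    · rw [hlc, ← hY, ← GT_eq hb.le ht, ← GT_eq hb.le ht]
      exact h2
  · rw [hlc, CX_lcT hb]
    have e1 : (Real.sqrt S * Real.exp (r / 2) + Real.exp (lcT N b η) ^ 2) *
        Real.exp (-(2 * lcT N b η + 8 * κ - 256 * (β ^ 2 * O) - 128 * aa)) =
        (Real.sqrt S * Real.exp (r / 2 - 2 * lcT N b η) + 1) *
          Real.exp (-(8 * κ - 256 * (β ^ 2 * O) - 128 * aa)) := by
      have e2 : Real.exp (-(2 * lcT N b η + 8 * κ - 256 * (β ^ 2 * O) - 128 * aa)) =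
          Real.exp (-(2 * lcT N b η)) * Real.exp (-(8 * κ - 256 * (β ^ 2 * O) - 128 * aa)) := by
        rw [← Real.exp_add]
        congr 1
        ring
      have e3 : Real.exp (r / 2 - 2 * lcT N b η) =
          Real.exp (r / 2) * Real.exp (-(2 * lcT N b η)) := by
        rw [← Real.exp_add]
        congr 1
      have e4 : Real.exp (lcT N b η) ^ 2 * Real.exp (-(2 * lcT N b η)) = 1 := by
        rw [← Real.exp_nat_mul, ← Real.exp_add]
        simp
      rw [e2, e3, ← mul_assoc, add_mul, e4, mul_assoc (Real.sqrt S)]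
    rw [e1]

end

end Vale.Agent.P159.H446.Pr
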