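import Vale.Agent.P159.H446.Pr4

/-!
P159 / S (helper446): CUT at a pair, part 5: the letters of `Spc0` (helper145).

* `wV_eq` : the uniform weights of the box (`wB` of helper145's `Spc0`);
* `plt_pla`, `plp_pla` : the plateau of radius `L ≥ l` in the path of helper191;
* `hull` : a measurable good set from a bound of the outer measure of the bad set.
-/

open scoped Matrix ENNReal
open Finset MeasureTheory

set_option linter.unusedSectionVars false

namespace Vale.Agent.P159.H446.Pr

open Vale.Agent.P159.H883 (nuM prob_nuM bw_wT mf_scalar)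
open Vale.Agent.P159.H191 (smr TP YP hp plp plu pla chi Plt Wts dcs cst0)
open Vale.Agent.P159.H817 (sz U_nonneg U_le_one U_one U_zero sz_add_le sz_sub_comm)
open Vale.Agent.P159.TM.SpecC (wT)
open Vale.Agent.P159.TM.Spec (V)
open Vale.Agent.P159.TM.H365 (box)
open Vale.Agent.P159.H253.Sm (cz wU)

noncomputable section

variable {N : ℕ} [NeZero N] {b t : ℝ}

/-- the uniform weights of the box -/
theorem wV_eq {ρ : ℕ} (h : 2 * ρ + 1 ≤ N) : wV N ρ = fun v : V N =>
    if sz v ≤ ρ then (((2 * ρ + 1 : ℕ) : ℝ) ^ 2)⁻¹ else 0 := by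
  funext v
  unfold wV
  by_cases hv : sz v ≤ ρ
  · rw [if_pos hv]
    have hv1 : v.1.valMinAbs.natAbs ≤ ρ := (le_max_left _ _).trans hv
    have hv2 : v.2.valMinAbs.natAbs ≤ ρ := (le_max_right _ _).trans hv
    have hm : ((-v.1.valMinAbs, -v.2.valMinAbs) : ℤ × ℤ) ∈ box ρ := by
      refine TM.H365.mem_box.2 ?_
      simp only [abs_neg]
      constructor
      · rw [Int.abs_eq_natAbs]
        exact_mod_cast hv1
      · rw [Int.abs_eq_natAbs]
        exact_mod_cast hv2
    rw [Finset.sum_eq_single ⟨_, hm⟩]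
    · rw [if_pos]
      · unfold wU
        rw [H253.Sm.card_box]
        push_cast
        rfl
      · unfold aU cz
        refine Prod.ext ?_ ?_
        · simp
        · simp
    · intro u _ hu
      rw [if_neg]
      intro h1
      refine hu (Subtype.ext ?_)
      obtain ⟨h3, h4⟩ := TM.H365.mem_box.1 u.2
      rw [abs_le] at h3 h4
      have e1 : ((-u.1.1 : ℤ) : ZMod N) = v.1 := by
        have := congrArg Prod.fst h1
        simpa [aU, cz] using this
      have e2 : ((-u.1.2 : ℤ) : ZMod N) = v.2 := by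
        have := congrArg Prod.snd h1
        simpa [aU, cz] using this
      have k1 : v.1.valMinAbs = -u.1.1 := by
        rw [ZMod.valMinAbs_spec]
        refine ⟨e1.symm, ?_⟩
        rw [Set.mem_Ioc]
        constructor <;> omega
      have k2 : v.2.valMinAbs = -u.1.2 := by
        rw [ZMod.valMinAbs_spec]
        refine ⟨e2.symm, ?_⟩
        rw [Set.mem_Ioc]
        constructor <;> omega
      refine Prod.ext ?_ ?_
      · show u.1.1 = -v.1.valMinAbs
        rw [k1, neg_neg]
      · show u.1.2 = -v.2.valMinAbs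
        rw [k2, neg_neg]
    · intro h1
      exact absurd (Finset.mem_univ _) h1
  · rw [if_neg hv]
    refine Finset.sum_eq_zero fun u _ => ?_
    rw [if_neg]
    intro h1
    have h2 := (wts_wV (N := N) ρ).sup v
    refine hv (h2 ?_)
    unfold wV
    refine (Finset.sum_pos' (fun u' _ => ?_) ⟨u, Finset.mem_univ _, ?_⟩).ne'
    · split_ifs
      · exact H253.Sm.wU_nonneg ρ u'
      · exact le_rfl
    · rw [if_pos h1]
      unfold wU
      exact inv_pos.2 (H253.Sm.card_box_pos ρ)

/-- the plateau of radius `30 L`, `L ≥ l` -/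
theorem plt_pla {l L : ℕ} (hl : 0 < l) (hL : l ≤ L) {p q : V N} (hpq : 62 * L ≤ sz (q - p)) :
    Plt l (pla L) p q where
  one z hz := U_one (by omega) (by omega)
  zero x hx := by
    have h1 := sz_add_le (q - x) (x - p)
    rw [sub_add_sub_cancel, sz_sub_comm q x] at h1
    exact U_zero (by omega)

lemma plp_pla (L : ℕ) (μ w : V N → ℝ) (p q : V N) (H : V N → ℝ) (x : V N) :
    plp (pla L) μ w p q H x = plu L μ w p q H x := rfl

lemma pla_nonneg (L : ℕ) (z : V N) : 0 ≤ pla L z := U_nonneg _ _ _

lemma pla_le_one (L : ℕ) (z : V N) : pla L z ≤ 1 := U_le_one _ _ _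

/-- a measurable good set -/
lemma hull {Ω : Type*} [MeasurableSpace Ω] (ν : Measure Ω) [IsFiniteMeasure ν] {B : Set Ω}
    {p : ℝ} (h : ν.real B ≤ p) :
    ∃ G : Set Ω, MeasurableSet G ∧ ν.real Gᶜ ≤ p ∧ ∀ x ∈ G, x ∉ B := by
  refine ⟨(toMeasurable ν B)ᶜ, (measurableSet_toMeasurable ν B).compl, ?_, fun x hx hB => ?_⟩
  · rw [compl_compl]
    refine le_trans (le_of_eq ?_) h
    rw [measureReal_def, measureReal_def, measure_toMeasurable]
  · exact hx (subset_toMeasurable ν B hB)

end

end Vale.Agent.P159.H446.Pr
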