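import Vale.Agent.P159.H446.Pr5

/-!
P159 / S (helper446): final price of CUT, part 6: `price_tot`, the exceptional probability of the
hypothesis `hE` of `cut_path` along a finite family of partially cut fields, all numbers explicit
(`Ω`, `pΩ` : the oscillation of the smoothed field and its exceptional probability).
-/

open scoped Matrix ENNReal
open Finset MeasureTheory

set_option linter.unusedSectionVars false

namespace Vale.Agent.P159.H446.Pr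

open Vale.Agent.P159.H37
open Vale.Agent.P159.H770 (Ed wTD)
open Vale.Agent.P159.H963 (Anm)
open Vale.Agent.P159.H883 (nuM prob_nuM bw_wT mf_scalar trS)
open Vale.Agent.P159.H552.Sm
open Vale.Agent.P159.H764.Evq
open Vale.Agent.P159.H191 (TP YP GT RT lcT)
open Vale.Agent.P159.TM.SpecC (wT)
open Vale.Agent.P159.TM.Spec (V)
open Vale.Agent.P159.H253.Sm (wU)

noncomputable section

variable {N : ℕ} [NeZero N] {b t : ℝ}

/-- **the total price of the path** -/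
theorem price_tot (hb : 0 < b) (ht : 0 < t) (htN : 1 ≤ t * (N : ℝ) ^ 2) {ρ l : ℕ}
    {η : Ed N → ℤ} {φ : V N → ℝ} {pl μ : V N → ℝ} (hμ0 : ∀ z, 0 ≤ μ z) (hμ : ∑ z, μ z = 1)
    (p q : V N) (hp0 : ∀ z, 0 ≤ pl z) (hp1 : ∀ z, pl z ≤ 1) {m : ℕ}
    {θ : ℕ → V N → ℝ} (hθ0 : ∀ i x, 0 ≤ θ i x) (hθ1 : ∀ i x, θ i x ≤ 1)
    {S0 : (V N → ℝ) → V N → ℝ} (hS0 : Continuous S0) (hSt : ∀ a F, S0 (trS a F) = trS a (S0 F))
    (hSc : ∀ (F : V N → ℝ) (c : ℝ), S0 (fun x => F x + c) = fun x => S0 F x + c)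
    (h : ℕ → V N → ℝ) {K0 r aa ε Ω pΩ : ℝ} (κ : ℝ)
    (hε0 : 0 ≤ ε) (hΩ0 : 0 ≤ Ω) (hK0 : 0 ≤ K0 + r / 2)
    (hosc : (nuM (wT b N) (t • (1 : Matrix (V N) (V N) ℝ)) 0).real
      {F | ∃ x y, Ω < |S0 F x - S0 F y|} ≤ pΩ)
    (hS : √(SS (wTD N b) 0 (wU ρ) (fun v => trX (aU N ρ v) (η, φ))) ≤
      Real.exp K0 * Real.exp (lcT N b η) ^ 2)
    (ha : ∀ i < m, qf (Anm N b t) (h i) ≤ aa)
    (hε : ∀ i < m, (nuM (wT b N) (t • (1 : Matrix (V N) (V N) ℝ)) 0).real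
      {F | r < RT N b t ((32 : ℝ) • TP l pl μ p q (θ i) (S0 F))} ≤ ε) :
    (nuM (wT b N) (t • (1 : Matrix (V N) (V N) ℝ)) 0).real
      {F | ∃ i < m, 2 * lcT N b η + 2 * κ <
        GT N b t (η, φ) ((4 : ℝ) • (YP l pl μ (wV N ρ) p q (θ i) (S0 F) + h i)) +
        GT N b t (η, φ) (-((4 : ℝ) • (YP l pl μ (wV N ρ) p q (θ i) (S0 F) + h i)))} ≤
      m * (48 * √(t * (N : ℝ) ^ 2) * (1 + Ω) * ε +
        2 * Real.exp (K0 + r / 2 + 1 + 128 * aa - 8 * κ)) + pΩ := by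
  have hpr : IsProbabilityMeasure (nuM (wT b N) (t • (1 : Matrix (V N) (V N) ℝ)) 0) :=
    prob_nuM (H963.gw_wT hb.le) (bw_wT hb) (mf_scalar ht) 0
  set ν := nuM (wT b N) (t • (1 : Matrix (V N) (V N) ℝ)) 0 with hν
  have hT0 : 0 < √(t * (N : ℝ) ^ 2) := Real.sqrt_pos.2 (by linarith)
  set β : ℝ := (48 * √(t * (N : ℝ) ^ 2) * (1 + Ω))⁻¹ with hβ
  have hβ0 : 0 < β := by positivity
  have hε' : ∀ i < m, ν {F | r < RT N b t ((32 : ℝ) • TP l pl μ p q (θ i) (S0 F))} ≤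
      ENNReal.ofReal ε := fun i hi => by
    have h1 := hε i hi
    rw [measureReal_def] at h1
    rw [← ENNReal.ofReal_toReal (measure_ne_top ν _)]
    exact ENNReal.ofReal_le_ofReal h1
  have hS' : SS (wTD N b) 0 (wU ρ) (fun v => trX (aU N ρ v) (η, φ)) ≤
      (Real.exp K0 * Real.exp (lcT N b η) ^ 2) ^ 2 := by
    have h1 := Real.sqrt_nonneg (SS (wTD N b) 0 (wU ρ) (fun v => trX (aU N ρ v) (η, φ)))
    by_cases h0 : 0 ≤ SS (wTD N b) 0 (wU ρ) (fun v => trX (aU N ρ v) (η, φ))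
    · calc SS (wTD N b) 0 (wU ρ) (fun v => trX (aU N ρ v) (η, φ))
          = √(SS (wTD N b) 0 (wU ρ) (fun v => trX (aU N ρ v) (η, φ))) ^ 2 := (Real.sq_sqrt h0).symm
        _ ≤ _ := pow_le_pow_left₀ h1 hS 2
    · push Not at h0
      exact h0.le.trans (sq_nonneg _)
  have key := price_YP (n := m) hb ht hμ0 hμ p q hp0 hp1 hθ0 hθ1 hS0 hSt hSc
    h (Ω := Ω) κ hβ0 hε0 hS' ha hε'
  have hsub : {F | ∃ i < m, 2 * lcT N b η + 2 * κ <
        GT N b t (η, φ) ((4 : ℝ) • (YP l pl μ (wV N ρ) p q (θ i) (S0 F) + h i)) +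
        GT N b t (η, φ) (-((4 : ℝ) • (YP l pl μ (wV N ρ) p q (θ i) (S0 F) + h i)))} ⊆
      {F | (∀ x y, |S0 F x - S0 F y| ≤ Ω) ∧ ∃ i < m, 2 * lcT N b η + 2 * κ <
        GT N b t (η, φ) ((4 : ℝ) • (YP l pl μ (wV N ρ) p q (θ i) (S0 F) + h i)) +
        GT N b t (η, φ) (-((4 : ℝ) • (YP l pl μ (wV N ρ) p q (θ i) (S0 F) + h i)))} ∪
      {F | ∃ x y, Ω < |S0 F x - S0 F y|} := by
    intro F hF
    by_cases h1 : ∃ x y, Ω < |S0 F x - S0 F y|
    · exact Or.inr h1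
    · push Not at h1
      exact Or.inl ⟨h1, hF⟩
  refine (measureReal_mono hsub (measure_ne_top _ _)).trans ((measureReal_union_le _ _).trans
    (add_le_add (key.trans ?_) hosc))
  refine mul_le_mul_of_nonneg_left (add_le_add (le_of_eq ?_) ?_) (Nat.cast_nonneg m)
  · rw [hβ, div_inv_eq_mul]
    ring
  · have e1 : √((Real.exp K0 * Real.exp (lcT N b η) ^ 2) ^ 2) =
        Real.exp (K0 + 2 * lcT N b η) := by
      rw [Real.sqrt_sq (by positivity), ← Real.exp_nat_mul, ← Real.exp_add]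
      push_cast
      ring_nf
    have e2 : 256 * (β ^ 2 * (9 * (t * (N : ℝ) ^ 2) * Ω ^ 2)) ≤ 1 := by
      have h1 : β * (48 * √(t * (N : ℝ) ^ 2) * Ω) ≤ 1 := by
        rw [hβ, inv_mul_le_iff₀ (by positivity), mul_one]
        nlinarith
      have h2 : 0 ≤ β * (48 * √(t * (N : ℝ) ^ 2) * Ω) := by positivity
      have h3 : 256 * (β ^ 2 * (9 * (t * (N : ℝ) ^ 2) * Ω ^ 2)) =
          (β * (48 * √(t * (N : ℝ) ^ 2) * Ω)) ^ 2 := by
        have : (t * (N : ℝ) ^ 2) = √(t * (N : ℝ) ^ 2) ^ 2 := (Real.sq_sqrt (by linarith)).symm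
        calc 256 * (β ^ 2 * (9 * (t * (N : ℝ) ^ 2) * Ω ^ 2))
            = 256 * (β ^ 2 * (9 * √(t * (N : ℝ) ^ 2) ^ 2 * Ω ^ 2)) := by rw [← this]
          _ = _ := by ring
      rw [h3]
      exact pow_le_one₀ h2 h1
    have e3 : √((Real.exp K0 * Real.exp (lcT N b η) ^ 2) ^ 2) *
        Real.exp (r / 2 - 2 * lcT N b η) + 1 ≤ 2 * Real.exp (K0 + r / 2) := by
      rw [e1, ← Real.exp_add]
      have h1 : K0 + 2 * lcT N b η + (r / 2 - 2 * lcT N b η) = K0 + r / 2 := by ring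
      rw [h1]
      have h2 : 1 ≤ Real.exp (K0 + r / 2) := Real.one_le_exp hK0
      linarith
    calc _ ≤ 2 * Real.exp (K0 + r / 2) * Real.exp (1 + 128 * aa - 8 * κ) := by
          refine mul_le_mul e3 (Real.exp_le_exp.2 ?_) (Real.exp_pos _).le (by positivity)
          linarith
      _ = _ := by
          rw [mul_assoc, ← Real.exp_add]
          ring_nf

end

end Vale.Agent.P159.H446.Pr
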