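import Vale.Agent.P159.H446.Cut4
import Vale.Agent.P159.H963.Core2

/-!
P159 / S (helper446): the non-quadratic part along the path of CUT, from single locations.

* `RT_RF` : `RT` of helper191 is `RF` of helper963;
* `rt_one` : one profile: `RT (z • YP θ (S0 F)) ≤ δ' + β * z² / 2 * 9 t N² Ω²` off an event of
  probability `ε' / β`, `ε'` the probability of `δ' < RT (z • TP θ (S0 F))` at one location;
* `rt_all`, `hR_of` : all fields of the path.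
-/

open scoped Matrix ENNReal
open Finset MeasureTheory

set_option linter.unusedSectionVars false

namespace Vale.Agent.P159.H446.Pr

open Vale.Agent.P159.H37
open Vale.Agent.P159.H770 (Ed wTD wTD_zero gwf_wTD)
open Vale.Agent.P159.TM.H104 (EM)
open Vale.Agent.P159.H963 (Anm)
open Vale.Agent.P159.H963.Core (RF)
open Vale.Agent.P159.H883
open Vale.Agent.P159.H552.Sm
open Vale.Agent.P159.H764.Evq
open Vale.Agent.P159.H191 (TP YP RT LT BT iT lcT RL th)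
open Vale.Agent.P159.TM.SpecC (wT)
open Vale.Agent.P159.TM.Spec (V)
open Vale.Agent.P159.H253.Sm (wU wU_nonneg wU_sum)

noncomputable section

variable {N : ℕ} [NeZero N] {b t : ℝ}

lemma RT_RF (hb : 0 < b) (ht : 0 < t) (F : V N → ℝ) : RT N b t F = RF N b t F := by
  rw [H191.RT_eq hb ht, wTD_zero, H817.ntr_sc]
  unfold RF H817.Pt H963.nwt
  rw [Matrix.smul_mulVec, Matrix.mulVec_smul]

lemma RT_le_mass (hb : 0 < b) (ht : 0 < t) (F : V N → ℝ) :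
    RT N b t F ≤ t / 2 * ∑ x, F x ^ 2 := by
  have h1 := H191.LT_le (N := N) hb ht 0 0 F
  have h0 : lcT N b 0 = 0 := by
    unfold lcT
    rw [wTD_zero, div_self, Real.log_one]
    exact ((H883.bw_wT (N := N) hb).Zp_pos 0).ne'
  have e0 : ((0, 0) : H474.Cb.GE N) = 0 := rfl
  rw [h0, e0, zero_add] at h1
  have h2 := An_le_mass (N := N) hb ht F
  have h3 : BT N b t F F = qf (Anm N b t) F := (H37.bf_self _ _)
  unfold RT RL
  rw [h3]
  linarith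

lemma RT_tr (hb : 0 < b) (ht : 0 < t) (c : V N) (F : V N → ℝ) :
    RT N b t (trS c F) = RT N b t F := by
  rw [RT_RF hb ht, RT_RF hb ht]
  exact H963.Core.RF_tr hb ht c F

lemma RT_sum (hb : 0 < b) (ht : 0 < t) {ι : Type*} [Fintype ι] {p : ι → ℝ} (hp : ∀ v, 0 ≤ p v)
    (hp1 : ∑ v, p v = 1) (f : ι → V N → ℝ) :
    RT N b t (∑ v, p v • f v) ≤ ∑ v, p v * RT N b t (f v) := by
  have h := (H963.Core.RF_convex (N := N) hb ht).map_sum_le (t := Finset.univ) (w := p) (p := f)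
    (fun v _ => hp v) hp1 fun v _ => Set.mem_univ _
  simp only [smul_eq_mul] at h
  rw [RT_RF hb ht]
  refine h.trans (le_of_eq (Finset.sum_congr rfl fun v _ => ?_))
  rw [RT_RF hb ht]

open Classical in
/-- **one profile** -/
theorem rt_one (hb : 0 < b) (ht : 0 < t) {ρ l : ℕ} {pl μ : V N → ℝ} (hμ0 : ∀ z, 0 ≤ μ z)
    (hμ : ∑ z, μ z = 1) (p q : V N) (hp0 : ∀ z, 0 ≤ pl z) (hp1 : ∀ z, pl z ≤ 1)
    {θ : V N → ℝ} (hθ0 : ∀ x, 0 ≤ θ x) (hθ1 : ∀ x, θ x ≤ 1)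
    {S0 : (V N → ℝ) → V N → ℝ} (hS0 : Continuous S0) (hSt : ∀ a F, S0 (trS a F) = trS a (S0 F))
    (hSc : ∀ (F : V N → ℝ) (c : ℝ), S0 (fun x => F x + c) = fun x => S0 F x + c)
    (z : ℝ) {δ' ε' Ω β : ℝ} (hβ : 0 < β) (hδ : 0 ≤ δ')
    (hε : nuM (wT b N) (t • (1 : Matrix (V N) (V N) ℝ)) 0
      {F | δ' < RT N b t (z • TP l pl μ p q θ (S0 F))} ≤ ENNReal.ofReal ε') :
    nuM (wT b N) (t • (1 : Matrix (V N) (V N) ℝ)) 0
      {F | (∀ x y, |S0 F x - S0 F y| ≤ Ω) ∧ δ' + β * (z ^ 2 / 2 * (9 * (t * (N : ℝ) ^ 2) * Ω ^ 2)) <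
        RT N b t (z • YP l pl μ (wV N ρ) p q θ (S0 F))} ≤ ENNReal.ofReal (ε' / β) := by
  have hw := gwf_wTD (N := N) hb
  have hE : ∀ (η : Ed N → ℤ) x₀, EM (H963.pin (wTD N b η) x₀) := fun η x₀ => em_pin_wTD hb η x₀
  have hM := mf_scalar (N := N) ht
  set MM := t • (1 : Matrix (V N) (V N) ℝ) with hMM
  set T0 : (V N → ℝ) → V N → ℝ := fun F => TP l pl μ p q θ (S0 F) with hT0
  have hT : Measurable T0 := ((cont_TP l pl μ p q θ).comp hS0).measurable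
  have hTc : CI T0 := fun F c => by
    simp only [hT0]
    rw [hSc F c, TP_addc hμ]
  set A0 := AT (wTD N b) MM t (0 : V N) T0 (z / 2) δ' with hA0
  have hA0m : MeasurableSet A0 := meas_AT hw hE hM hT (z / 2) δ'
  have hA0c : CI fun F => F ∈ A0 :=
    ci_AT (w := wTD N b) (M := MM) (m := t) (x₀ := (0 : V N)) hTc (z / 2) δ'
  have hmem : ∀ F, F ∈ A0 ↔ RT N b t (z • T0 F) ≤ δ' := by
    intro F
    rw [RT_Rw hb ht]
    have e : (2 : ℝ) * (z / 2) = z := by ring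
    show Rw (wTD N b) MM t 0 (((2 : ℝ) * (z / 2)) • T0 F) ≤ δ' ↔ _
    rw [e]
  have hmv : ∀ v, Mv (wTD N b) MM t 0 (trS (aU N ρ v)) (trS (-aU N ρ v)) (trX (aU N ρ v)) :=
    fun v => mv_tor hb ht (aU N ρ v)
  have h1 := bm_mk hmv (wU_nonneg ρ) (wU_sum ρ) hA0m hA0c hβ
  rw [wTD_zero] at h1
  have hAc : nuM (wT b N) MM 0 A0ᶜ ≤ ENNReal.ofReal ε' := by
    refine le_trans (measure_mono fun F hF => ?_) hε
    have h3 : ¬ F ∈ A0 := hF
    rw [hmem] at h3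
    exact not_le.1 h3
  set O : ℝ := z ^ 2 / 2 * (9 * (t * (N : ℝ) ^ 2) * Ω ^ 2) with hO
  have hO0 : 0 ≤ O := by positivity
  refine le_trans (measure_mono ?_) (h1.trans ((ENNReal.div_le_div_right hAc _).trans
    (le_of_eq (ENNReal.ofReal_div_of_pos hβ).symm)))
  rintro F ⟨hF1, hF2⟩
  show β < bm (wU ρ) (fun v => trS (aU N ρ v)) A0 F
  by_contra hc
  push Not at hc
  have hY : z • YP l pl μ (wV N ρ) p q θ (S0 F) =
      ∑ v, wU ρ v • (z • trS (-aU N ρ v) (T0 (trS (aU N ρ v) F))) := by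
    unfold YP
    rw [smr_wV, smTt_comp _ _ _ hSt]
    unfold smTt
    rw [Finset.smul_sum]
    exact Finset.sum_congr rfl fun v _ => smul_comm _ _ _
  have h3 := RT_sum hb ht (wU_nonneg ρ) (wU_sum ρ)
    fun v => z • trS (-aU N ρ v) (T0 (trS (aU N ρ v) F))
  rw [← hY] at h3
  have h4 : ∑ v, wU ρ v * RT N b t (z • trS (-aU N ρ v) (T0 (trS (aU N ρ v) F))) ≤
      ∑ v, (wU ρ v * δ' + (if trS (aU N ρ v) F ∈ A0 then 0 else wU ρ v) * O) := by
    refine Finset.sum_le_sum fun v _ => ?_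
    have e1 : z • trS (-aU N ρ v) (T0 (trS (aU N ρ v) F)) =
        trS (-aU N ρ v) (z • T0 (trS (aU N ρ v) F)) := rfl
    rw [e1, RT_tr hb ht]
    by_cases h : trS (aU N ρ v) F ∈ A0
    · rw [if_pos h, zero_mul, add_zero]
      exact mul_le_mul_of_nonneg_left ((hmem _).1 h) (wU_nonneg ρ v)
    · rw [if_neg h, ← mul_add]
      refine mul_le_mul_of_nonneg_left ?_ (wU_nonneg ρ v)
      refine (RT_le_mass hb ht _).trans ?_
      have e2 : ∑ x, (z • T0 (trS (aU N ρ v) F)) x ^ 2 =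
          z ^ 2 * ∑ x, (T0 (trS (aU N ρ v) F) x) ^ 2 := by
        rw [Finset.mul_sum]
        refine Finset.sum_congr rfl fun x _ => ?_
        rw [Pi.smul_apply, smul_eq_mul, mul_pow]
      have e3 : t * ∑ x, (T0 (trS (aU N ρ v) F) x) ^ 2 ≤ 9 * (t * (N : ℝ) ^ 2) * Ω ^ 2 := by
        simp only [hT0]
        rw [hSt]
        exact TP_energy ht hμ0 hμ p q hp0 hp1 hθ0 hθ1 fun x y => hF1 _ _
      rw [e2, hO]
      have e4 : t / 2 * (z ^ 2 * ∑ x, (T0 (trS (aU N ρ v) F) x) ^ 2) =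
          z ^ 2 / 2 * (t * ∑ x, (T0 (trS (aU N ρ v) F) x) ^ 2) := by ring
      rw [e4]
      have e5 := mul_le_mul_of_nonneg_left e3 (show 0 ≤ z ^ 2 / 2 by positivity)
      linarith
  have h5 : ∑ v, (wU ρ v * δ' + (if trS (aU N ρ v) F ∈ A0 then 0 else wU ρ v) * O) =
      δ' + bm (wU ρ) (fun v => trS (aU N ρ v)) A0 F * O := by
    rw [Finset.sum_add_distrib, ← Finset.sum_mul, ← Finset.sum_mul, wU_sum, one_mul]
    rfl
  have h6 := mul_le_mul_of_nonneg_right hc hO0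
  linarith

/-- **all profiles of the path** -/
theorem rt_all (hb : 0 < b) (ht : 0 < t) {ρ l n : ℕ} [NeZero n] {pl μ : V N → ℝ}
    (hμ0 : ∀ z, 0 ≤ μ z) (hμ : ∑ z, μ z = 1) (p q : V N) (hp0 : ∀ z, 0 ≤ pl z)
    (hp1 : ∀ z, pl z ≤ 1) {S0 : (V N → ℝ) → V N → ℝ} (hS0 : Continuous S0)
    (hSt : ∀ a F, S0 (trS a F) = trS a (S0 F))
    (hSc : ∀ (F : V N → ℝ) (c : ℝ), S0 (fun x => F x + c) = fun x => S0 F x + c)
    {δ' ε' Ω : ℝ} (hδ : 0 < δ') (hε0 : 0 ≤ ε')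
    (hε : ∀ j < n, ∀ i ≤ n * n, (nuM (wT b N) (t • (1 : Matrix (V N) (V N) ℝ)) 0).real
      {F | δ' < RT N b t ((4 : ℝ) • TP l pl μ p q (sj N n l j i) (S0 F))} ≤ ε') :
    (nuM (wT b N) (t • (1 : Matrix (V N) (V N) ℝ)) 0).real
      {F | (∀ x y, |S0 F x - S0 F y| ≤ Ω) ∧ ∃ j < n, ∃ i ≤ n * n, 2 * δ' <
        RT N b t ((4 : ℝ) • YP l pl μ (wV N ρ) p q (sj N n l j i) (S0 F))} ≤
      (n * (n * n + 1) : ℕ) * (72 * (t * (N : ℝ) ^ 2) * (1 + Ω ^ 2) / δ' * ε') := by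
  have hpr : IsProbabilityMeasure (nuM (wT b N) (t • (1 : Matrix (V N) (V N) ℝ)) 0) :=
    prob_nuM (H963.gw_wT hb.le) (bw_wT hb) (mf_scalar ht) 0
  set ν := nuM (wT b N) (t • (1 : Matrix (V N) (V N) ℝ)) 0 with hν
  have hN1 : (1 : ℝ) ≤ N := by exact_mod_cast NeZero.pos N
  set O : ℝ := 72 * (t * (N : ℝ) ^ 2) * (1 + Ω ^ 2) with hO
  have hO0 : 0 < O := by positivity
  set β : ℝ := δ' / O with hβ
  have hβ0 : 0 < β := div_pos hδ hO0
  have hb1 : β * ((4 : ℝ) ^ 2 / 2 * (9 * (t * (N : ℝ) ^ 2) * Ω ^ 2)) ≤ δ' := by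
    rw [hβ, div_mul_eq_mul_div, div_le_iff₀ hO0]
    refine mul_le_mul_of_nonneg_left ?_ hδ.le
    rw [hO]
    have h1 : 0 ≤ t * (N : ℝ) ^ 2 := by positivity
    nlinarith [mul_nonneg h1 (sq_nonneg Ω)]
  set Bs : ℕ → ℕ → Set (V N → ℝ) := fun j i => {F | (∀ x y, |S0 F x - S0 F y| ≤ Ω) ∧
    δ' + β * ((4 : ℝ) ^ 2 / 2 * (9 * (t * (N : ℝ) ^ 2) * Ω ^ 2)) <
        RT N b t ((4 : ℝ) • YP l pl μ (wV N ρ) p q (sj N n l j i) (S0 F))} with hBs
  have hone : ∀ j ∈ Finset.range n, ∀ i ∈ Finset.range (n * n + 1),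
      ν.real (Bs j i) ≤ O / δ' * ε' := by
    intro j hj i hi
    have hj' := Finset.mem_range.1 hj
    have hi' : i ≤ n * n := Nat.lt_succ_iff.1 (Finset.mem_range.1 hi)
    have h1 : ν {F | δ' < RT N b t ((4 : ℝ) • TP l pl μ p q (sj N n l j i) (S0 F))} ≤
        ENNReal.ofReal ε' := by
      have h2 := hε j hj' i hi'
      rw [measureReal_def] at h2
      rw [← ENNReal.ofReal_toReal (measure_ne_top ν _)]
      exact ENNReal.ofReal_le_ofReal h2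
    have h3 := rt_one (ρ := ρ) hb ht hμ0 hμ p q hp0 hp1 (sj_nonneg (N := N) (n := n) (l := l) j i)
      (sj_le_one hj' i) hS0 hSt hSc 4 (Ω := Ω) hβ0 hδ.le h1
    have h4 : ε' / β = O / δ' * ε' := by
      rw [hβ, div_div_eq_mul_div]
      ring
    rw [h4] at h3
    rw [measureReal_def]
    exact ENNReal.toReal_le_of_le_ofReal (by positivity) h3
  have hsub : {F | (∀ x y, |S0 F x - S0 F y| ≤ Ω) ∧ ∃ j < n, ∃ i ≤ n * n, 2 * δ' <
        RT N b t ((4 : ℝ) • YP l pl μ (wV N ρ) p q (sj N n l j i) (S0 F))} ⊆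
      ⋃ j ∈ Finset.range n, ⋃ i ∈ Finset.range (n * n + 1), Bs j i := by
    rintro F ⟨h1, j, hj, i, hi, h2⟩
    refine Set.mem_biUnion (Finset.mem_coe.2 (Finset.mem_range.2 hj)) ?_
    refine Set.mem_biUnion (Finset.mem_coe.2 (Finset.mem_range.2 (Nat.lt_succ_iff.2 hi))) ?_
    exact ⟨h1, by linarith⟩
  refine (measureReal_mono hsub (measure_ne_top _ _)).trans ?_
  refine (measureReal_biUnion_finset_le _ _).trans ?_
  calc ∑ j ∈ Finset.range n, ν.real (⋃ i ∈ Finset.range (n * n + 1), Bs j i)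
      ≤ ∑ j ∈ Finset.range n, ((n * n + 1 : ℕ) : ℝ) * (O / δ' * ε') := by
        refine Finset.sum_le_sum fun j hj => ?_
        refine (measureReal_biUnion_finset_le _ _).trans ?_
        refine (Finset.sum_le_sum (hone j hj)).trans (le_of_eq ?_)
        rw [Finset.sum_const, Finset.card_range, nsmul_eq_mul]
    _ = (n * (n * n + 1) : ℕ) * (O / δ' * ε') := by
        rw [Finset.sum_const, Finset.card_range, nsmul_eq_mul]
        push_cast
        ring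

/-- the hypothesis `hR` of `cut_pair1` -/
lemma hR_of (hb : 0 < b) (ht : 0 < t) {n l : ℕ} [NeZero n] {S0 : (V N → ℝ) → V N → ℝ}
    (hSa : ∀ F G, S0 (F + G) = S0 F + S0 G) {pl μ w : V N → ℝ} {p q : V N} {g F : V N → ℝ}
    {j i : ℕ} {δ' δ'' : ℝ}
    (h1 : RT N b t ((4 : ℝ) • YP l pl μ w p q (sj N n l j i) (S0 F)) ≤ 2 * δ')
    (h2 : RT N b t ((4 : ℝ) • H1 N n l S0 pl μ w p q g j i) ≤ δ'') :
    RT N b t ((2 : ℝ) • Y1 N n l pl μ w p q (S0 (F + g)) g j i) ≤ δ' + δ'' / 2 := by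
  have h3 := H191.RT_add hb ht ((2 : ℝ) • YP l pl μ w p q (sj N n l j i) (S0 F))
    ((2 : ℝ) • H1 N n l S0 pl μ w p q g j i)
  rw [smul_smul, smul_smul, ← smul_add, ← Y1_split hSa] at h3
  norm_num at h3
  linarith

end

end Vale.Agent.P159.H446.Pr
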